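import Vale.Agent.P347.Defs

/-!
P347: instance shortcuts for Euclidean spaces and the continuous linear maps between them. All of
them are propositions inferred from Mathlib; they only make instance search faster.
-/

open MeasureTheory

namespace Vale.Agent.P347

variable {ι κ : Type*} [Fintype ι] [Fintype κ]

instance euc_continuousSMul : ContinuousSMul ℝ (EuclideanSpace ℝ ι) := inferInstance
instance euc_continuousConstSMul : ContinuousConstSMul ℝ (EuclideanSpace ℝ ι) := inferInstance
instance euc_continuousAdd : ContinuousAdd (EuclideanSpace ℝ ι) := inferInstance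
instance euc_continuousSub : ContinuousSub (EuclideanSpace ℝ ι) := inferInstance
instance euc_t2Space : T2Space (EuclideanSpace ℝ ι) := inferInstance
instance euc_completeSpace : CompleteSpace (EuclideanSpace ℝ ι) := inferInstance
instance euc_normSMulClass : NormSMulClass ℝ (EuclideanSpace ℝ ι) := inferInstance
instance euc_topologicalAddGroup : IsTopologicalAddGroup (EuclideanSpace ℝ ι) := inferInstance

instance clm1_continuousSMul : ContinuousSMul ℝ (EuclideanSpace ℝ ι →L[ℝ] ℝ) := inferInstance
instance clm1_continuousAdd : ContinuousAdd (EuclideanSpace ℝ ι →L[ℝ] ℝ) := inferInstance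
instance clm1_continuousSub : ContinuousSub (EuclideanSpace ℝ ι →L[ℝ] ℝ) := inferInstance
instance clm1_t2Space : T2Space (EuclideanSpace ℝ ι →L[ℝ] ℝ) := inferInstance
instance clm1_completeSpace : CompleteSpace (EuclideanSpace ℝ ι →L[ℝ] ℝ) := inferInstance
instance clm1_normSMulClass : NormSMulClass ℝ (EuclideanSpace ℝ ι →L[ℝ] ℝ) := inferInstance

instance clm2_continuousSMul :
    ContinuousSMul ℝ (EuclideanSpace ℝ ι →L[ℝ] EuclideanSpace ℝ κ) := inferInstance
instance clm2_continuousAdd :
    ContinuousAdd (EuclideanSpace ℝ ι →L[ℝ] EuclideanSpace ℝ κ) := inferInstance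
instance clm2_continuousSub :
    ContinuousSub (EuclideanSpace ℝ ι →L[ℝ] EuclideanSpace ℝ κ) := inferInstance
instance clm2_t2Space : T2Space (EuclideanSpace ℝ ι →L[ℝ] EuclideanSpace ℝ κ) := inferInstance
instance clm2_completeSpace :
    CompleteSpace (EuclideanSpace ℝ ι →L[ℝ] EuclideanSpace ℝ κ) := inferInstance
instance clm2_normSMulClass :
    NormSMulClass ℝ (EuclideanSpace ℝ ι →L[ℝ] EuclideanSpace ℝ κ) := inferInstance

instance clm3_continuousSMul :
    ContinuousSMul ℝ (EuclideanSpace ℝ ι →L[ℝ] EuclideanSpace ℝ ι →L[ℝ] ℝ) := inferInstance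
instance clm3_t2Space :
    T2Space (EuclideanSpace ℝ ι →L[ℝ] EuclideanSpace ℝ ι →L[ℝ] ℝ) := inferInstance
instance clm3_completeSpace :
    CompleteSpace (EuclideanSpace ℝ ι →L[ℝ] EuclideanSpace ℝ ι →L[ℝ] ℝ) := inferInstance

instance clm4_continuousSMul : ContinuousSMul ℝ
    (EuclideanSpace ℝ ι →L[ℝ] EuclideanSpace ℝ ι →L[ℝ] EuclideanSpace ℝ κ) := inferInstance
instance clm4_continuousAdd : ContinuousAdd
    (EuclideanSpace ℝ ι →L[ℝ] EuclideanSpace ℝ ι →L[ℝ] EuclideanSpace ℝ κ) := inferInstance
instance clm4_t2Space : T2Space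
    (EuclideanSpace ℝ ι →L[ℝ] EuclideanSpace ℝ ι →L[ℝ] EuclideanSpace ℝ κ) := inferInstance
instance clm4_completeSpace : CompleteSpace
    (EuclideanSpace ℝ ι →L[ℝ] EuclideanSpace ℝ ι →L[ℝ] EuclideanSpace ℝ κ) := inferInstance

instance euc_secondCountable : SecondCountableTopology (EuclideanSpace ℝ ι) := inferInstance
instance euc_borelSpace : BorelSpace (EuclideanSpace ℝ ι) := inferInstance

end Vale.Agent.P347
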