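import Vale.Agent.P347.Defs
import Vale.Agent.P347.Shortcuts

/-!
P347: combinators for algorithms in the oracle model. `Samp d q L` says that some algorithm
making `q` queries has output law `L V` on every twice continuously differentiable potential.
-/

open MeasureTheory ProbabilityTheory
open scoped Gradient

namespace Vale.Agent.P347

noncomputable section

variable {d q : ℕ} {α β : Type} [MeasurableSpace α] [MeasurableSpace β]

/-- The output law `L` is achievable with `q` queries. -/
def Samp (d q : ℕ) {α : Type} [MeasurableSpace α] (L : (E d → ℝ) → Measure α) : Prop :=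
  ∃ A : Alg d q α, ∀ V, ContDiff ℝ 2 V → A.outLaw V = L V

theorem continuous_oracle {V : E d → ℝ} (hV : ContDiff ℝ 2 V) : Continuous (oracle V) :=
  hV.continuous.prodMk ((InnerProductSpace.toDual ℝ (E d)).symm.continuous.comp
    (hV.continuous_fderiv two_ne_zero))

theorem measurable_oracle {V : E d → ℝ} (hV : ContDiff ℝ 2 V) : Measurable (oracle V) :=
  (continuous_oracle hV).measurable

theorem measurable_answers (A : Alg d q α) {V : E d → ℝ} (hV : ContDiff ℝ 2 V) :
    ∀ i (h : i ≤ q), Measurable fun r => A.answers V r i h
  | 0, _ => measurable_const (a := Fin.elim0)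
  | i + 1, h => by
    have ih := measurable_answers A hV i (Nat.le_of_succ_le h)
    refine measurable_pi_lambda _ fun j => ?_
    induction j using Fin.lastCases with
    | last =>
      simp only [Alg.answers, Fin.snoc_last]
      exact (measurable_oracle hV).comp
        ((A.query_measurable _).comp (measurable_id.prodMk ih))
    | cast j =>
      simp only [Alg.answers, Fin.snoc_castSucc]
      exact (measurable_pi_apply j).comp ih

theorem measurable_run (A : Alg d q α) {V : E d → ℝ} (hV : ContDiff ℝ 2 V) :
    Measurable fun r => A.output (r, A.answers V r q le_rfl) :=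
  A.output_measurable.comp (measurable_id.prodMk (measurable_answers A hV q le_rfl))

theorem Samp.congr {L L' : (E d → ℝ) → Measure α} (h : Samp d q L)
    (hL : ∀ V, ContDiff ℝ 2 V → L V = L' V) : Samp d q L' :=
  let ⟨A, hA⟩ := h
  ⟨A, fun V hV => (hA V hV).trans (hL V hV)⟩

/-- Random reals pushed forward, with no query. -/
theorem Samp.pure_map {k : ℕ} (law : Measure (Fin k → ℝ)) [IsProbabilityMeasure law]
    {f : (Fin k → ℝ) → α} (hf : Measurable f) : Samp d 0 fun _ => law.map f :=
  ⟨⟨k, law, inferInstance, fun i => i.elim0, fun i => i.elim0, fun p => f p.1,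
    hf.comp measurable_fst⟩, fun _ _ => rfl⟩

/-- Post-processing. -/
theorem Samp.map {L : (E d → ℝ) → Measure α} (h : Samp d q L) {f : α → β} (hf : Measurable f) :
    Samp d q fun V => (L V).map f := by
  obtain ⟨A, hA⟩ := h
  refine ⟨⟨A.seeds, A.law, A.isProb, A.query, A.query_measurable, f ∘ A.output,
    hf.comp A.output_measurable⟩, fun V hV => ?_⟩
  show _ = (L V).map f
  rw [← hA V hV, Alg.outLaw, Alg.outLaw, Measure.map_map hf (measurable_run A hV)]
  have hans : ∀ r i (hi : i ≤ q), Alg.answers
      (⟨A.seeds, A.law, A.isProb, A.query, A.query_measurable, f ∘ A.output,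
        hf.comp A.output_measurable⟩ : Alg d q β) V r i hi = A.answers V r i hi := by
    intro r i
    induction i with
    | zero => exact fun _ => rfl
    | succ i ih => intro hi; simp only [Alg.answers, ih]
  simp only [hans]
  rfl

/-- Fresh random reals, independent of the past. -/
theorem Samp.rand_map {L : (E d → ℝ) → Measure α} (h : Samp d q L) {k : ℕ}
    (law : Measure (Fin k → ℝ)) [IsProbabilityMeasure law]
    {f : (Fin k → ℝ) → β} (hf : Measurable f) :
    Samp d q fun V => (L V).prod (law.map f) := by
  obtain ⟨A, hA⟩ := h
  let fst : (Fin (A.seeds + k) → ℝ) → Fin A.seeds → ℝ := fun r j => r (Fin.castAdd k j)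
  let snd : (Fin (A.seeds + k) → ℝ) → Fin k → ℝ := fun r j => r (Fin.natAdd A.seeds j)
  let app : (Fin A.seeds → ℝ) × (Fin k → ℝ) → Fin (A.seeds + k) → ℝ :=
    fun p => Fin.append p.1 p.2
  have happ : Measurable app := measurable_pi_lambda _ fun i => by
    induction i using Fin.addCases with
    | left j => simp only [app, Fin.append_left]; exact (measurable_pi_apply j).comp measurable_fst
    | right j => simp only [app, Fin.append_right]; exact (measurable_pi_apply j).comp measurable_snd
  have hfst : Measurable fst := measurable_pi_lambda _ fun _ => measurable_pi_apply _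
  have hsnd : Measurable snd := measurable_pi_lambda _ fun _ => measurable_pi_apply _
  have := A.isProb
  let B : Alg d q (α × β) :=
    ⟨A.seeds + k, (A.law.prod law).map app, Measure.isProbabilityMeasure_map happ.aemeasurable,
      fun i p => A.query i (fst p.1, p.2),
      fun i => (A.query_measurable i).comp ((hfst.comp measurable_fst).prodMk measurable_snd),
      fun p => (A.output (fst p.1, p.2), f (snd p.1)),
      (A.output_measurable.comp ((hfst.comp measurable_fst).prodMk measurable_snd)).prodMk
        (hf.comp (hsnd.comp measurable_fst))⟩
  refine ⟨B, fun V hV => ?_⟩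
  have hans : ∀ r i (hi : i ≤ q), B.answers V r i hi = A.answers V (fst r) i hi := by
    intro r i
    induction i with
    | zero => exact fun _ => rfl
    | succ i ih => intro hi; simp only [Alg.answers, ih, B]
  have hG := measurable_run A hV
  show B.outLaw V = (L V).prod (law.map f)
  rw [← hA V hV, Alg.outLaw, Alg.outLaw, Measure.map_prod_map _ _ hG hf,
    Measure.map_map (measurable_run B hV) happ]
  congr 1
  funext p
  simp only [Function.comp_apply, hans, B, Prod.map]
  have h1 : fst (app p) = p.1 := funext fun j => Fin.append_left _ _ j
  have h2 : snd (app p) = p.2 := funext fun j => Fin.append_right _ _ j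
  rw [h1, h2]

/-- One more query, at a point computed from the current state. -/
theorem Samp.query {L : (E d → ℝ) → Measure α} (h : Samp d q L) {g : α → E d}
    (hg : Measurable g) :
    Samp d (q + 1) fun V => (L V).map fun a => (a, oracle V (g a)) := by
  obtain ⟨A, hA⟩ := h
  let B : Alg d (q + 1) (α × (ℝ × E d)) :=
    ⟨A.seeds, A.law, A.isProb,
      fun i p => if hi : i.val < q then A.query ⟨i, hi⟩ p
        else g (A.output (p.1, fun j => p.2 ⟨j.val, by omega⟩)),
      fun i => by
        by_cases hi : i.val < q
        · simpa only [dif_pos hi] using A.query_measurable ⟨i, hi⟩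
        · simp only [dif_neg hi]
          exact hg.comp (A.output_measurable.comp (measurable_fst.prodMk
            (measurable_pi_lambda _ fun j => (measurable_pi_apply _).comp measurable_snd))),
      fun p => (A.output (p.1, fun j => p.2 j.castSucc), p.2 (Fin.last q)),
      (A.output_measurable.comp (measurable_fst.prodMk
        (measurable_pi_lambda _ fun j => (measurable_pi_apply _).comp measurable_snd))).prodMk
        ((measurable_pi_apply _).comp measurable_snd)⟩
  refine ⟨B, fun V hV => ?_⟩
  have hans : ∀ r i (hi : i ≤ q),
      B.answers V r i (hi.trans (Nat.le_succ q)) = A.answers V r i hi := by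
    intro r i
    induction i with
    | zero => exact fun _ => rfl
    | succ i ih =>
      intro hi
      simp only [Alg.answers, ih (Nat.le_of_succ_le hi), B, dif_pos (show i < q from hi)]
  have hpair : Measurable fun a => (a, oracle V (g a)) :=
    measurable_id.prodMk ((measurable_oracle hV).comp hg)
  show B.outLaw V = (L V).map fun a => (a, oracle V (g a))
  rw [← hA V hV, Alg.outLaw, Alg.outLaw, Measure.map_map hpair (measurable_run A hV)]
  congr 1
  funext r
  have hq := hans r q le_rfl
  simp only [Function.comp_apply, Alg.answers, Fin.snoc_castSucc, Fin.snoc_last, B,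
    dif_neg (lt_irrefl q)] at hq ⊢
  simp only [hq, Fin.eta]

/-- Budgets can be increased. -/
theorem Samp.mono {L : (E d → ℝ) → Measure α} (h : Samp d q L) {q' : ℕ} (hq : q ≤ q') :
    Samp d q' L := by
  induction q', hq using Nat.le_induction with
  | base => exact h
  | succ q' _ ih =>
    refine ((ih.query (measurable_const (a := (0 : E d)))).map measurable_fst).congr
      fun V hV => ?_
    show ((L V).map fun a => (a, oracle V 0)).map Prod.fst = L V
    rw [Measure.map_map measurable_fst (measurable_id'.prodMk measurable_const)]
    exact Measure.map_id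

section standardBorel

variable [StandardBorelSpace α] [StandardBorelSpace β]

/-- Every law on a standard Borel space is the image of a law of one real. -/
theorem exists_law_map (μ : Measure α) [IsProbabilityMeasure μ] :
    ∃ (law : Measure (Fin 1 → ℝ)) (f : (Fin 1 → ℝ) → α),
      IsProbabilityMeasure law ∧ Measurable f ∧ law.map f = μ := by
  have : Nonempty α := nonempty_of_isProbabilityMeasure μ
  obtain ⟨e, he⟩ := exists_measurableEmbedding_real α
  have hemb : Measurable fun a (_ : Fin 1) => e a := measurable_pi_lambda _ fun _ => he.measurable
  refine ⟨μ.map fun a _ => e a, fun r => he.invFun (r 0),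
    Measure.isProbabilityMeasure_map hemb.aemeasurable,
    he.measurable_invFun.comp (measurable_pi_apply 0), ?_⟩
  rw [Measure.map_map (g := fun r : Fin 1 → ℝ => he.invFun (r 0))
    (he.measurable_invFun.comp (measurable_pi_apply 0)) hemb]
  conv_rhs => rw [← Measure.map_id (μ := μ)]
  congr 1
  funext a
  exact he.leftInverse_invFun a

/-- Any law on a standard Borel space can be sampled without queries: in particular `gau ι`, its
countable products, and their pairs with a real law. -/
theorem Samp.pure (μ : Measure α) [IsProbabilityMeasure μ] : Samp d 0 fun _ => μ := by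
  obtain ⟨law, f, hlaw, hf, rfl⟩ := exists_law_map μ
  exact Samp.pure_map law hf

/-- Fresh independent randomness with any law on a standard Borel space. -/
theorem Samp.rand {γ : Type} [MeasurableSpace γ] {L : (E d → ℝ) → Measure γ} (h : Samp d q L)
    (μ : Measure β) [IsProbabilityMeasure μ] : Samp d q fun V => (L V).prod μ := by
  obtain ⟨law, f, hlaw, hf, rfl⟩ := exists_law_map μ
  exact h.rand_map law hf

end standardBorel

end

end Vale.Agent.P347
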