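import Vale.Agent.P347.FlowBasic

/-!
P347: the estimator of the transport map and the proximal step built from it.
-/

open MeasureTheory ProbabilityTheory WithLp Real
open scoped RealInnerProductSpace Gradient

namespace Vale.Agent.P347

/-- Restriction of the coordinates along `σ`. -/
noncomputable def res {ι κ : Type*} [Fintype ι] [Fintype κ] (σ : κ → ι) :
    EuclideanSpace ℝ ι →L[ℝ] EuclideanSpace ℝ κ :=
  (PiLp.continuousLinearEquiv 2 ℝ (fun _ : κ => ℝ)).symm.toContinuousLinearMap.comp
    (ContinuousLinearMap.pi fun i => EuclideanSpace.proj (σ i))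

variable {d N : ℕ} {ε : ℝ}

/-- The non-quadratic part `W = V - (3/4) ‖x‖²`. -/
noncomputable def rest (V : E d → ℝ) (x : E d) : ℝ := V x - (3 / 4) * ‖x‖ ^ 2

/-- Its gradient. -/
noncomputable def restGrad (V : E d → ℝ) (x : E d) : E d := ∇ V x - (3 / 2 : ℝ) • x

/-- The factor `1 + 3η/2`. -/
noncomputable def kap (η : ℝ) : ℝ := 1 + 3 / 2 * η

/-- The variance of the restricted Gaussian oracle. -/
noncomputable def var' (η : ℝ) : ℝ := η / kap η

/-- The fixed-point iterates for the centre of the restricted Gaussian oracle at `y`. -/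
noncomputable def cen (V : E d → ℝ) (η : ℝ) (y : E d) : ℕ → E d
  | 0 => (kap η)⁻¹ • y
  | j + 1 => (kap η)⁻¹ • y - var' η • restGrad V (cen V η y j)

/-- The tilting potential in standardised coordinates around the centre. -/
noncomputable def unitR (V : E d → ℝ) (η : ℝ) (y x : E d) : ℝ :=
  rest V (cen V η y 4 + √(var' η) • x) - rest V (cen V η y 4)
    - √(var' η) * ⟪restGrad V (cen V η y 3), x⟫

/-- Its gradient. -/
noncomputable def unitG (V : E d → ℝ) (η : ℝ) (y x : E d) : E d :=
  √(var' η) • (restGrad V (cen V η y 4 + √(var' η) • x) - restGrad V (cen V η y 3))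

/-- The output step: a Gaussian around the centre. -/
noncomputable def outStep (V : E d → ℝ) (η : ℝ) (μ : Measure (E d)) : Measure (E d) :=
  (μ.prod (gau (Fin d))).map fun p => cen V η p.1 4 + √(var' η) • p.2

end Vale.Agent.P347
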