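import Vale.Agent.P347.Alg
import Vale.Agent.P347.Est

/-!
P347: one step and the output step as algorithms in the oracle model.
-/

open MeasureTheory ProbabilityTheory WithLp Real
open scoped RealInnerProductSpace Gradient

namespace Vale.Agent.P347

noncomputable section

variable {d : ℕ} {α β γ : Type} [MeasurableSpace α] [MeasurableSpace β] [MeasurableSpace γ]

/-- `F V` can be computed from the state with `q` further queries. -/
def Comp (d q : ℕ) {α β : Type} [MeasurableSpace α] [MeasurableSpace β]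
    (F : (E d → ℝ) → α → β) : Prop :=
  (∀ V, ContDiff ℝ 2 V → Measurable (F V)) ∧
    ∀ (q₀ : ℕ) (L : (E d → ℝ) → Measure α), Samp d q₀ L →
      Samp d (q₀ + q) fun V => (L V).map (F V)

theorem Comp.const {f : α → β} (hf : Measurable f) : Comp d 0 fun _ => f :=
  ⟨fun _ _ => hf, fun _ _ h => h.map hf⟩

theorem Comp.congr {q : ℕ} {F G : (E d → ℝ) → α → β} (h : Comp d q F)
    (hFG : ∀ V, ContDiff ℝ 2 V → ∀ a, F V a = G V a) : Comp d q G :=
  ⟨fun V hV => funext (hFG V hV) ▸ h.1 V hV,
    fun q₀ L hL => (h.2 q₀ L hL).congr fun V hV => by rw [funext (hFG V hV)]⟩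

theorem Comp.trans {q r : ℕ} {F : (E d → ℝ) → α → β} {G : (E d → ℝ) → β → γ} (h : Comp d q F)
    (h' : Comp d r G) : Comp d (q + r) fun V a => G V (F V a) := by
  refine ⟨fun V hV => (h'.1 V hV).comp (h.1 V hV), fun q₀ L hL => ?_⟩
  rw [← add_assoc]
  exact (h'.2 _ _ (h.2 _ _ hL)).congr fun V hV => Measure.map_map (h'.1 V hV) (h.1 V hV)

theorem Comp.query {g : α → E d} (hg : Measurable g) :
    Comp d 1 fun V a => (a, oracle V (g a)) :=
  ⟨fun _ hV => measurable_id.prodMk ((measurable_oracle hV).comp hg),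
    fun _ _ hL => hL.query hg⟩

theorem Comp.apply {q q₀ : ℕ} {F : (E d → ℝ) → α → β} (h : Comp d q F)
    {L : (E d → ℝ) → Measure α} (hL : Samp d q₀ L) :
    Samp d (q₀ + q) fun V => (L V).map (F V) :=
  h.2 _ _ hL

theorem Comp.cenIter {η : ℝ} {pr : α → E d} (hpr : Measurable pr) (j : ℕ) :
    Comp d j fun V a => (a, cen V η (pr a) j) := by
  induction j with
  | zero =>
    exact (Comp.const (d := d) (f := fun a => (a, (kap η)⁻¹ • pr a))
      (measurable_id'.prodMk (hpr.const_smul ((kap η)⁻¹)))).congr fun V _ a => by simp [cen]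
  | succ j ih =>
    have hf : Measurable fun x : (α × E d) × (ℝ × E d) =>
        (x.1.1, (kap η)⁻¹ • pr x.1.1 - var' η • (x.2.2 - (3 / 2 : ℝ) • x.1.2)) := by fun_prop
    refine (ih.trans ((Comp.query measurable_snd).trans (Comp.const hf))).congr fun V _ a => ?_
    simp [cen, restGrad, oracle]

/-- The centre and the last gradient used for it. -/
theorem Comp.centre {η : ℝ} {pr : α → E d} (hpr : Measurable pr) :
    Comp d 4 fun V a => (a, cen V η (pr a) 4, restGrad V (cen V η (pr a) 3)) := by
  have hf : Measurable fun x : (α × E d) × (ℝ × E d) =>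
      (x.1.1, (kap η)⁻¹ • pr x.1.1 - var' η • (x.2.2 - (3 / 2 : ℝ) • x.1.2),
        x.2.2 - (3 / 2 : ℝ) • x.1.2) := by fun_prop
  refine ((Comp.cenIter (η := η) hpr 3).trans ((Comp.query measurable_snd).trans (Comp.const hf))).congr
    fun V _ a => ?_
  simp [cen, restGrad, oracle]

/-- The output step costs four queries. -/
theorem samp_out {q : ℕ} (η : ℝ) {L : (E d → ℝ) → Measure (E d)} (h : Samp d q L) :
    Samp d (q + 4) fun V => outStep V η (L V) := by
  have hf : Measurable fun x : (E d × E d) × E d × E d => x.2.1 + √(var' η) • x.1.2 := by fun_prop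
  have hC := (Comp.centre (η := η) (measurable_fst : Measurable (Prod.fst : E d × E d → E d))).trans
    (Comp.const hf)
  exact (hC.apply (h.rand (gau (Fin d)))).congr fun V _ => rfl

section step

variable {N : ℕ} {ε : ℝ} (Rl : Rule N ε) (σ η t : ℝ)

end step

end

end Vale.Agent.P347
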