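import Vale.Agent.P347.Est

/-!
P347: the mean second-order drift, the error sizes, and the interface between a step and the chain.
-/

open MeasureTheory ProbabilityTheory Real
open scoped RealInnerProductSpace

namespace Vale.Agent.P347

variable {d : ℕ}

/-- The transition operator of a random map `F` with seed law `μ`. -/
noncomputable def transOp {S : Type*} [MeasurableSpace S] (μ : Measure S) (F : E d → S → E d)
    (v : E d → ℝ) (y : E d) : ℝ :=
  ∫ p, v (F y p) ∂μ

/-- The law of the Gibbs point plus noise of variance `η`. -/
noncomputable def smoothedGibbs (V : E d → ℝ) (η : ℝ) : Measure (E d) :=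
  ((gibbs V).prod (gau (Fin d))).map fun p => p.1 + √η • p.2

end Vale.Agent.P347
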