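import Vale.Agent.P347.Smooth
import Vale.Agent.P347.Mean

/-!
P347: elementary facts on means, on Gaussian smoothing of bounded functions and on the
invariance of smoothing, shared by the chain and by the kernel.
-/

open MeasureTheory ProbabilityTheory WithLp Real
open scoped RealInnerProductSpace

namespace Vale.Agent.P347

section basic

variable {α : Type*} [MeasurableSpace α] {μ : Measure α} [IsProbabilityMeasure μ]

/-- The square of a mean is at most the mean of the square. -/
lemma sq_integral_le {a : α → ℝ} (ha : Integrable a μ) (ha2 : Integrable (fun x => a x ^ 2) μ) :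
    (∫ x, a x ∂μ) ^ 2 ≤ ∫ x, a x ^ 2 ∂μ := by
  set m := ∫ x, a x ∂μ with hm
  have h : (0 : ℝ) ≤ ∫ x, (a x - m) ^ 2 ∂μ := integral_nonneg fun x => sq_nonneg _
  have e : ∀ x, (a x - m) ^ 2 = a x ^ 2 - 2 * m * a x + m ^ 2 := fun x => by ring
  simp_rw [e] at h
  have i1 : Integrable (fun x => a x ^ 2 - 2 * m * a x) μ := ha2.sub (ha.const_mul _)
  rw [integral_add i1 (integrable_const _),
    integral_sub ha2 (ha.const_mul _), integral_const_mul, integral_const, ← hm] at h
  simp only [probReal_univ, one_smul] at h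
  nlinarith

lemma integrable_of_bdd {F : Type*} [NormedAddCommGroup F] [MeasurableSpace F] [BorelSpace F]
    [SecondCountableTopology F] {a : α → F} (ha : Measurable a) {K : ℝ} (hK : ∀ x, ‖a x‖ ≤ K) :
    Integrable a μ :=
  Integrable.of_bound ha.stronglyMeasurable.aestronglyMeasurable K (ae_of_all _ hK)

end basic

section psm

variable {ι : Type*} [Fintype ι] {t : ℝ} {u : EuclideanSpace ℝ ι → ℝ} {K : ℝ}

lemma abs_Psm_le (hK : ∀ x, |u x| ≤ K) (x : EuclideanSpace ℝ ι) : |Psm t u x| ≤ K := by
  simpa using norm_Psm_le (t := t) (u := u) (fun y => by simpa using hK y) x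

end psm

variable {d : ℕ} {V : E d → ℝ} {η : ℝ}

lemma inner_formVec (B : E d →L[ℝ] ℝ) (v : E d) : ⟪formVec d B, v⟫ = B v := by
  conv_rhs => rw [← (EuclideanSpace.basisFun (Fin d) ℝ).sum_repr v]
  simp [map_sum, map_smul, PiLp.inner_apply, formVec_apply, EuclideanSpace.basisFun_apply]

lemma norm_formVec (B : E d →L[ℝ] ℝ) : ‖formVec d B‖ = ‖B‖ := by
  refine le_antisymm (norm_formVec_le B) (ContinuousLinearMap.opNorm_le_bound _ (norm_nonneg _)
    fun v => ?_)
  rw [← inner_formVec, Real.norm_eq_abs]
  exact abs_real_inner_le_norm _ _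

/-- Invariance: smoothing turns the Gibbs law into the smoothed Gibbs law. -/
lemma integral_Psm_gibbs (hπ : IsProbabilityMeasure (gibbs V)) {u : E d → ℝ} (hu : Measurable u)
    {K : ℝ} (hK : ∀ x, |u x| ≤ K) :
    ∫ x, Psm η u x ∂gibbs V = ∫ y, u y ∂smoothedGibbs V η := by
  have hi : Integrable (fun p : E d × E d => u (p.1 + √η • p.2))
      ((gibbs V).prod (gau (Fin d))) :=
    integrable_of_bdd (hu.comp (by fun_prop)) fun p => by simpa using hK (p.1 + √η • p.2)
  rw [smoothedGibbs, integral_map (by fun_prop) hu.aestronglyMeasurable, integral_prod _ hi]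
  rfl

end Vale.Agent.P347
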