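import Mathlib

/-!
P347: the first-order oracle model for sampling from well-conditioned log-concave laws.
-/

open MeasureTheory ProbabilityTheory WithLp
open scoped RealInnerProductSpace Gradient

namespace Vale.Agent.P347

/-- The space `ℝ^d` with its Euclidean norm. -/
abbrev E (d : ℕ) := EuclideanSpace ℝ (Fin d)

/-- The class `V_d`: twice continuously differentiable potentials vanishing to first order at the
origin, with Hessian between `I` and `2 I` everywhere. -/
def InClass (d : ℕ) (V : E d → ℝ) : Prop :=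
  ContDiff ℝ 2 V ∧ V 0 = 0 ∧ ∇ V 0 = 0 ∧
    ∀ x h : E d, ‖h‖ ^ 2 ≤ fderiv ℝ (fderiv ℝ V) x h h ∧
      fderiv ℝ (fderiv ℝ V) x h h ≤ 2 * ‖h‖ ^ 2

/-- The exact first-order oracle: the value and the gradient. -/
noncomputable def oracle {d : ℕ} (V : E d → ℝ) (x : E d) : ℝ × E d :=
  (V x, ∇ V x)

/-- The Gibbs law with density proportional to `exp (-V)`. -/
noncomputable def gibbs {d : ℕ} (V : E d → ℝ) : Measure (E d) :=
  ((volume.withDensity fun x => ENNReal.ofReal (Real.exp (-V x))) Set.univ)⁻¹ •
    volume.withDensity fun x => ENNReal.ofReal (Real.exp (-V x))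

/-- A randomised adaptive algorithm making `q` oracle queries: it draws `seeds` random reals with
law `law`, the `i`-th query point is a measurable function of them and of the first `i` answers,
and the output is a measurable function of them and of all the answers. -/
structure Alg (d q : ℕ) (α : Type) [MeasurableSpace α] where
  /-- The number of random reals drawn. -/
  seeds : ℕ
  /-- The joint law of the random reals. -/
  law : Measure (Fin seeds → ℝ)
  /-- It is a probability law. -/
  isProb : IsProbabilityMeasure law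
  /-- The `i`-th query point. -/
  query : (i : Fin q) → (Fin seeds → ℝ) × (Fin i.val → ℝ × E d) → E d
  /-- Query points are measurable. -/
  query_measurable : ∀ i, Measurable (query i)
  /-- The output. -/
  output : (Fin seeds → ℝ) × (Fin q → ℝ × E d) → α
  /-- The output is measurable. -/
  output_measurable : Measurable output

/-- The first `i` answers of the oracle of `V`, given the random reals `r`. -/
noncomputable def Alg.answers {d q : ℕ} {α : Type} [MeasurableSpace α] (A : Alg d q α)
    (V : E d → ℝ) (r : Fin A.seeds → ℝ) : (i : ℕ) → i ≤ q → Fin i → ℝ × E d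
  | 0, _ => Fin.elim0
  | i + 1, h => Fin.snoc (A.answers V r i (Nat.le_of_succ_le h))
      (oracle V (A.query ⟨i, h⟩ (r, A.answers V r i (Nat.le_of_succ_le h))))

/-- The law of the output on the potential `V`. -/
noncomputable def Alg.outLaw {d q : ℕ} {α : Type} [MeasurableSpace α] (A : Alg d q α)
    (V : E d → ℝ) : Measure α :=
  A.law.map fun r => A.output (r, A.answers V r q le_rfl)

/-- The output is within total variation `1/10` of the Gibbs law on the whole class. -/
def Solves {d q : ℕ} (A : Alg d q (E d)) : Prop :=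
  ∀ V, InClass d V → ∀ B : Set (E d), MeasurableSet B →
    |(A.outLaw V).real B - (gibbs V).real B| ≤ 1 / 10

/-- The least query budget sufficient for total variation accuracy `1/10`. -/
noncomputable def Q (d : ℕ) : ℕ :=
  sInf {q | ∃ A : Alg d q (E d), Solves A}

/-- The standard Gaussian law on `ℝ^ι`. -/
noncomputable abbrev gau (ι : Type*) [Fintype ι] : Measure (EuclideanSpace ℝ ι) :=
  stdGaussian (EuclideanSpace ℝ ι)

/-- Gaussian smoothing at variance `t`. -/
noncomputable def Psm {ι : Type*} [Fintype ι] {F : Type*} [NormedAddCommGroup F] [NormedSpace ℝ F]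
    (t : ℝ) (u : EuclideanSpace ℝ ι → F) (x : EuclideanSpace ℝ ι) : F :=
  ∫ g, u (x + √t • g) ∂gau ι

/-- The entries of a bilinear form as a vector. -/
noncomputable def hvec {d : ℕ} (B : E d →L[ℝ] E d →L[ℝ] ℝ) :
    EuclideanSpace ℝ (Fin d × Fin d) :=
  toLp 2 fun p => B (EuclideanSpace.single p.1 1) (EuclideanSpace.single p.2 1)

/-- The Hilbert–Schmidt norm of a bilinear form. -/
noncomputable def hs {d : ℕ} (B : E d →L[ℝ] E d →L[ℝ] ℝ) : ℝ := ‖hvec B‖

/-- The Ornstein–Uhlenbeck operator at correlation `ρ`. -/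
noncomputable def ou {ι : Type*} [Fintype ι] {F : Type*} [NormedAddCommGroup F] [NormedSpace ℝ F]
    (ρ : ℝ) (f : EuclideanSpace ℝ ι → F) (x : EuclideanSpace ℝ ι) : F :=
  ∫ w, f (ρ • x + √(1 - ρ ^ 2) • w) ∂gau ι

/-- A randomly shifted quadrature rule on `[0,1]`, accurate to `ε` uniformly on monomials, and
exact in expectation on `[lo, hi]`. -/
structure Rule (N : ℕ) (ε : ℝ) where
  /-- The law of the random shift. -/
  shift : Measure ℝ
  /-- It is a probability law. -/
  shift_prob : IsProbabilityMeasure shift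
  /-- The nodes. -/
  node : Fin N → ℝ → ℝ
  /-- The weights. -/
  weight : Fin N → ℝ → ℝ
  /-- Left end of the covered interval. -/
  lo : ℝ
  /-- Right end of the covered interval. -/
  hi : ℝ
  node_continuous : ∀ k, Continuous (node k)
  weight_continuous : ∀ k, Continuous (weight k)
  lo_nonneg : 0 ≤ lo
  lo_le_hi : lo ≤ hi
  hi_lt_one : hi < 1
  ends_le : lo + (1 - hi) ≤ ε
  node_mem : ∀ k U, node k U ∈ Set.Icc lo hi
  weight_nonneg : ∀ k U, 0 ≤ weight k U
  moment : ∀ (n : ℕ) (U : ℝ), |∑ k, weight k U * node k U ^ n - 1 / (n + 1)| ≤ ε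
  exact : ∀ F : ℝ → ℝ, ContinuousOn F (Set.Icc lo hi) →
    ∫ U, ∑ k, weight k U * F (node k U) ∂shift = ∫ u in lo..hi, F u

/-- `R` is a potential whose gradient `g` is `δ`-Lipschitz and has norm at most `r0` at the
origin. -/
structure Pot (d : ℕ) (δ r0 : ℝ) (R : E d → ℝ) (g : E d → E d) : Prop where
  pos : 0 < δ
  le_eighth : δ ≤ 1 / 16
  r0_nonneg : 0 ≤ r0
  hasGrad : ∀ x, HasFDerivAt R (innerSL ℝ (g x)) x
  smooth : ContDiff ℝ 1 g
  lip : ∀ x y, ‖g x - g y‖ ≤ δ * ‖x - y‖
  at_zero : ‖g 0‖ ≤ r0

/-- The Gaussian law tilted by `exp (-R)`, normalised. -/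
noncomputable def tilt {d : ℕ} (R : E d → ℝ) : Measure (E d) :=
  (gau (Fin d)).tilted fun x => -R x

end Vale.Agent.P347
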