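import Vale.Agent.P347.GaussBasic

/-!
P347: the tilted Gaussian laws, their moments, and the velocity field of the transport.
-/

open MeasureTheory ProbabilityTheory WithLp Real
open scoped RealInnerProductSpace Topology

namespace Vale.Agent.P347

variable {d : ℕ} {δ r0 : ℝ} {R : E d → ℝ} {g : E d → E d}

namespace Pot

lemma norm_le (h : Pot d δ r0 R g) (x : E d) : ‖g x‖ ≤ δ * ‖x‖ + r0 := by
  calc ‖g x‖ ≤ ‖g x - g 0‖ + ‖g 0‖ := norm_le_norm_sub_add _ _
    _ ≤ δ * ‖x‖ + r0 := by simpa using add_le_add (h.lip x 0) h.at_zero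

lemma contR (h : Pot d δ r0 R g) : Continuous R :=
  continuous_iff_continuousAt.2 fun x => (h.hasGrad x).continuousAt

lemma contg (h : Pot d δ r0 R g) : Continuous g := h.smooth.continuous

lemma fderivR (h : Pot d δ r0 R g) (x : E d) : fderiv ℝ R x = innerSL ℝ (g x) :=
  (h.hasGrad x).fderiv

lemma smoothR (h : Pot d δ r0 R g) : ContDiff ℝ 1 R := by
  rw [contDiff_one_iff_fderiv]
  refine ⟨fun x => (h.hasGrad x).differentiableAt, ?_⟩
  rw [funext h.fderivR]
  exact (innerSL ℝ).continuous.comp h.contg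

lemma norm_fderiv_g (h : Pot d δ r0 R g) (x : E d) : ‖fderiv ℝ g x‖ ≤ δ :=
  norm_fderiv_le_of_lip' ℝ h.pos.le (Filter.Eventually.of_forall fun y => h.lip y x)

lemma abs_sub_le (h : Pot d δ r0 R g) (x : E d) : |R x - R 0| ≤ (δ * ‖x‖ + r0) * ‖x‖ := by
  have := (convex_closedBall (0 : E d) ‖x‖).norm_image_sub_le_of_norm_fderiv_le (𝕜 := ℝ) (f := R)
    (C := δ * ‖x‖ + r0) (fun y _ => (h.hasGrad y).differentiableAt) (fun y hy => by
      rw [h.fderivR y, innerSL_apply_norm]
      refine (h.norm_le y).trans (add_le_add (mul_le_mul_of_nonneg_left ?_ h.pos.le) le_rfl)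
      simpa using hy)
    (Metric.mem_closedBall_self (norm_nonneg _)) (by simp : x ∈ Metric.closedBall 0 ‖x‖)
  simpa using this

lemma exp_neg_le (h : Pot d δ r0 R g) (x : E d) :
    exp (-R x) ≤ exp (-R 0) * exp (r0 * ‖x‖) * exp (δ * ‖x‖ ^ 2) := by
  rw [← Real.exp_add, ← Real.exp_add]
  apply Real.exp_le_exp.2
  have := (abs_le.1 (h.abs_sub_le x)).1
  nlinarith

lemma integrable_smul_exp {F : Type*} [NormedAddCommGroup F] [NormedSpace ℝ F]
    [SecondCountableTopology F] (h : Pot d δ r0 R g) {f : E d → F} (hf : Continuous f) (K : ℝ)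
    (k : ℕ) (hb : ∀ x, ‖f x‖ ≤ K * (1 + ‖x‖) ^ k) :
    Integrable (fun x => exp (-R x) • f x) (gau (Fin d)) := by
  refine integrable_gau_of_growth ((h.contR.neg.rexp).smul hf) (a := δ)
    (by linarith [h.le_eighth]) (exp (-R 0) * K) k r0 fun x => ?_
  rw [norm_smul, norm_eq_abs, abs_of_pos (exp_pos _)]
  calc exp (-R x) * ‖f x‖
      ≤ exp (-R 0) * exp (r0 * ‖x‖) * exp (δ * ‖x‖ ^ 2) * (K * (1 + ‖x‖) ^ k) :=
        mul_le_mul (h.exp_neg_le x) (hb x) (norm_nonneg _) (by positivity)
    _ = _ := by ring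

lemma integrable_exp (h : Pot d δ r0 R g) :
    Integrable (fun x => exp (-R x)) (gau (Fin d)) := by
  simpa using h.integrable_smul_exp (f := fun _ => (1 : ℝ)) continuous_const 1 0 (by simp)

lemma mass_pos (h : Pot d δ r0 R g) : 0 < ∫ x, exp (-R x) ∂gau (Fin d) :=
  integral_exp_pos h.integrable_exp

lemma isProb (h : Pot d δ r0 R g) : IsProbabilityMeasure (tilt R) :=
  isProbabilityMeasure_tilted h.integrable_exp

lemma integral_tilt (h : Pot d δ r0 R g) {F : Type*} [NormedAddCommGroup F] [NormedSpace ℝ F]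
    (f : E d → F) :
    ∫ x, f x ∂tilt R =
      (∫ x, exp (-R x) ∂gau (Fin d))⁻¹ • ∫ x, exp (-R x) • f x ∂gau (Fin d) := by
  rw [tilt, integral_tilted, ← integral_smul]
  refine integral_congr_ae (ae_of_all _ fun x => ?_)
  simp only [smul_smul, div_eq_mul_inv, mul_comm]

lemma integrable_tilt (h : Pot d δ r0 R g) {F : Type*} [NormedAddCommGroup F] [NormedSpace ℝ F]
    [SecondCountableTopology F] {f : E d → F} (hf : Continuous f) (K : ℝ) (k : ℕ)
    (hb : ∀ x, ‖f x‖ ≤ K * (1 + ‖x‖) ^ k) : Integrable f (tilt R) := by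
  rw [tilt, integrable_tilted_iff h.integrable_exp]
  exact h.integrable_smul_exp hf K k hb

/-- Integration by parts under the tilted law. -/
lemma ibp (h : Pot d δ r0 R g) {f : E d → ℝ} (hf : ContDiff ℝ 1 f) (K : ℝ) (k : ℕ)
    (h0 : ∀ x, |f x| ≤ K * (1 + ‖x‖) ^ k) (h1 : ∀ x, ‖fderiv ℝ f x‖ ≤ K * (1 + ‖x‖) ^ k)
    (v : E d) :
    ∫ x, ⟪x, v⟫ * f x ∂tilt R = ∫ x, (fderiv ℝ f x v - f x * ⟪g x, v⟫) ∂tilt R := by
  rw [h.integral_tilt, h.integral_tilt]
  congr 1
  have hd : ∀ x, HasFDerivAt (fun x => exp (-R x) * f x)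
      (exp (-R x) • fderiv ℝ f x + f x • (exp (-R x) • (-innerSL ℝ (g x)))) x := fun x =>
    ((h.hasGrad x).neg.exp).mul (hf.differentiable one_ne_zero x).hasFDerivAt
  have hKnn : 0 ≤ K := by simpa using (abs_nonneg (f 0)).trans (h0 0)
  have hb := gau_ibp (f := fun x => exp (-R x) * f x) (h.smoothR.neg.exp.mul hf) (a := δ)
    (by linarith [h.le_eighth]) (exp (-R 0) * K * (1 + (δ + r0))) (k + 1) r0 (fun x => by
      rw [abs_mul, abs_of_pos (exp_pos _)]
      calc exp (-R x) * |f x|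
          ≤ exp (-R 0) * exp (r0 * ‖x‖) * exp (δ * ‖x‖ ^ 2) * (K * (1 + ‖x‖) ^ k) :=
            mul_le_mul (h.exp_neg_le x) (h0 x) (abs_nonneg _) (by positivity)
        _ = exp (-R 0) * K * 1 * ((1 + ‖x‖) ^ k * 1) * exp (r0 * ‖x‖) * exp (δ * ‖x‖ ^ 2) := by
            ring
        _ ≤ exp (-R 0) * K * (1 + (δ + r0)) * ((1 + ‖x‖) ^ k * (1 + ‖x‖))
              * exp (r0 * ‖x‖) * exp (δ * ‖x‖ ^ 2) := by
            have hp := h.pos
            have hr := h.r0_nonneg
            have e1 : (1 : ℝ) ≤ 1 + (δ + r0) := by linarith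
            have e2 : (1 : ℝ) ≤ 1 + ‖x‖ := by linarith [norm_nonneg x]
            gcongr
        _ = _ := by ring) (fun x => by
      rw [(hd x).fderiv]
      refine (norm_add_le _ _).trans ?_
      rw [norm_smul, norm_smul, norm_smul, norm_neg, innerSL_apply_norm, norm_eq_abs,
        abs_of_pos (exp_pos _), norm_eq_abs]
      calc exp (-R x) * ‖fderiv ℝ f x‖ + |f x| * (exp (-R x) * ‖g x‖)
          ≤ exp (-R x) * (K * (1 + ‖x‖) ^ k)
            + K * (1 + ‖x‖) ^ k * (exp (-R x) * ((δ + r0) * (1 + ‖x‖))) := by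
            gcongr
            · exact h1 x
            · exact h0 x
            · nlinarith [h.norm_le x, h.pos, h.r0_nonneg, norm_nonneg x]
        _ = exp (-R x) * (K * (1 + ‖x‖) ^ k) * (1 + (δ + r0) * (1 + ‖x‖)) := by ring
        _ ≤ exp (-R 0) * exp (r0 * ‖x‖) * exp (δ * ‖x‖ ^ 2) * (K * (1 + ‖x‖) ^ k)
            * ((1 + (δ + r0)) * (1 + ‖x‖)) := by
            have hp := h.pos
            have hr := h.r0_nonneg
            refine mul_le_mul ?_ ?_ (by positivity) (by positivity)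
            · exact mul_le_mul_of_nonneg_right (h.exp_neg_le x) (mul_nonneg hKnn (by positivity))
            · nlinarith [norm_nonneg x]
        _ = _ := by ring) v
  calc ∫ x, exp (-R x) • (⟪x, v⟫ * f x) ∂gau (Fin d)
      = ∫ x, ⟪x, v⟫ * (exp (-R x) * f x) ∂gau (Fin d) := by
        refine integral_congr_ae (ae_of_all _ fun x => ?_); simp only [smul_eq_mul]; ring
    _ = _ := hb
    _ = _ := by
        refine integral_congr_ae (ae_of_all _ fun x => ?_)
        simp only [(hd x).fderiv, add_apply, smul_apply, neg_apply, innerSL_apply_apply,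
          smul_eq_mul]
        ring

lemma integral_norm_sq_le (h : Pot d δ r0 R g) :
    ∫ x, ‖x‖ ^ 2 ∂tilt R ≤ 2 * d + 4 * r0 ^ 2 := by
  haveI := h.isProb
  have i2 : Integrable (fun x : E d => ‖x‖ ^ 2) (tilt R) :=
    h.integrable_tilt (by fun_prop) 1 2 fun x => by
      rw [norm_pow, norm_norm]; nlinarith [norm_nonneg x]
  have i3 : Integrable (fun x => ⟪x, g x⟫) (tilt R) :=
    h.integrable_tilt (continuous_id.inner h.contg) (δ + r0) 2 fun x => by
      rw [norm_eq_abs]
      refine (abs_real_inner_le_norm _ _).trans ?_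
      have := mul_le_mul_of_nonneg_left (h.norm_le x) (norm_nonneg x)
      nlinarith [h.pos, h.r0_nonneg, norm_nonneg x, mul_nonneg h.pos.le (norm_nonneg x),
        mul_nonneg h.r0_nonneg (norm_nonneg x), mul_nonneg h.r0_nonneg (sq_nonneg ‖x‖)]
  have hco : ∀ i, Integrable (fun x : E d => x i ^ 2) (tilt R) := fun i =>
    h.integrable_tilt (by fun_prop) 1 2 fun x => by
      rw [norm_pow]
      nlinarith [PiLp.norm_apply_le (p := 2) x i, norm_nonneg (x i), norm_nonneg x]
  have hcg : ∀ i, Integrable (fun x : E d => x i * g x i) (tilt R) := fun i =>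
    h.integrable_tilt (by have := h.contg; fun_prop) (δ + r0) 2 fun x => by
      rw [norm_mul]
      have h1 := PiLp.norm_apply_le (p := 2) x i
      have h2 := (PiLp.norm_apply_le (p := 2) (g x) i).trans (h.norm_le x)
      have := mul_le_mul h1 h2 (norm_nonneg _) (norm_nonneg _)
      nlinarith [h.pos, h.r0_nonneg, norm_nonneg x, mul_nonneg h.pos.le (norm_nonneg x),
        mul_nonneg h.r0_nonneg (norm_nonneg x), mul_nonneg h.r0_nonneg (sq_nonneg ‖x‖)]
  have key : ∀ i, ∫ x, x i ^ 2 ∂tilt R = 1 - ∫ x, x i * g x i ∂tilt R := by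
    intro i
    have hl : ∀ x : E d, HasFDerivAt (fun y : E d => y i)
        (EuclideanSpace.proj (𝕜 := ℝ) i : E d →L[ℝ] ℝ) x :=
      fun x => (EuclideanSpace.proj (𝕜 := ℝ) i : E d →L[ℝ] ℝ).hasFDerivAt
    have hn : ‖(EuclideanSpace.proj i : E d →L[ℝ] ℝ)‖ ≤ 1 :=
      ContinuousLinearMap.opNorm_le_bound _ zero_le_one fun y => by
        simpa using PiLp.norm_apply_le (p := 2) y i
    have := h.ibp (f := fun y : E d => y i) (EuclideanSpace.proj (𝕜 := ℝ) i).contDiff 1 1
      (fun x => by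
        have h1 := PiLp.norm_apply_le (p := 2) x i
        rw [norm_eq_abs] at h1
        simp only [pow_one, one_mul]; linarith)
      (fun x => by rw [(hl x).fderiv]; simp only [pow_one, one_mul]; linarith [norm_nonneg x])
      (EuclideanSpace.single i 1)
    simp only [(hl _).fderiv, EuclideanSpace.inner_single_right, one_mul, conj_trivial] at this
    rw [integral_sub (integrable_const _) (hcg i)] at this
    simpa [pow_two] using this
  have hsum : ∫ x, ‖x‖ ^ 2 ∂tilt R = d - ∫ x, ⟪x, g x⟫ ∂tilt R := by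
    simp only [EuclideanSpace.real_norm_sq_eq]
    rw [integral_finsetSum _ fun i _ => hco i]
    simp only [key, Finset.sum_sub_distrib, Finset.sum_const, Finset.card_univ, Fintype.card_fin,
      nsmul_eq_mul, mul_one]
    rw [← integral_finsetSum _ fun i _ => hcg i]
    congr 1
    refine integral_congr_ae (ae_of_all _ fun x => ?_)
    simp [PiLp.inner_apply, mul_comm]
  have hge : ∫ x, -((1 / 4 : ℝ) * ‖x‖ ^ 2 + 2 * r0 ^ 2) ∂tilt R ≤ ∫ x, ⟪x, g x⟫ ∂tilt R := by
    refine integral_mono ((i2.const_mul _).add (integrable_const _)).neg i3 fun x => ?_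
    have h1 := (abs_le.1 (abs_real_inner_le_norm x (g x))).1
    have h2 := mul_le_mul_of_nonneg_left (h.norm_le x) (norm_nonneg x)
    nlinarith [sq_nonneg (‖x‖ - 4 * r0), h.le_eighth, sq_nonneg ‖x‖, norm_nonneg x]
  rw [integral_neg, integral_add (i2.const_mul _) (integrable_const _), integral_const_mul,
    integral_const, probReal_univ, one_smul] at hge
  have : (0 : ℝ) ≤ d := Nat.cast_nonneg d
  nlinarith [sq_nonneg r0]

lemma integral_norm_le (h : Pot d δ r0 R g) (hd : 0 < d) :
    ∫ x, ‖x‖ ∂tilt R ≤ 2 * √d + 2 * r0 := by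
  haveI := h.isProb
  set M := 2 * √(d : ℝ) + 2 * r0 with hM
  have hM0 : 0 < M := by
    have : 0 < √(d : ℝ) := sqrt_pos.2 (by exact_mod_cast hd)
    linarith [h.r0_nonneg]
  have i2 : Integrable (fun x : E d => ‖x‖ ^ 2) (tilt R) :=
    h.integrable_tilt (by fun_prop) 1 2 fun x => by
      rw [norm_pow, norm_norm]; nlinarith [norm_nonneg x]
  have hS := h.integral_norm_sq_le
  have hb : 2 * (d : ℝ) + 4 * r0 ^ 2 ≤ M ^ 2 := by
    have := sq_sqrt (Nat.cast_nonneg (α := ℝ) d)
    nlinarith [mul_nonneg (sqrt_nonneg (d : ℝ)) h.r0_nonneg]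
  calc ∫ x, ‖x‖ ∂tilt R ≤ ∫ x, (M / 2 + (2 * M)⁻¹ * ‖x‖ ^ 2) ∂tilt R := by
        refine integral_mono (h.integrable_tilt (by fun_prop) 1 1 fun x => by simp)
          ((integrable_const _).add (i2.const_mul _)) fun x => ?_
        have : M / 2 + (2 * M)⁻¹ * ‖x‖ ^ 2 - ‖x‖ = (M - ‖x‖) ^ 2 / (2 * M) := by
          field_simp; ring
        have h2 : 0 ≤ (M - ‖x‖) ^ 2 / (2 * M) := by positivity
        linarith
    _ = M / 2 + (2 * M)⁻¹ * ∫ x, ‖x‖ ^ 2 ∂tilt R := by
        rw [integral_add (integrable_const _) (i2.const_mul _), integral_const_mul,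
          integral_const, probReal_univ, one_smul]
    _ ≤ M / 2 + (2 * M)⁻¹ * M ^ 2 := by gcongr; exact hS.trans hb
    _ = M := by field_simp; ring

/-- The variance of the tilted law. -/
lemma integral_dist_mean_le (h : Pot d δ r0 R g) :
    ∫ x, ‖x - ∫ y, y ∂tilt R‖ ^ 2 ∂tilt R ≤ 2 * d := by
  haveI := h.isProb
  set μ := ∫ y, y ∂tilt R with hμ
  have i1 : Integrable (fun x : E d => x) (tilt R) :=
    h.integrable_tilt continuous_id 1 1 fun x => by simp
  have i2 : Integrable (fun x : E d => ‖x - μ‖ ^ 2) (tilt R) :=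
    h.integrable_tilt (by fun_prop) (1 + ‖μ‖ ^ 2 + 2 * ‖μ‖) 2 fun x => by
      rw [norm_pow, norm_norm]
      have h1 := norm_sub_le x μ
      have h2 := norm_nonneg x
      have h3 := norm_nonneg μ
      nlinarith [norm_nonneg (x - μ), mul_nonneg h2 h3, mul_nonneg (mul_nonneg h2 h3) h2,
        sq_nonneg ‖μ‖]
  have hx : ∀ i, Integrable (fun x : E d => (x i - μ i) * x i) (tilt R) := fun i =>
    h.integrable_tilt (by fun_prop) (1 + ‖μ‖) 2 fun x => by
      rw [norm_mul]
      have h1 := PiLp.norm_apply_le (p := 2) x i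
      have h2 := (norm_sub_le (x i) (μ i)).trans
        (add_le_add h1 (PiLp.norm_apply_le (p := 2) μ i))
      have := mul_le_mul h2 h1 (norm_nonneg _) (by positivity)
      nlinarith [norm_nonneg x, norm_nonneg μ, mul_nonneg (norm_nonneg x) (norm_nonneg μ),
        mul_nonneg (norm_nonneg μ) (sq_nonneg ‖x‖)]
  have hg : ∀ i, Integrable (fun x : E d => (x i - μ i) * g x i) (tilt R) := fun i =>
    h.integrable_tilt (by have := h.contg; fun_prop) ((1 + ‖μ‖) * (δ + r0)) 2 fun x => by
      rw [norm_mul]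
      have h1 := PiLp.norm_apply_le (p := 2) x i
      have h2 := (norm_sub_le (x i) (μ i)).trans
        (add_le_add h1 (PiLp.norm_apply_le (p := 2) μ i))
      have h3 := (PiLp.norm_apply_le (p := 2) (g x) i).trans (h.norm_le x)
      have := mul_le_mul h2 h3 (norm_nonneg _) (by positivity)
      have hx0 := norm_nonneg x
      have hm0 := norm_nonneg μ
      have hp := h.pos.le
      have hr := h.r0_nonneg
      refine this.trans ?_
      calc (‖x‖ + ‖μ‖) * (δ * ‖x‖ + r0)
          ≤ ((1 + ‖μ‖) * (1 + ‖x‖)) * ((δ + r0) * (1 + ‖x‖)) :=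
            mul_le_mul (by nlinarith) (by nlinarith) (by positivity) (by positivity)
        _ = _ := by ring
  have hmean : ∀ i, ∫ x, (x i - μ i) ∂tilt R = 0 := by
    intro i
    have : ∫ x, x i ∂tilt R = μ i :=
      (EuclideanSpace.proj (𝕜 := ℝ) i).integral_comp_comm i1
    have hi : Integrable (fun x : E d => x i) (tilt R) :=
      (EuclideanSpace.proj (𝕜 := ℝ) i : E d →L[ℝ] ℝ).integrable_comp i1
    rw [integral_sub hi (integrable_const _), this]
    simp
  have key : ∀ i, ∫ x, (x i - μ i) * x i ∂tilt R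
      = 1 - ∫ x, (x i - μ i) * g x i ∂tilt R := by
    intro i
    have hl : ∀ x : E d, HasFDerivAt (fun y : E d => y i - μ i)
        (EuclideanSpace.proj (𝕜 := ℝ) i : E d →L[ℝ] ℝ) x :=
      fun x => ((EuclideanSpace.proj (𝕜 := ℝ) i : E d →L[ℝ] ℝ).hasFDerivAt).sub_const _
    have hn : ‖(EuclideanSpace.proj i : E d →L[ℝ] ℝ)‖ ≤ 1 :=
      ContinuousLinearMap.opNorm_le_bound _ zero_le_one fun y => by
        simpa using PiLp.norm_apply_le (p := 2) y i
    have := h.ibp (f := fun y : E d => y i - μ i)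
      ((EuclideanSpace.proj (𝕜 := ℝ) i).contDiff.sub contDiff_const) (1 + ‖μ‖) 1
      (fun x => by
        rw [← norm_eq_abs]
        refine (norm_sub_le _ _).trans ?_
        have h1 := PiLp.norm_apply_le (p := 2) x i
        have h2 := PiLp.norm_apply_le (p := 2) μ i
        nlinarith [norm_nonneg x, norm_nonneg μ])
      (fun x => by rw [(hl x).fderiv]; nlinarith [norm_nonneg x, norm_nonneg μ])
      (EuclideanSpace.single i 1)
    simp only [(hl _).fderiv, EuclideanSpace.inner_single_right, one_mul, conj_trivial] at this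
    rw [integral_sub (integrable_const _) (hg i)] at this
    simpa [mul_comm] using this
  have hVar : ∫ x, ‖x - μ‖ ^ 2 ∂tilt R = d - ∫ x, ⟪x - μ, g x - g μ⟫ ∂tilt R := by
    have e1 : ∀ x : E d, ‖x - μ‖ ^ 2 = ∑ i, ((x i - μ i) * x i - μ i * (x i - μ i)) := by
      intro x
      rw [EuclideanSpace.real_norm_sq_eq]
      exact Finset.sum_congr rfl fun i _ => by simp [pow_two]; ring
    have e2 : ∀ x : E d,
        ⟪x - μ, g x - g μ⟫ = ∑ i, ((x i - μ i) * g x i - g μ i * (x i - μ i)) := by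
      intro x
      simp only [PiLp.inner_apply, RCLike.inner_apply, conj_trivial]
      exact Finset.sum_congr rfl fun i _ => by simp; ring
    have i0 : ∀ i, Integrable (fun x : E d => x i - μ i) (tilt R) := fun i =>
      ((EuclideanSpace.proj (𝕜 := ℝ) i).integrable_comp i1).sub (integrable_const _)
    simp only [e1, e2]
    rw [integral_finsetSum _ fun i _ => (hx i).sub' ((i0 i).const_mul _),
      integral_finsetSum _ fun i _ => (hg i).sub' ((i0 i).const_mul _)]
    simp only [integral_sub (hx _) ((i0 _).const_mul _), integral_sub (hg _) ((i0 _).const_mul _),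
      integral_const_mul, hmean, mul_zero, sub_zero, key, Finset.sum_sub_distrib, Finset.sum_const,
      Finset.card_univ, Fintype.card_fin, nsmul_eq_mul, mul_one]
  have hge : ∫ x, -(δ * ‖x - μ‖ ^ 2) ∂tilt R ≤ ∫ x, ⟪x - μ, g x - g μ⟫ ∂tilt R := by
    refine integral_mono (i2.const_mul _).neg ?_ fun x => ?_
    · refine h.integrable_tilt (by have := h.contg; fun_prop) (δ * (1 + ‖μ‖) ^ 2) 2 fun x => ?_
      rw [norm_eq_abs]
      refine (abs_real_inner_le_norm _ _).trans ?_
      calc ‖x - μ‖ * ‖g x - g μ‖ ≤ ‖x - μ‖ * (δ * ‖x - μ‖) :=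
            mul_le_mul_of_nonneg_left (h.lip x μ) (norm_nonneg _)
        _ = δ * ‖x - μ‖ ^ 2 := by ring
        _ ≤ δ * ((1 + ‖μ‖) * (1 + ‖x‖)) ^ 2 := by
            gcongr
            · exact h.pos.le
            · nlinarith [norm_sub_le x μ, norm_nonneg x, norm_nonneg μ]
        _ = _ := by ring
    · have h1 := (abs_le.1 (abs_real_inner_le_norm (x - μ) (g x - g μ))).1
      have h2 := mul_le_mul_of_nonneg_left (h.lip x μ) (norm_nonneg (x - μ))
      nlinarith
  rw [integral_neg, integral_const_mul] at hge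
  have hv : 0 ≤ ∫ x, ‖x - μ‖ ^ 2 ∂tilt R := integral_nonneg fun x => sq_nonneg _
  have hd0 : (0 : ℝ) ≤ d := Nat.cast_nonneg d
  nlinarith [h.le_eighth, h.pos]

end Pot

/-- The coefficient `√(1 - l²)`. -/
noncomputable def sc (l : ℝ) : ℝ := √(1 - l ^ 2)

lemma sc_nonneg (l : ℝ) : 0 ≤ sc l := sqrt_nonneg _

lemma sc_le_one (l : ℝ) : sc l ≤ 1 := by
  rw [sc, sqrt_le_one]; nlinarith

@[fun_prop]
lemma continuous_sc : Continuous sc := by unfold sc; fun_prop

lemma sq_add_sc_sq {l : ℝ} (hl : l ∈ Set.Icc (0 : ℝ) 1) : l ^ 2 + sc l ^ 2 = 1 := by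
  rw [sc, sq_sqrt (by nlinarith [hl.1, hl.2])]; ring

/-- The potential seen by the noise at time `l` and position `x`. -/
noncomputable def shiftR (R : E d → ℝ) (l : ℝ) (x w : E d) : ℝ := R (l • x + sc l • w)

/-- The gradient seen by the noise at time `l` and position `x`. -/
noncomputable def shiftG (g : E d → E d) (l : ℝ) (x w : E d) : E d := sc l • g (l • x + sc l • w)

lemma Pot.shift (h : Pot d δ r0 R g) {l : ℝ} (hl : l ∈ Set.Icc (0 : ℝ) 1) (x : E d) :
    Pot d δ (δ * ‖x‖ + r0) (shiftR R l x) (shiftG g l x) where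
  pos := h.pos
  le_eighth := h.le_eighth
  r0_nonneg := by have := h.pos; have := h.r0_nonneg; positivity
  hasGrad w := by
    have := (h.hasGrad (l • x + sc l • w)).comp w (((hasFDerivAt_id w).const_smul (sc l)).const_add (l • x))
    refine this.congr_fderiv ?_
    ext v
    simp [shiftG, inner_smul_left]
  smooth := by
    have := h.smooth
    unfold shiftG
    fun_prop
  lip w w' := by
    simp only [shiftG, ← smul_sub, norm_smul, norm_eq_abs, abs_of_nonneg (sc_nonneg l)]
    calc sc l * ‖g (l • x + sc l • w) - g (l • x + sc l • w')‖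
        ≤ sc l * (δ * ‖(l • x + sc l • w) - (l • x + sc l • w')‖) :=
          mul_le_mul_of_nonneg_left (h.lip _ _) (sc_nonneg l)
      _ = sc l * sc l * (δ * ‖w - w'‖) := by
          rw [add_sub_add_left_eq_sub, ← smul_sub, norm_smul, norm_eq_abs,
            abs_of_nonneg (sc_nonneg l)]
          ring
      _ ≤ 1 * (δ * ‖w - w'‖) := by
          have := h.pos
          gcongr
          exact mul_le_one₀ (sc_le_one l) (sc_nonneg l) (sc_le_one l)
      _ = _ := one_mul _
  at_zero := by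
    simp only [shiftG, smul_zero, add_zero, norm_smul, norm_eq_abs, abs_of_nonneg (sc_nonneg l)]
    calc sc l * ‖g (l • x)‖ ≤ 1 * (δ * ‖l • x‖ + r0) :=
          mul_le_mul (sc_le_one l) (h.norm_le _) (norm_nonneg _) zero_le_one
      _ ≤ δ * ‖x‖ + r0 := by
          rw [one_mul, norm_smul, norm_eq_abs, abs_of_nonneg hl.1]
          nlinarith [mul_le_mul_of_nonneg_right hl.2 (norm_nonneg x), h.pos]

/-- The velocity field of the transport. -/
noncomputable def vel (R : E d → ℝ) (g : E d → E d) (l : ℝ) (x : E d) : E d :=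
  ∫ w, g (l • x + sc l • w) ∂tilt (shiftR R l x)

/-- The size of the first-order drift at `x`. -/
noncomputable def driftSize (δ r0 : ℝ) (x : E d) : ℝ := δ * ‖x‖ + δ * √d + r0

lemma driftSize_nonneg (h : Pot d δ r0 R g) (x : E d) : 0 ≤ driftSize δ r0 x := by
  have := h.pos; have := h.r0_nonneg; unfold driftSize; positivity

lemma norm_vel_le (h : Pot d δ r0 R g) (hd : 0 < d) {l : ℝ} (hl : l ∈ Set.Icc (0 : ℝ) 1)
    (x : E d) : ‖vel R g l x‖ ≤ 2 * driftSize δ r0 x := by
  have hs := h.shift hl x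
  haveI := hs.isProb
  have hb : ∀ w, ‖g (l • x + sc l • w)‖ ≤ δ * ‖w‖ + (δ * ‖x‖ + r0) := by
    intro w
    refine (h.norm_le _).trans ?_
    have : ‖l • x + sc l • w‖ ≤ ‖x‖ + ‖w‖ := by
      refine (norm_add_le _ _).trans (add_le_add ?_ ?_) <;> rw [norm_smul, norm_eq_abs]
      · rw [abs_of_nonneg hl.1]; exact mul_le_of_le_one_left (norm_nonneg _) hl.2
      · rw [abs_of_nonneg (sc_nonneg l)]; exact mul_le_of_le_one_left (norm_nonneg _) (sc_le_one l)
    nlinarith [h.pos]
  have i : Integrable (fun w : E d => ‖w‖) (tilt (shiftR R l x)) :=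
    hs.integrable_tilt (by fun_prop) 1 1 fun w => by simp
  calc ‖vel R g l x‖ ≤ ∫ w, (δ * ‖w‖ + (δ * ‖x‖ + r0)) ∂tilt (shiftR R l x) := by
        rw [vel]
        exact norm_integral_le_of_norm_le ((i.const_mul _).add (integrable_const _))
          (ae_of_all _ hb)
    _ = δ * (∫ w, ‖w‖ ∂tilt (shiftR R l x)) + (δ * ‖x‖ + r0) := by
        rw [integral_add (i.const_mul _) (integrable_const _), integral_const_mul]
        simp
    _ ≤ δ * (2 * √d + 2 * (δ * ‖x‖ + r0)) + (δ * ‖x‖ + r0) := by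
        have := h.pos
        gcongr
        exact hs.integral_norm_le hd
    _ ≤ 2 * driftSize δ r0 x := by
        unfold driftSize
        nlinarith [h.pos, h.r0_nonneg, h.le_eighth, norm_nonneg x,
          mul_nonneg h.pos.le (norm_nonneg x)]

end Vale.Agent.P347
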