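import Vale.Agent.P347.FlowVel

/-!
P347: Euler maps of the velocity field.
-/

open MeasureTheory ProbabilityTheory WithLp Real Set
open scoped RealInnerProductSpace Topology

namespace Vale.Agent.P347

variable {d : ℕ} {δ r0 : ℝ} {R : E d → ℝ} {g : E d → E d}

/-- `j` Euler steps of size `1/N`, starting at time `k/N`. -/
noncomputable def eul (R : E d → ℝ) (g : E d → E d) (N k : ℕ) : ℕ → E d → E d
  | 0, x => x
  | j + 1, x => eul R g N k j x
      - (1 / (N : ℝ)) • vel R g (((k + j : ℕ) : ℝ) / N) (eul R g N k j x)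

/-- The derivative of the Euler maps. -/
noncomputable def eulD (R : E d → ℝ) (g : E d → E d) (N k : ℕ) : ℕ → E d → E d →L[ℝ] E d
  | 0, _ => ContinuousLinearMap.id ℝ (E d)
  | j + 1, x => (ContinuousLinearMap.id ℝ (E d)
      - (1 / (N : ℝ)) • Pot.velD R g (((k + j : ℕ) : ℝ) / N) (eul R g N k j x)).comp
        (eulD R g N k j x)

lemma grid_mem {N a : ℕ} (h : a ≤ N) : ((a : ℕ) : ℝ) / N ∈ Icc (0 : ℝ) 1 :=
  ⟨by positivity, div_le_one_of_le₀ (by exact_mod_cast h) (Nat.cast_nonneg N)⟩

/-- Composition on the left with one step. -/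
lemma eul_succ_left (N k : ℕ) : ∀ (j : ℕ) (x : E d),
    eul R g N k (j + 1) x = eul R g N (k + 1) j (eul R g N k 1 x)
  | 0, x => rfl
  | j + 1, x => by
    rw [eul, eul_succ_left N k j x, show k + (j + 1) = k + 1 + j by omega]
    rfl

namespace Pot

lemma velLip_nonneg (h : Pot d δ r0 R g) : 0 ≤ velLip d δ := by
  have := h.pos; unfold velLip; positivity

lemma hasFDerivAt_eul (h : Pot d δ r0 R g) (N k : ℕ) : ∀ {j : ℕ}, k + j ≤ N → ∀ x : E d,
    HasFDerivAt (eul R g N k j) (eulD R g N k j x) x
  | 0, _, x => hasFDerivAt_id x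
  | j + 1, hj, x => by
    have ih := h.hasFDerivAt_eul N k (j := j) (by omega) x
    have hv := h.hasFDerivAt_vel (grid_mem (show k + j ≤ N by omega)) (eul R g N k j x)
    exact ((hasFDerivAt_id _).sub (hv.const_smul (1 / (N : ℝ)))).comp x ih

lemma continuous_eul (h : Pot d δ r0 R g) {N k j : ℕ} (hj : k + j ≤ N) :
    Continuous (eul R g N k j) :=
  continuous_iff_continuousAt.2 fun x => (h.hasFDerivAt_eul N k hj x).continuousAt

lemma norm_eulD_le (h : Pot d δ r0 R g) (N k : ℕ) : ∀ {j : ℕ}, k + j ≤ N → ∀ x : E d,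
    ‖eulD R g N k j x‖ ≤ exp (velLip d δ * j / N)
  | 0, _, x => by
    rw [eulD]; simpa using ContinuousLinearMap.norm_id_le
  | j + 1, hj, x => by
    have ih := h.norm_eulD_le N k (j := j) (by omega) x
    have hN : (0 : ℝ) < N := by exact_mod_cast (show 0 < N by omega)
    have hM := h.velLip_nonneg
    rw [eulD]
    refine (ContinuousLinearMap.opNorm_comp_le _ _).trans ?_
    have h1 : ‖ContinuousLinearMap.id ℝ (E d)
        - (1 / (N : ℝ)) • velD R g (((k + j : ℕ) : ℝ) / N) (eul R g N k j x)‖
        ≤ 1 + velLip d δ / N := by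
      refine (norm_sub_le _ _).trans (add_le_add ContinuousLinearMap.norm_id_le ?_)
      rw [norm_smul, norm_eq_abs, abs_of_pos (by positivity), div_eq_inv_mul (velLip d δ), one_div]
      exact mul_le_mul_of_nonneg_left (h.norm_velD_le (grid_mem (show k + j ≤ N by omega)) _)
        (by positivity)
    calc _ ≤ (1 + velLip d δ / N) * exp (velLip d δ * j / N) :=
          mul_le_mul h1 ih (norm_nonneg _) (by positivity)
      _ ≤ exp (velLip d δ / N) * exp (velLip d δ * j / N) :=
          mul_le_mul_of_nonneg_right (by linarith [add_one_le_exp (velLip d δ / N)]) (exp_pos _).le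
      _ = _ := by rw [← Real.exp_add]; push_cast; ring_nf

lemma norm_eulD_le_exp (h : Pot d δ r0 R g) {N k j : ℕ} (hj : k + j ≤ N) (x : E d) :
    ‖eulD R g N k j x‖ ≤ exp (velLip d δ) := by
  refine (h.norm_eulD_le N k hj x).trans (exp_le_exp.2 ?_)
  rw [mul_div_assoc]
  exact mul_le_of_le_one_right h.velLip_nonneg (grid_mem (show j ≤ N by omega)).2

lemma lipschitz_eul (h : Pot d δ r0 R g) {N k j : ℕ} (hj : k + j ≤ N) (x y : E d) :
    ‖eul R g N k j x - eul R g N k j y‖ ≤ exp (velLip d δ) * ‖x - y‖ :=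
  convex_univ.norm_image_sub_le_of_norm_hasFDerivWithin_le
    (fun z _ => (h.hasFDerivAt_eul N k hj z).hasFDerivWithinAt)
    (fun z _ => h.norm_eulD_le_exp hj z) (mem_univ y) (mem_univ x)

lemma driftSize_le (h : Pot d δ r0 R g) (x y : E d) :
    driftSize δ r0 x ≤ driftSize δ r0 y + δ * ‖x - y‖ := by
  have := mul_le_mul_of_nonneg_left (norm_le_norm_add_norm_sub' x y) h.pos.le
  simp only [driftSize]
  linarith

lemma norm_eul_sub_le (h : Pot d δ r0 R g) (hd : 0 < d) (N k : ℕ) : ∀ {j : ℕ}, k + j ≤ N →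
    ∀ x : E d, ‖eul R g N k j x - x‖ ≤ 3 * (j / N) * driftSize δ r0 x
  | 0, _, x => by simp [eul]
  | j + 1, hj, x => by
    have ih := h.norm_eul_sub_le hd N k (j := j) (by omega) x
    set y := eul R g N k j x
    have hN : (0 : ℝ) < N := by exact_mod_cast (show 0 < N by omega)
    have hK := driftSize_nonneg h x
    have hjN := grid_mem (show j ≤ N by omega)
    have h1 : driftSize δ r0 y ≤ 3 / 2 * driftSize δ r0 x := by
      refine (h.driftSize_le y x).trans ?_
      have := mul_le_mul h.le_eighth ih (norm_nonneg _) (by norm_num)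
      nlinarith [mul_le_mul_of_nonneg_right hjN.2 hK]
    have h2 := Vale.Agent.P347.norm_vel_le h hd (grid_mem (show k + j ≤ N by omega)) y
    rw [eul, sub_right_comm]
    refine (norm_sub_le _ _).trans ?_
    rw [norm_smul, norm_eq_abs, abs_of_pos (by positivity)]
    calc ‖y - x‖ + 1 / (N : ℝ) * ‖vel R g (((k + j : ℕ) : ℝ) / N) y‖
        ≤ 3 * (j / N) * driftSize δ r0 x + 1 / (N : ℝ) * (3 * driftSize δ r0 x) := by
          gcongr; linarith
      _ = _ := by push_cast; ring

/-- The derivatives of the Euler maps are equicontinuous on balls. -/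
lemma equicontinuous_eulD (h : Pot d δ r0 R g) (hd : 0 < d) (r : ℝ) {ε : ℝ} (hε : 0 < ε) :
    ∃ ζ > 0, ∀ N k j : ℕ, k + j ≤ N → ∀ x y : E d, ‖x‖ ≤ r → ‖y‖ ≤ r → ‖x - y‖ ≤ ζ →
      ‖eulD R g N k j x - eulD R g N k j y‖ ≤ ε := by
  set M := velLip d δ
  have hM : 0 ≤ M := h.velLip_nonneg
  set r' := |r| + 3 * (δ * |r| + δ * √d + r0)
  have hcomp : IsCompact (Icc (0 : ℝ) 1 ×ˢ Metric.closedBall (0 : E d) r') :=
    isCompact_Icc.prod (isCompact_closedBall _ _)
  have huc := hcomp.uniformContinuousOn_of_continuous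
    (h.continuousOn_velD.mono (prod_mono le_rfl (subset_univ _)))
  rw [Metric.uniformContinuousOn_iff_le] at huc
  obtain ⟨ζ0, hζ0, huc⟩ := huc (ε * exp (-(2 * M))) (by positivity)
  refine ⟨ζ0 * exp (-M), by positivity, fun N k j hj x y hx hy hxy => ?_⟩
  have main : ∀ i : ℕ, k + i ≤ N → ‖eulD R g N k i x - eulD R g N k i y‖
      ≤ (i / N : ℝ) * (ε * exp (-(2 * M))) * exp M * exp (M * i / N) := by
    intro i
    induction i with
    | zero => simp [eulD]
    | succ i ih =>
      intro hi
      have hN : (0 : ℝ) < N := by exact_mod_cast (show 0 < N by omega)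
      have ih := ih (by omega)
      have hball : ∀ z : E d, ‖z‖ ≤ r → eul R g N k i z ∈ Metric.closedBall (0 : E d) r' := by
        intro z hz
        rw [mem_closedBall_zero_iff]
        have hK := driftSize_nonneg h z
        have := h.norm_eul_sub_le hd N k (j := i) (by omega) z
        have h2 := norm_le_norm_add_norm_sub' (eul R g N k i z) z
        have h3 : driftSize δ r0 z ≤ δ * |r| + δ * √d + r0 := by
          unfold driftSize; have := h.pos; gcongr; exact hz.trans (le_abs_self r)
        have h4 := mul_le_mul_of_nonneg_right (grid_mem (show i ≤ N by omega)).2 hK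
        have h5 : ‖z‖ ≤ |r| := hz.trans (le_abs_self r)
        rw [norm_sub_rev] at h2
        rw [show r' = |r| + 3 * (δ * |r| + δ * √d + r0) from rfl]
        linarith [norm_sub_rev z (eul R g N k i z)]
      set l := (((k + i : ℕ) : ℝ) / N)
      have hl : l ∈ Icc (0 : ℝ) 1 := grid_mem (show k + i ≤ N by omega)
      have hd1 : ‖velD R g l (eul R g N k i x) - velD R g l (eul R g N k i y)‖
          ≤ ε * exp (-(2 * M)) := by
        have := huc (l, eul R g N k i x) ⟨hl, hball x hx⟩ (l, eul R g N k i y) ⟨hl, hball y hy⟩ (by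
          rw [Prod.dist_eq, dist_self, dist_eq_norm, max_eq_right (norm_nonneg _)]
          refine (h.lipschitz_eul (show k + i ≤ N by omega) x y).trans ?_
          calc exp M * ‖x - y‖ ≤ exp M * (ζ0 * exp (-M)) :=
                mul_le_mul_of_nonneg_left hxy (exp_pos _).le
            _ = ζ0 := by rw [mul_comm ζ0, ← mul_assoc, ← Real.exp_add]; simp)
        rwa [dist_eq_norm] at this
      simp only [eulD]
      set A := ContinuousLinearMap.id ℝ (E d) - (1 / (N : ℝ)) • velD R g l (eul R g N k i x)
      set A' := ContinuousLinearMap.id ℝ (E d) - (1 / (N : ℝ)) • velD R g l (eul R g N k i y)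
      set B := eulD R g N k i x
      set B' := eulD R g N k i y
      have hA : ‖A‖ ≤ exp (M / N) := by
        refine (norm_sub_le _ _).trans ?_
        have : ‖(1 / (N : ℝ)) • velD R g l (eul R g N k i x)‖ ≤ M / N := by
          rw [norm_smul, norm_eq_abs, abs_of_pos (by positivity), div_eq_inv_mul M, one_div]
          exact mul_le_mul_of_nonneg_left (h.norm_velD_le hl _) (by positivity)
        linarith [add_one_le_exp (M / N), ContinuousLinearMap.norm_id_le (𝕜 := ℝ) (E := E d)]
      have hAA : ‖A - A'‖ ≤ 1 / N * (ε * exp (-(2 * M))) := by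
        rw [show A - A' = (1 / (N : ℝ)) • (velD R g l (eul R g N k i y)
            - velD R g l (eul R g N k i x)) by simp [A, A', smul_sub],
          norm_smul, norm_eq_abs, abs_of_pos (by positivity), norm_sub_rev]
        exact mul_le_mul_of_nonneg_left hd1 (by positivity)
      have hB' : ‖B'‖ ≤ exp M := h.norm_eulD_le_exp (show k + i ≤ N by omega) y
      calc ‖A.comp B - A'.comp B'‖ = ‖A.comp (B - B') + (A - A').comp B'‖ := by
            congr 1; simp [ContinuousLinearMap.comp_sub, ContinuousLinearMap.sub_comp]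
        _ ≤ ‖A‖ * ‖B - B'‖ + ‖A - A'‖ * ‖B'‖ := (norm_add_le _ _).trans
            (add_le_add (ContinuousLinearMap.opNorm_comp_le _ _)
              (ContinuousLinearMap.opNorm_comp_le _ _))
        _ ≤ exp (M / N) * ((i / N : ℝ) * (ε * exp (-(2 * M))) * exp M * exp (M * i / N))
            + 1 / N * (ε * exp (-(2 * M))) * exp M := by gcongr
        _ ≤ exp (M / N) * ((i / N : ℝ) * (ε * exp (-(2 * M))) * exp M * exp (M * i / N))
            + 1 / N * (ε * exp (-(2 * M))) * exp M * (exp (M / N) * exp (M * i / N)) := by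
            refine add_le_add le_rfl (le_mul_of_one_le_right (by positivity) ?_)
            exact one_le_mul_of_one_le_of_one_le (one_le_exp (by positivity))
              (one_le_exp (by positivity))
        _ = _ := by
            rw [show M * ((i + 1 : ℕ) : ℝ) / N = M / N + M * i / N by push_cast; ring,
              Real.exp_add]
            push_cast; ring
  refine (main j hj).trans ?_
  have hjN := grid_mem (show j ≤ N by omega)
  calc (j / N : ℝ) * (ε * exp (-(2 * M))) * exp M * exp (M * j / N)
      ≤ 1 * (ε * exp (-(2 * M))) * exp M * exp M := by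
        gcongr
        · exact hjN.2
        · rw [mul_div_assoc]; exact mul_le_of_le_one_right hM hjN.2
    _ = ε := by
        rw [one_mul, mul_assoc, ← Real.exp_add, mul_assoc, ← Real.exp_add]
        rw [show -(2 * M) + (M + M) = 0 by ring, Real.exp_zero, mul_one]

end Pot

end Vale.Agent.P347
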