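import Vale.Agent.P347.FlowVel

/-!
P347: the interpolation between the Gaussian law and the tilted law, and its velocity.
-/

open MeasureTheory ProbabilityTheory WithLp Real Set
open scoped RealInnerProductSpace Topology

namespace Vale.Agent.P347

variable {d : ℕ} {δ r0 : ℝ} {R : E d → ℝ} {g : E d → E d}

/-- The law of a pair of independent standard Gaussian vectors. -/
noncomputable abbrev gau2 (d : ℕ) : Measure (E d × E d) := (gau (Fin d)).prod (gau (Fin d))

/-- The interpolated point at time `l`. -/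
noncomputable def mixP (l : ℝ) (p : E d × E d) : E d := l • p.1 + sc l • p.2

/-- The reflection exchanging pairs with their interpolation coordinates. -/
noncomputable def refl (l : ℝ) (p : E d × E d) : E d × E d :=
  (mixP l p, sc l • p.1 - l • p.2)

lemma continuous_refl (l : ℝ) : Continuous (refl (d := d) l) := by
  unfold refl mixP; fun_prop

lemma refl_refl {l : ℝ} (hl : l ∈ Icc (0 : ℝ) 1) (p : E d × E d) : refl l (refl l p) = p := by
  have h := sq_add_sc_sq hl
  simp only [refl, mixP]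
  refine Prod.ext ?_ ?_
  · calc l • (l • p.1 + sc l • p.2) + sc l • (sc l • p.1 - l • p.2)
        = (l ^ 2 + sc l ^ 2) • p.1 := by module
      _ = p.1 := by rw [h, one_smul]
  · calc sc l • (l • p.1 + sc l • p.2) - l • (sc l • p.1 - l • p.2)
        = (l ^ 2 + sc l ^ 2) • p.2 := by module
      _ = p.2 := by rw [h, one_smul]

lemma measurePreserving_refl {l : ℝ} (hl : l ∈ Icc (0 : ℝ) 1) :
    MeasurePreserving (refl (d := d) l) (gau2 d) (gau2 d) := by
  have h1 := measurePreserving_rot (ι := Fin d) (sq_add_sc_sq hl)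
  have h2 : MeasurePreserving (fun x : E d => -x) (gau (Fin d)) (gau (Fin d)) :=
    ⟨measurable_neg, stdGaussian_map (LinearIsometryEquiv.neg ℝ (E := E d))⟩
  have h3 := ((MeasurePreserving.id (gau (Fin d))).prod h2).comp h1
  convert h3 using 1
  funext p
  simp only [refl, mixP, rot, Function.comp_apply, Prod.map_apply, id]
  refine Prod.ext rfl ?_
  simp only
  module

lemma integral_refl {F : Type*} [NormedAddCommGroup F] [NormedSpace ℝ F] {l : ℝ}
    (hl : l ∈ Icc (0 : ℝ) 1) {f : E d × E d → F} (hf : AEStronglyMeasurable f (gau2 d)) :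
    ∫ p, f (refl l p) ∂gau2 d = ∫ p, f p ∂gau2 d := by
  have h := measurePreserving_refl (d := d) hl
  conv_rhs => rw [← h.map_eq]
  rw [integral_map h.measurable.aemeasurable (by rwa [h.map_eq])]

/-- The dominating weight in one variable. -/
noncomputable def dwt (r0 δ : ℝ) (k : ℕ) (x : E d) : ℝ :=
  (1 + ‖x‖) ^ k * exp (r0 * ‖x‖) * exp (2 * δ * ‖x‖ ^ 2)

lemma dwt_nonneg (r0 δ : ℝ) (k : ℕ) (x : E d) : 0 ≤ dwt r0 δ k x := by unfold dwt; positivity

namespace Pot

lemma integrable_dwt (h : Pot d δ r0 R g) (k : ℕ) :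
    Integrable (dwt (d := d) r0 δ k) (gau (Fin d)) :=
  integrable_gau_of_growth (by unfold dwt; fun_prop) (a := 2 * δ) (by linarith [h.le_eighth]) 1 k r0
    fun x => by rw [norm_eq_abs, abs_of_nonneg (dwt_nonneg _ _ _ _), one_mul, dwt]

lemma integrable_dwt2 (h : Pot d δ r0 R g) (k : ℕ) :
    Integrable (fun p : E d × E d => dwt r0 δ k p.1 * dwt r0 δ k p.2) (gau2 d) :=
  (h.integrable_dwt k).mul_prod (h.integrable_dwt k)

lemma weight_le (h : Pot d δ r0 R g) (k : ℕ) {y : E d} {p : E d × E d}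
    (hy : ‖y‖ ≤ ‖p.1‖ + ‖p.2‖) :
    exp (-R y) * (1 + ‖p.1‖ + ‖p.2‖) ^ k ≤ exp (-R 0) * (dwt r0 δ k p.1 * dwt r0 δ k p.2) := by
  have h1 : (1 + ‖p.1‖ + ‖p.2‖) ^ k ≤ (1 + ‖p.1‖) ^ k * (1 + ‖p.2‖) ^ k := by
    rw [← mul_pow]
    exact pow_le_pow_left₀ (by positivity) (by nlinarith [norm_nonneg p.1, norm_nonneg p.2]) k
  have h2 : exp (r0 * ‖y‖) ≤ exp (r0 * ‖p.1‖) * exp (r0 * ‖p.2‖) := by
    rw [← Real.exp_add, Real.exp_le_exp, ← mul_add]
    exact mul_le_mul_of_nonneg_left hy h.r0_nonneg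
  have h3 : exp (δ * ‖y‖ ^ 2) ≤ exp (2 * δ * ‖p.1‖ ^ 2) * exp (2 * δ * ‖p.2‖ ^ 2) := by
    rw [← Real.exp_add, Real.exp_le_exp]
    have : ‖y‖ ^ 2 ≤ 2 * ‖p.1‖ ^ 2 + 2 * ‖p.2‖ ^ 2 := by
      nlinarith [norm_nonneg y, sq_nonneg (‖p.1‖ - ‖p.2‖)]
    nlinarith [h.pos]
  calc exp (-R y) * (1 + ‖p.1‖ + ‖p.2‖) ^ k
      ≤ exp (-R 0) * (exp (r0 * ‖p.1‖) * exp (r0 * ‖p.2‖))
          * (exp (2 * δ * ‖p.1‖ ^ 2) * exp (2 * δ * ‖p.2‖ ^ 2))
          * ((1 + ‖p.1‖) ^ k * (1 + ‖p.2‖) ^ k) := by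
        refine mul_le_mul ((h.exp_neg_le y).trans ?_) h1 (by positivity) (by positivity)
        gcongr
    _ = _ := by simp only [dwt]; ring

lemma integrable_weighted {F : Type*} [NormedAddCommGroup F] [NormedSpace ℝ F]
    [SecondCountableTopology F] (h : Pot d δ r0 R g) {f : E d × E d → F} (hf : Continuous f)
    {y : E d × E d → E d} (hy : Continuous y) (hyb : ∀ p, ‖y p‖ ≤ ‖p.1‖ + ‖p.2‖) (K : ℝ)
    (k : ℕ) (hb : ∀ p, ‖f p‖ ≤ K * (1 + ‖p.1‖ + ‖p.2‖) ^ k) :
    Integrable (fun p => exp (-R (y p)) • f p) (gau2 d) := by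
  refine ((h.integrable_dwt2 k).const_mul (|K| * exp (-R 0))).mono'
    (((h.contR.comp hy).neg.rexp).smul hf).aestronglyMeasurable (ae_of_all _ fun p => ?_)
  rw [norm_smul, norm_eq_abs, abs_of_pos (exp_pos _)]
  calc exp (-R (y p)) * ‖f p‖ ≤ exp (-R (y p)) * (|K| * (1 + ‖p.1‖ + ‖p.2‖) ^ k) :=
        mul_le_mul_of_nonneg_left ((hb p).trans
          (mul_le_mul_of_nonneg_right (le_abs_self K) (by positivity))) (exp_pos _).le
    _ = |K| * (exp (-R (y p)) * (1 + ‖p.1‖ + ‖p.2‖) ^ k) := by ring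
    _ ≤ |K| * (exp (-R 0) * (dwt r0 δ k p.1 * dwt r0 δ k p.2)) :=
        mul_le_mul_of_nonneg_left (h.weight_le k (hyb p)) (abs_nonneg K)
    _ = _ := by ring

end Pot

lemma norm_mixP_le {l : ℝ} (hl : l ∈ Icc (0 : ℝ) 1) (p : E d × E d) :
    ‖mixP l p‖ ≤ ‖p.1‖ + ‖p.2‖ := norm_interp_le hl p.1 p.2

lemma norm_fst_le (p : E d × E d) : ‖p.1‖ ≤ ‖p.1‖ + ‖p.2‖ :=
  le_add_of_nonneg_right (norm_nonneg _)

namespace Pot

/-- Averaging the gradient given the interpolated point gives the velocity. -/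
lemma tower (h : Pot d δ r0 R g) (hd : 0 < d) {l : ℝ} (hl : l ∈ Icc (0 : ℝ) 1)
    {A : E d → E d →L[ℝ] ℝ} (hA : Continuous A) (K : ℝ) (k : ℕ)
    (hb : ∀ y, ‖A y‖ ≤ K * (1 + ‖y‖) ^ k) :
    ∫ p, exp (-R p.1) • A (mixP l p) (g p.1) ∂gau2 d
      = ∫ p, exp (-R p.1) • A (mixP l p) (vel R g l (mixP l p)) ∂gau2 d := by
  have hmix : Continuous (mixP (d := d) l) := by unfold mixP; fun_prop
  have hK : 0 ≤ K := by simpa using (norm_nonneg (A 0)).trans (hb 0)
  have hv : Continuous (vel R g l) :=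
    continuous_iff_continuousAt.2 fun x => (h.hasFDerivAt_vel hl x).continuousAt
  set C := K * (δ + r0 + 2 * (δ + δ * √d + r0))
  have hA' : ∀ q : E d × E d, ‖A q.1‖ ≤ K * (1 + ‖q.1‖ + ‖q.2‖) ^ k := fun q =>
    (hb q.1).trans (mul_le_mul_of_nonneg_left (pow_le_pow_left₀ (by positivity)
      (by linarith [norm_nonneg q.2]) k) hK)
  have sz : ∀ q : E d × E d, ∀ u : E d,
      ‖u‖ ≤ (δ + r0 + 2 * (δ + δ * √d + r0)) * (1 + ‖q.1‖ + ‖q.2‖) →
      ‖A q.1 u‖ ≤ C * (1 + ‖q.1‖ + ‖q.2‖) ^ (k + 1) := fun q u hu => by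
    refine (ContinuousLinearMap.le_opNorm _ _).trans ?_
    calc ‖A q.1‖ * ‖u‖ ≤ (K * (1 + ‖q.1‖ + ‖q.2‖) ^ k)
          * ((δ + r0 + 2 * (δ + δ * √d + r0)) * (1 + ‖q.1‖ + ‖q.2‖)) :=
          mul_le_mul (hA' q) hu (norm_nonneg _) (by positivity)
      _ = _ := by simp only [C]; ring
  have hf : Integrable (fun q : E d × E d => exp (-R (mixP l q)) • A q.1 (g (mixP l q)))
      (gau2 d) := by
    refine h.integrable_weighted (f := fun q : E d × E d => A q.1 (g (mixP l q)))
      ((hA.comp continuous_fst).clm_apply (h.contg.comp hmix)) hmix (norm_mixP_le hl) C (k + 1)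
      fun q => sz q _ ?_
    refine (h.norm_le _).trans ?_
    have := norm_mixP_le hl q
    nlinarith [h.pos, h.r0_nonneg, norm_nonneg q.1, norm_nonneg q.2, sqrt_nonneg (d : ℝ),
      mul_nonneg h.pos.le (sqrt_nonneg (d : ℝ)),
      mul_nonneg h.r0_nonneg (norm_nonneg q.1), mul_nonneg h.r0_nonneg (norm_nonneg q.2)]
  have hg : Integrable (fun q : E d × E d => exp (-R (mixP l q)) • A q.1 (vel R g l q.1))
      (gau2 d) := by
    refine h.integrable_weighted (f := fun q : E d × E d => A q.1 (vel R g l q.1))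
      ((hA.comp continuous_fst).clm_apply (hv.comp continuous_fst)) hmix (norm_mixP_le hl) C
      (k + 1) fun q => sz q _ ?_
    refine (norm_vel_le h hd hl _).trans ?_
    simp only [driftSize]
    nlinarith [h.pos, h.r0_nonneg, norm_nonneg q.1, norm_nonneg q.2, sqrt_nonneg (d : ℝ),
      mul_nonneg h.pos.le (sqrt_nonneg (d : ℝ)),
      mul_nonneg (mul_nonneg h.pos.le (sqrt_nonneg (d : ℝ)))
        (add_nonneg (norm_nonneg q.1) (norm_nonneg q.2)),
      mul_nonneg h.r0_nonneg (norm_nonneg q.1), mul_nonneg h.r0_nonneg (norm_nonneg q.2)]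
  have e1 : ∫ p, exp (-R p.1) • A (mixP l p) (g p.1) ∂gau2 d
      = ∫ q, exp (-R (mixP l q)) • A q.1 (g (mixP l q)) ∂gau2 d := by
    rw [← integral_refl hl hf.aestronglyMeasurable]
    refine integral_congr_ae (ae_of_all _ fun p => ?_)
    have := congrArg Prod.fst (refl_refl hl p)
    simp only [refl] at this ⊢
    rw [this]
  have e2 : ∫ p, exp (-R p.1) • A (mixP l p) (vel R g l (mixP l p)) ∂gau2 d
      = ∫ q, exp (-R (mixP l q)) • A q.1 (vel R g l q.1) ∂gau2 d := by
    rw [← integral_refl hl hg.aestronglyMeasurable]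
    refine integral_congr_ae (ae_of_all _ fun p => ?_)
    have := congrArg Prod.fst (refl_refl hl p)
    simp only [refl] at this ⊢
    rw [this]
  rw [e1, e2, integral_prod _ hf, integral_prod _ hg]
  refine integral_congr_ae (ae_of_all _ fun x => ?_)
  simp only [mixP, smul_eq_mul]
  rw [integral_mul_const]
  have hs := h.shift hl x
  have hw : Integrable (fun w => exp (-shiftR R l x w) • g (l • x + sc l • w)) (gau (Fin d)) :=
    hs.integrable_smul_exp (h.contg.comp (by fun_prop)) (δ + r0 + δ * ‖x‖) 1 fun w => by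
      refine (h.norm_le _).trans ?_
      have := norm_interp_le hl x w
      nlinarith [h.pos, h.r0_nonneg, norm_nonneg x, norm_nonneg w,
        mul_nonneg (mul_nonneg h.pos.le (norm_nonneg x)) (norm_nonneg w),
        mul_nonneg h.r0_nonneg (norm_nonneg w)]
  have : ∫ w, exp (-R (l • x + sc l • w)) • g (l • x + sc l • w) ∂gau (Fin d)
      = (∫ w, exp (-R (l • x + sc l • w)) ∂gau (Fin d)) • vel R g l x := by
    have hne : (∫ w, exp (-R (l • x + sc l • w)) ∂gau (Fin d)) ≠ 0 := (h.gI_wexp_pos hl x).ne'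
    rw [vel, hs.integral_tilt, smul_smul]
    simp only [shiftR]
    rw [mul_inv_cancel₀ hne, one_smul]
  simp only [shiftR] at hw
  rw [← smul_eq_mul (a := ∫ w, exp (-R (l • x + sc l • w)) ∂gau (Fin d)), ← map_smul, ← this,
    ← ContinuousLinearMap.integral_comp_comm _ hw]
  simp

end Pot

/-- The unnormalised average of `φ` along the interpolation at time `l`. -/
noncomputable def avgI (R : E d → ℝ) (φ : E d → ℝ) (l : ℝ) : ℝ :=
  ∫ p, exp (-R p.1) * φ (mixP l p) ∂gau2 d

/-- Its derivative in `l`, up to sign. -/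
noncomputable def avgD (R : E d → ℝ) (g : E d → E d) (φ : E d → ℝ) (l : ℝ) : ℝ :=
  ∫ p, exp (-R p.1) • fderiv ℝ φ (mixP l p) (g p.1) ∂gau2 d

/-- A test function: continuously differentiable with derivative of linear growth. -/
structure Test (φ : E d → ℝ) (L : ℝ) : Prop where
  smooth : ContDiff ℝ 1 φ
  bound : ∀ x, ‖fderiv ℝ φ x‖ ≤ L * (1 + ‖x‖)

lemma Test.nonneg {φ : E d → ℝ} {L : ℝ} (hφ : Test φ L) : 0 ≤ L := by
  simpa using (norm_nonneg (fderiv ℝ φ 0)).trans (hφ.bound 0)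

lemma Test.growth {φ : E d → ℝ} {L : ℝ} (hφ : Test φ L) (x : E d) :
    ‖φ x‖ ≤ (|φ 0| + L) * (1 + ‖x‖) ^ 2 := by
  have hL := hφ.nonneg
  have := (convex_closedBall (0 : E d) ‖x‖).norm_image_sub_le_of_norm_fderiv_le (𝕜 := ℝ) (f := φ)
    (C := L * (1 + ‖x‖)) (fun y _ => hφ.smooth.differentiable one_ne_zero y) (fun y hy =>
      (hφ.bound y).trans (mul_le_mul_of_nonneg_left (by simpa using hy) hL))
    (Metric.mem_closedBall_self (norm_nonneg _)) (by simp : x ∈ Metric.closedBall 0 ‖x‖)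
  rw [sub_zero] at this
  have h2 := norm_le_norm_add_norm_sub' (φ x) (φ 0)
  rw [norm_eq_abs (φ 0)] at h2
  have hx := norm_nonneg x
  calc ‖φ x‖ ≤ |φ 0| + L * (1 + ‖x‖) * ‖x‖ := h2.trans (by linarith)
    _ ≤ |φ 0| * (1 + ‖x‖) ^ 2 + L * (1 + ‖x‖) * (1 + ‖x‖) := by
        refine add_le_add (le_mul_of_one_le_right (abs_nonneg _) (one_le_pow₀ (by linarith))) ?_
        gcongr
        linarith
    _ = _ := by ring

namespace Pot

lemma avgI_continuousOn (h : Pot d δ r0 R g) {φ : E d → ℝ} {L : ℝ} (hφ : Test φ L) :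
    ContinuousOn (avgI R φ) (Icc 0 1) := by
  have hL := hφ.nonneg
  refine continuousOn_of_dominated
    (bound := fun p => (|φ 0| + L) * exp (-R 0) * (dwt r0 δ 2 p.1 * dwt r0 δ 2 p.2)) ?_ ?_
    ((h.integrable_dwt2 2).const_mul ((|φ 0| + L) * exp (-R 0))) ?_
  · intro l _
    refine Continuous.aestronglyMeasurable ?_
    have := h.contR; have := hφ.smooth.continuous
    unfold mixP; fun_prop
  · intro l hl
    refine ae_of_all _ fun p => ?_
    rw [norm_mul, norm_eq_abs, abs_of_pos (exp_pos _)]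
    calc exp (-R p.1) * ‖φ (mixP l p)‖
        ≤ exp (-R p.1) * ((|φ 0| + L) * (1 + ‖p.1‖ + ‖p.2‖) ^ 2) := by
          refine mul_le_mul_of_nonneg_left ((hφ.growth _).trans ?_) (exp_pos _).le
          exact mul_le_mul_of_nonneg_left (pow_le_pow_left₀ (by positivity)
            (by linarith [norm_mixP_le hl p]) 2) (by positivity)
      _ = (|φ 0| + L) * (exp (-R p.1) * (1 + ‖p.1‖ + ‖p.2‖) ^ 2) := by ring
      _ ≤ (|φ 0| + L) * (exp (-R 0) * (dwt r0 δ 2 p.1 * dwt r0 δ 2 p.2)) :=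
          mul_le_mul_of_nonneg_left (h.weight_le 2 (norm_fst_le p)) (by positivity)
      _ = _ := by ring
  · refine ae_of_all _ fun p => (Continuous.continuousOn ?_)
    have := hφ.smooth.continuous
    unfold mixP; fun_prop

lemma avgD_continuousOn (h : Pot d δ r0 R g) {φ : E d → ℝ} {L : ℝ} (hφ : Test φ L) :
    ContinuousOn (avgD R g φ) (Icc 0 1) := by
  have hL := hφ.nonneg
  refine continuousOn_of_dominated
    (bound := fun p => L * (δ + r0) * exp (-R 0) * (dwt r0 δ 2 p.1 * dwt r0 δ 2 p.2)) ?_ ?_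
    ((h.integrable_dwt2 2).const_mul (L * (δ + r0) * exp (-R 0))) ?_
  · intro l _
    refine Continuous.aestronglyMeasurable ?_
    have := h.contR; have := h.contg; have := hφ.smooth.continuous_fderiv one_ne_zero
    unfold mixP; fun_prop
  · intro l hl
    refine ae_of_all _ fun p => ?_
    rw [norm_smul, norm_eq_abs, abs_of_pos (exp_pos _)]
    calc exp (-R p.1) * ‖fderiv ℝ φ (mixP l p) (g p.1)‖
        ≤ exp (-R p.1) * ((L * (1 + ‖p.1‖ + ‖p.2‖)) * ((δ + r0) * (1 + ‖p.1‖ + ‖p.2‖))) := by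
          refine mul_le_mul_of_nonneg_left ((ContinuousLinearMap.le_opNorm _ _).trans
            (mul_le_mul ?_ ?_ (norm_nonneg _) (by positivity))) (exp_pos _).le
          · exact (hφ.bound _).trans (mul_le_mul_of_nonneg_left
              (by linarith [norm_mixP_le hl p]) hL)
          · refine (h.norm_le _).trans ?_
            nlinarith [h.pos, h.r0_nonneg, norm_nonneg p.1, norm_nonneg p.2]
      _ = L * (δ + r0) * (exp (-R p.1) * (1 + ‖p.1‖ + ‖p.2‖) ^ 2) := by ring
      _ ≤ L * (δ + r0) * (exp (-R 0) * (dwt r0 δ 2 p.1 * dwt r0 δ 2 p.2)) :=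
          mul_le_mul_of_nonneg_left (h.weight_le 2 (norm_fst_le p))
            (by have := h.pos; have := h.r0_nonneg; positivity)
      _ = _ := by ring
  · refine ae_of_all _ fun p => (Continuous.continuousOn ?_)
    have := hφ.smooth.continuous_fderiv one_ne_zero
    unfold mixP; fun_prop

lemma hasDerivAt_avgI (h : Pot d δ r0 R g) {φ : E d → ℝ} {L : ℝ} (hφ : Test φ L) {l : ℝ}
    (hl : l ∈ Ioo (0 : ℝ) 1) : HasDerivAt (avgI R φ) (-avgD R g φ l) l := by
  have hL := hφ.nonneg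
  have hl' : l ∈ Icc (0 : ℝ) 1 := Ioo_subset_Icc_self hl
  have hsc : ∀ m ∈ Ioo (0 : ℝ) ((1 + l) / 2), HasDerivAt sc (-m / sc m) m ∧ sc ((1 + l) / 2) ≤ sc m := by
    intro m hm
    have hm1 : m < 1 := by linarith [hm.2, hl.2]
    have hne : (1 : ℝ) - m ^ 2 ≠ 0 := by
      have : m ^ 2 < 1 := by nlinarith [hm.1]
      linarith
    refine ⟨?_, ?_⟩
    · refine (((hasDerivAt_id m).pow 2).const_sub 1).sqrt hne |>.congr_deriv ?_
      simp only [sc, id, Pi.pow_apply]
      field_simp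
      ring
    · exact sqrt_le_sqrt (by nlinarith [hm.1, hm.2])
  set s0 := sc ((1 + l) / 2)
  have hs0 : 0 < s0 := sqrt_pos.2 (by nlinarith [hl.1, hl.2])
  have hder := (hasDerivAt_integral_of_dominated_loc_of_deriv_le
    (μ := gau2 d) (F := fun m p => exp (-R p.1) * φ (mixP m p))
    (F' := fun m p => exp (-R p.1) * fderiv ℝ φ (mixP m p) (p.1 + (-m / sc m) • p.2))
    (bound := fun p => L * (1 + 1 / s0) * exp (-R 0) * (dwt r0 δ 2 p.1 * dwt r0 δ 2 p.2))
    (x₀ := l) (s := Ioo 0 ((1 + l) / 2)) (Ioo_mem_nhds hl.1 (by linarith [hl.2]))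
    (Filter.Eventually.of_forall fun m => by
      refine Continuous.aestronglyMeasurable ?_
      have := h.contR; have := hφ.smooth.continuous
      unfold mixP; fun_prop)
    (by
      refine (h.integrable_weighted (f := fun p : E d × E d => φ (mixP l p))
        (by have := hφ.smooth.continuous; unfold mixP; fun_prop) continuous_fst norm_fst_le
        (|φ 0| + L) 2 fun p => (hφ.growth _).trans ?_).congr (ae_of_all _ fun p => by simp)
      exact mul_le_mul_of_nonneg_left (pow_le_pow_left₀ (by positivity)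
        (by linarith [norm_mixP_le hl' p]) 2) (by positivity))
    (by
      refine Continuous.aestronglyMeasurable ?_
      have := h.contR; have := hφ.smooth.continuous_fderiv one_ne_zero
      unfold mixP; fun_prop)
    (ae_of_all _ fun p m hm => by
      have hm' : m ∈ Icc (0 : ℝ) 1 := ⟨hm.1.le, by linarith [hm.2, hl.2]⟩
      have hsm := (hsc m hm).2
      rw [norm_mul, norm_eq_abs, abs_of_pos (exp_pos _)]
      calc exp (-R p.1) * ‖fderiv ℝ φ (mixP m p) (p.1 + (-m / sc m) • p.2)‖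
          ≤ exp (-R p.1) * ((L * (1 + ‖p.1‖ + ‖p.2‖))
              * ((1 + 1 / s0) * (1 + ‖p.1‖ + ‖p.2‖))) := by
            refine mul_le_mul_of_nonneg_left ((ContinuousLinearMap.le_opNorm _ _).trans
              (mul_le_mul ?_ ?_ (norm_nonneg _) (by positivity))) (exp_pos _).le
            · exact (hφ.bound _).trans (mul_le_mul_of_nonneg_left
                (by linarith [norm_mixP_le hm' p]) hL)
            · refine (norm_add_le _ _).trans ?_
              rw [norm_smul, norm_eq_abs, abs_div, abs_neg, abs_of_nonneg hm'.1,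
                abs_of_nonneg (sc_nonneg m)]
              have : m / sc m ≤ 1 / s0 := div_le_div₀ zero_le_one hm'.2 hs0 hsm
              have h0 : 0 ≤ 1 / s0 := by positivity
              nlinarith [norm_nonneg p.1, norm_nonneg p.2,
                mul_le_mul_of_nonneg_right this (norm_nonneg p.2)]
        _ = L * (1 + 1 / s0) * (exp (-R p.1) * (1 + ‖p.1‖ + ‖p.2‖) ^ 2) := by ring
        _ ≤ L * (1 + 1 / s0) * (exp (-R 0) * (dwt r0 δ 2 p.1 * dwt r0 δ 2 p.2)) :=
            mul_le_mul_of_nonneg_left (h.weight_le 2 (norm_fst_le p)) (by positivity)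
        _ = _ := by ring)
    ((h.integrable_dwt2 2).const_mul _)
    (ae_of_all _ fun p m hm => by
      have hq : HasDerivAt (fun m => mixP m p) (p.1 + (-m / sc m) • p.2) m := by
        have := ((hasDerivAt_id m).smul_const p.1).add ((hsc m hm).1.smul_const p.2)
        rw [one_smul] at this
        exact this
      exact ((hφ.smooth.differentiable one_ne_zero _).hasFDerivAt.comp_hasDerivAt m hq).const_mul
        _)).2
  refine hder.congr_deriv ?_
  have hs : 0 < sc l := sqrt_pos.2 (by nlinarith [hl.1, hl.2])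
  have hmix : Continuous (mixP (d := d) l) := by unfold mixP; fun_prop
  -- in interpolation coordinates
  have hint : Integrable (fun q : E d × E d =>
      exp (-R (mixP l q)) • ((sc l)⁻¹ * fderiv ℝ φ q.1 q.2)) (gau2 d) := by
    refine h.integrable_weighted (f := fun q : E d × E d => (sc l)⁻¹ * fderiv ℝ φ q.1 q.2)
      (by have := hφ.smooth.continuous_fderiv one_ne_zero; fun_prop) hmix (norm_mixP_le hl')
      ((sc l)⁻¹ * L) 2 fun q => ?_
    rw [norm_mul, norm_inv, norm_eq_abs (sc l), abs_of_pos hs, mul_assoc]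
    refine mul_le_mul_of_nonneg_left ((ContinuousLinearMap.le_opNorm _ _).trans ?_) (by positivity)
    calc ‖fderiv ℝ φ q.1‖ * ‖q.2‖ ≤ (L * (1 + ‖q.1‖ + ‖q.2‖)) * (1 + ‖q.1‖ + ‖q.2‖) :=
          mul_le_mul ((hφ.bound _).trans (mul_le_mul_of_nonneg_left
            (by linarith [norm_nonneg q.2]) hL))
            (by linarith [norm_nonneg q.1]) (norm_nonneg _) (by positivity)
      _ = _ := by ring
  have hint' : Integrable (fun q : E d × E d =>
      exp (-R (mixP l q)) • fderiv ℝ φ q.1 (g (mixP l q))) (gau2 d) := by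
    refine h.integrable_weighted (f := fun q : E d × E d => fderiv ℝ φ q.1 (g (mixP l q)))
      (by have := hφ.smooth.continuous_fderiv one_ne_zero; have := h.contg; unfold mixP; fun_prop)
      hmix (norm_mixP_le hl') (L * (δ + r0)) 2 fun q => ?_
    refine (ContinuousLinearMap.le_opNorm _ _).trans ?_
    calc ‖fderiv ℝ φ q.1‖ * ‖g (mixP l q)‖
        ≤ (L * (1 + ‖q.1‖ + ‖q.2‖)) * ((δ + r0) * (1 + ‖q.1‖ + ‖q.2‖)) := by
          refine mul_le_mul ((hφ.bound _).trans (mul_le_mul_of_nonneg_left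
            (by linarith [norm_nonneg q.2]) hL)) ?_ (norm_nonneg _) (by positivity)
          refine (h.norm_le _).trans ?_
          nlinarith [norm_mixP_le hl' q, h.pos, h.r0_nonneg, norm_nonneg q.1, norm_nonneg q.2]
      _ = _ := by ring
  have e1 : ∫ p, exp (-R p.1) * fderiv ℝ φ (mixP l p) (p.1 + (-l / sc l) • p.2) ∂gau2 d
      = ∫ q, exp (-R (mixP l q)) • ((sc l)⁻¹ * fderiv ℝ φ q.1 q.2) ∂gau2 d := by
    rw [← integral_refl hl' hint.aestronglyMeasurable]
    refine integral_congr_ae (ae_of_all _ fun p => ?_)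
    have h1 := congrArg Prod.fst (refl_refl hl' p)
    simp only [refl] at h1 ⊢
    rw [h1, smul_eq_mul, ← smul_eq_mul (a := (sc l)⁻¹), ← map_smul]
    congr 2
    rw [smul_sub, smul_smul, smul_smul, inv_mul_cancel₀ hs.ne', one_smul, sub_eq_add_neg,
      ← neg_smul]
    congr 2
    field_simp
  have e2 : avgD R g φ l
      = ∫ q, exp (-R (mixP l q)) • fderiv ℝ φ q.1 (g (mixP l q)) ∂gau2 d := by
    rw [avgD, ← integral_refl hl' hint'.aestronglyMeasurable]
    refine integral_congr_ae (ae_of_all _ fun p => ?_)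
    have h1 := congrArg Prod.fst (refl_refl hl' p)
    simp only [refl] at h1 ⊢
    rw [h1]
  rw [e1, e2, integral_prod _ hint, integral_prod _ hint', ← integral_neg]
  refine integral_congr_ae (ae_of_all _ fun x => ?_)
  simp only [mixP]
  set a := (InnerProductSpace.toDual ℝ (E d)).symm (fderiv ℝ φ x)
  have hdual : ∀ u, fderiv ℝ φ x u = ⟪a, u⟫ := fun u =>
    (InnerProductSpace.toDual_symm_apply (x := u) (y := fderiv ℝ φ x)).symm
  have hs' := h.shift hl' x
  have hibp := gau_ibp (f := fun w => exp (-shiftR R l x w)) hs'.smoothR.neg.exp (a := δ)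
    (by linarith [h.le_eighth])
    (exp (-shiftR R l x 0) * (1 + δ + (δ * ‖x‖ + r0))) 1 (δ * ‖x‖ + r0) (fun w => by
      rw [abs_of_pos (exp_pos _), pow_one]
      have h1 : (1 : ℝ) ≤ (1 + δ + (δ * ‖x‖ + r0)) * (1 + ‖w‖) :=
        one_le_mul_of_one_le_of_one_le (by nlinarith [h.pos, h.r0_nonneg, norm_nonneg x])
          (by linarith [norm_nonneg w])
      calc exp (-shiftR R l x w)
          ≤ exp (-shiftR R l x 0) * exp ((δ * ‖x‖ + r0) * ‖w‖) * exp (δ * ‖w‖ ^ 2) :=
            hs'.exp_neg_le w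
        _ ≤ exp (-shiftR R l x 0) * exp ((δ * ‖x‖ + r0) * ‖w‖) * exp (δ * ‖w‖ ^ 2)
              * ((1 + δ + (δ * ‖x‖ + r0)) * (1 + ‖w‖)) :=
            le_mul_of_one_le_right (by positivity) h1
        _ = _ := by ring) (fun w => by
      rw [((hs'.hasGrad w).fun_neg.exp).fderiv, norm_smul, norm_neg, innerSL_apply_norm,
        norm_eq_abs, abs_of_pos (exp_pos _), pow_one]
      calc exp (-shiftR R l x w) * ‖shiftG g l x w‖
          ≤ exp (-shiftR R l x 0) * exp ((δ * ‖x‖ + r0) * ‖w‖) * exp (δ * ‖w‖ ^ 2)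
              * ((1 + δ + (δ * ‖x‖ + r0)) * (1 + ‖w‖)) := by
            refine mul_le_mul (hs'.exp_neg_le w) ((hs'.norm_le w).trans ?_) (norm_nonneg _)
              (by positivity)
            nlinarith [h.pos, h.r0_nonneg, norm_nonneg x, norm_nonneg w,
              mul_nonneg (mul_nonneg h.pos.le (norm_nonneg x)) (norm_nonneg w),
              mul_nonneg h.r0_nonneg (norm_nonneg w)]
        _ = _ := by ring) a
  calc ∫ w, exp (-R (l • x + sc l • w)) • ((sc l)⁻¹ * fderiv ℝ φ x w) ∂gau (Fin d)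
      = (sc l)⁻¹ * ∫ w, ⟪w, a⟫ * exp (-shiftR R l x w) ∂gau (Fin d) := by
        rw [← integral_const_mul]
        refine integral_congr_ae (ae_of_all _ fun w => ?_)
        simp only [smul_eq_mul, hdual, shiftR, real_inner_comm a w]
        ring
    _ = (sc l)⁻¹ * ∫ w, fderiv ℝ (fun w => exp (-shiftR R l x w)) w a ∂gau (Fin d) := by
        rw [hibp]
    _ = _ := by
        rw [← integral_neg, ← integral_const_mul]
        refine integral_congr_ae (ae_of_all _ fun w => ?_)
        beta_reduce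
        rw [show fderiv ℝ (fun w => exp (-shiftR R l x w)) w
            = exp (-shiftR R l x w) • -innerSL ℝ (shiftG g l x w) from
          ((hs'.hasGrad w).fun_neg.exp).fderiv]
        simp only [smul_apply, neg_apply, innerSL_apply_apply, shiftG, shiftR, smul_eq_mul, hdual,
          real_inner_smul_left, real_inner_comm a (g _)]
        field_simp

/-- The fundamental theorem of calculus along the interpolation. -/
lemma avgI_sub (h : Pot d δ r0 R g) {φ : E d → ℝ} {L : ℝ} (hφ : Test φ L) {a b : ℝ} (ha : 0 ≤ a)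
    (hab : a ≤ b) (hb : b ≤ 1) : avgI R φ b - avgI R φ a = -∫ l in a..b, avgD R g φ l := by
  have hsub : Icc a b ⊆ Icc (0 : ℝ) 1 := Icc_subset_Icc ha hb
  rw [← intervalIntegral.integral_neg]
  refine (intervalIntegral.integral_eq_sub_of_hasDerivAt_of_le hab
    ((h.avgI_continuousOn hφ).mono hsub)
    (fun l hl => h.hasDerivAt_avgI hφ ⟨ha.trans_lt hl.1, hl.2.trans_le hb⟩) ?_).symm
  refine ContinuousOn.intervalIntegrable ?_
  rw [uIcc_of_le hab]
  exact ((h.avgD_continuousOn hφ).mono hsub).neg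

end Pot

end Vale.Agent.P347
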