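import Vale.Agent.P347.FlowBasic

/-!
P347: differentiability and continuity of the velocity field.
-/

open MeasureTheory ProbabilityTheory WithLp Real Set
open scoped RealInnerProductSpace Topology

namespace Vale.Agent.P347

variable {d : ℕ} {δ r0 : ℝ} {R : E d → ℝ} {g : E d → E d}
variable {F : Type*} [NormedAddCommGroup F] [NormedSpace ℝ F]

/-- The Gaussian average of `f` along the interpolation at time `l` from `x`. -/
noncomputable def gI (f : E d → F) (l : ℝ) (x : E d) : F :=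
  ∫ w, f (l • x + sc l • w) ∂gau (Fin d)

/-- Growth allowed under the Gaussian integral. -/
def Grows (f : E d → F) (K : ℝ) (k : ℕ) (b a : ℝ) : Prop :=
  ∀ y, ‖f y‖ ≤ K * (1 + ‖y‖) ^ k * exp (b * ‖y‖) * exp (a * ‖y‖ ^ 2)

lemma norm_interp_le {l : ℝ} (hl : l ∈ Icc (0 : ℝ) 1) (x w : E d) :
    ‖l • x + sc l • w‖ ≤ ‖x‖ + ‖w‖ := by
  refine (norm_add_le _ _).trans (add_le_add ?_ ?_) <;> rw [norm_smul, norm_eq_abs]
  · rw [abs_of_nonneg hl.1]; exact mul_le_of_le_one_left (norm_nonneg _) hl.2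
  · rw [abs_of_nonneg (sc_nonneg l)]; exact mul_le_of_le_one_left (norm_nonneg _) (sc_le_one l)

/-- The dominating function for positions of norm at most `r`. -/
noncomputable def domin (K : ℝ) (k : ℕ) (b a r : ℝ) (w : E d) : ℝ :=
  |K| * (1 + r) ^ k * exp (|b| * r) * exp (2 * |a| * r ^ 2) *
    ((1 + ‖w‖) ^ k * exp (|b| * ‖w‖) * exp (2 * |a| * ‖w‖ ^ 2))

lemma integrable_domin {a : ℝ} (ha : |a| < 1 / 4) (K : ℝ) (k : ℕ) (b r : ℝ) :
    Integrable (domin (d := d) K k b a r) (gau (Fin d)) := by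
  refine Integrable.const_mul ?_ _
  refine integrable_gau_of_growth (by fun_prop) (a := 2 * |a|) (by linarith) 1 k |b| fun w => ?_
  rw [one_mul, norm_eq_abs, abs_of_nonneg (by positivity)]

lemma norm_le_domin {f : E d → F} {K : ℝ} {k : ℕ} {b a : ℝ} (hf : Grows f K k b a)
    {l : ℝ} (hl : l ∈ Icc (0 : ℝ) 1) {x : E d} {r : ℝ} (hx : ‖x‖ ≤ r) (w : E d) :
    ‖f (l • x + sc l • w)‖ ≤ domin K k b a r w := by
  have hr : 0 ≤ r := (norm_nonneg x).trans hx
  set y := l • x + sc l • w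
  have hy : ‖y‖ ≤ r + ‖w‖ := (norm_interp_le hl x w).trans (by linarith)
  have h1 : (1 + ‖y‖) ^ k ≤ (1 + r) ^ k * (1 + ‖w‖) ^ k := by
    rw [← mul_pow]
    exact pow_le_pow_left₀ (by positivity) (by nlinarith [norm_nonneg w]) k
  have h2 : exp (b * ‖y‖) ≤ exp (|b| * r) * exp (|b| * ‖w‖) := by
    rw [← Real.exp_add, Real.exp_le_exp, ← mul_add]
    exact (mul_le_mul_of_nonneg_right (le_abs_self b) (norm_nonneg _)).trans
      (mul_le_mul_of_nonneg_left hy (abs_nonneg b))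
  have h3 : exp (a * ‖y‖ ^ 2) ≤ exp (2 * |a| * r ^ 2) * exp (2 * |a| * ‖w‖ ^ 2) := by
    rw [← Real.exp_add, Real.exp_le_exp]
    have : ‖y‖ ^ 2 ≤ 2 * r ^ 2 + 2 * ‖w‖ ^ 2 := by
      nlinarith [norm_nonneg y, sq_nonneg (r - ‖w‖)]
    nlinarith [mul_le_mul_of_nonneg_right (le_abs_self a) (sq_nonneg ‖y‖), abs_nonneg a]
  calc ‖f y‖ ≤ |K| * (1 + ‖y‖) ^ k * exp (b * ‖y‖) * exp (a * ‖y‖ ^ 2) := by
        refine (hf y).trans ?_
        have h0 : 0 ≤ (1 + ‖y‖) ^ k := by positivity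
        exact mul_le_mul_of_nonneg_right (mul_le_mul_of_nonneg_right
          (mul_le_mul_of_nonneg_right (le_abs_self K) h0) (exp_pos _).le) (exp_pos _).le
    _ ≤ |K| * ((1 + r) ^ k * (1 + ‖w‖) ^ k) * (exp (|b| * r) * exp (|b| * ‖w‖)) *
          (exp (2 * |a| * r ^ 2) * exp (2 * |a| * ‖w‖ ^ 2)) := by gcongr
    _ = _ := by rw [domin]; ring

lemma continuousOn_gI [SecondCountableTopology F] {f : E d → F} (hc : Continuous f) {K : ℝ}
    {k : ℕ} {b a : ℝ} (hf : Grows f K k b a) (ha : |a| < 1 / 4) :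
    ContinuousOn (fun p : ℝ × E d => gI f p.1 p.2) (Icc 0 1 ×ˢ univ) := by
  intro p hp
  refine continuousWithinAt_of_dominated (bound := domin K k b a (‖p.2‖ + 1)) ?_ ?_
    (integrable_domin ha K k b _) ?_
  · exact Filter.Eventually.of_forall fun q => by
      refine (hc.comp ?_).aestronglyMeasurable
      fun_prop
  · have h1 : ∀ᶠ q in 𝓝[Icc 0 1 ×ˢ univ] p, ‖q.2‖ ≤ ‖p.2‖ + 1 := by
      refine nhdsWithin_le_nhds ?_
      have : Continuous fun q : ℝ × E d => ‖q.2‖ := by fun_prop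
      exact (this.tendsto p).eventually (eventually_le_nhds (by linarith))
    filter_upwards [h1, self_mem_nhdsWithin] with q hq hq'
    exact ae_of_all _ fun w => norm_le_domin hf hq'.1 hq w
  · refine ae_of_all _ fun w => ?_
    refine (hc.comp ?_).continuousWithinAt
    fun_prop

lemma hasFDerivAt_gI [CompleteSpace F] [SecondCountableTopology F] {f : E d → F}
    (hs : ContDiff ℝ 1 f) {K : ℝ} {k : ℕ} {b a : ℝ} (hf : Grows f K k b a)
    (hf' : Grows (fderiv ℝ f) K k b a) (ha : |a| < 1 / 4) {l : ℝ} (hl : l ∈ Icc (0 : ℝ) 1)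
    (x : E d) : HasFDerivAt (gI f l) (l • gI (fderiv ℝ f) l x) x := by
  rw [gI, ← integral_smul]
  refine hasFDerivAt_integral_of_dominated_of_fderiv_le
    (F' := fun x w => l • fderiv ℝ f (l • x + sc l • w))
    (bound := domin K k b a (‖x‖ + 1)) (s := Metric.ball x 1) (Metric.ball_mem_nhds x one_pos)
    ?_ ?_ ?_ ?_ (integrable_domin ha K k b _) ?_
  · exact Filter.Eventually.of_forall fun q =>
      (hs.continuous.comp (by fun_prop)).aestronglyMeasurable
  · exact (integrable_domin ha K k b ‖x‖).mono'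
      (hs.continuous.comp (by fun_prop)).aestronglyMeasurable
      (ae_of_all _ fun w => norm_le_domin hf hl le_rfl w)
  · refine Continuous.aestronglyMeasurable ?_
    exact (continuous_const : Continuous fun _ : E d => l).smul
      ((hs.continuous_fderiv one_ne_zero).comp (f := fun w : E d => l • x + sc l • w) (by fun_prop))
  · refine ae_of_all _ fun w y hy => ?_
    have hy' : ‖y‖ ≤ ‖x‖ + 1 := by
      have := norm_le_norm_add_norm_sub' y x
      rw [Metric.mem_ball, dist_eq_norm] at hy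
      linarith [norm_sub_rev x y]
    rw [norm_smul, norm_eq_abs, abs_of_nonneg hl.1]
    exact (mul_le_of_le_one_left (norm_nonneg _) hl.2).trans (norm_le_domin hf' hl hy' w)
  · refine ae_of_all _ fun w y _ => ?_
    have := ((hs.differentiable one_ne_zero (l • y + sc l • w)).hasFDerivAt).comp y
      (((hasFDerivAt_id y).const_smul l).add_const (sc l • w))
    refine this.congr_fderiv ?_
    ext v; simp

/-- The weighted gradient. -/
noncomputable def wgrad (R : E d → ℝ) (g : E d → E d) (y : E d) : E d := exp (-R y) • g y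

/-- The weight. -/
noncomputable def wexp (R : E d → ℝ) (y : E d) : ℝ := exp (-R y)

namespace Pot

lemma hasFDerivAt_wexp (h : Pot d δ r0 R g) (y : E d) :
    HasFDerivAt (wexp R) (exp (-R y) • -innerSL ℝ (g y)) y :=
  (h.hasGrad y).neg.exp

lemma hasFDerivAt_wgrad (h : Pot d δ r0 R g) (y : E d) :
    HasFDerivAt (wgrad R g)
      (exp (-R y) • fderiv ℝ g y + (exp (-R y) • -innerSL ℝ (g y)).smulRight (g y)) y :=
  (h.hasFDerivAt_wexp y).smul (h.smooth.differentiable one_ne_zero y).hasFDerivAt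

lemma smooth_wexp (h : Pot d δ r0 R g) : ContDiff ℝ 1 (wexp R) := h.smoothR.neg.exp

lemma smooth_wgrad (h : Pot d δ r0 R g) : ContDiff ℝ 1 (wgrad R g) := h.smooth_wexp.smul h.smooth

/-- A constant dominating the weights and their derivatives. -/
noncomputable def wK (δ r0 : ℝ) (R : E d → ℝ) : ℝ := exp (-R 0) * (1 + δ + r0) ^ 2

lemma grows_aux (h : Pot d δ r0 R g) (y : E d) {c : ℝ} (hc0 : 0 ≤ c)
    (hc : c ≤ (1 + δ + r0) ^ 2 * (1 + ‖y‖) ^ 2) :
    exp (-R y) * c ≤ wK δ r0 R * (1 + ‖y‖) ^ 2 * exp (r0 * ‖y‖) * exp (δ * ‖y‖ ^ 2) := by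
  calc exp (-R y) * c
      ≤ exp (-R 0) * exp (r0 * ‖y‖) * exp (δ * ‖y‖ ^ 2) * ((1 + δ + r0) ^ 2 * (1 + ‖y‖) ^ 2) :=
        mul_le_mul (h.exp_neg_le y) hc hc0 (by positivity)
    _ = _ := by rw [wK]; ring

lemma size_le (h : Pot d δ r0 R g) (y : E d) :
    ‖g y‖ ≤ (1 + δ + r0) * (1 + ‖y‖) ∧ (1 : ℝ) ≤ (1 + δ + r0) * (1 + ‖y‖) := by
  have := h.norm_le y
  have := h.pos
  have := h.r0_nonneg
  have := norm_nonneg y
  constructor <;> nlinarith [mul_nonneg h.pos.le (norm_nonneg y),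
    mul_nonneg h.r0_nonneg (norm_nonneg y)]

lemma grows_wexp (h : Pot d δ r0 R g) : Grows (wexp R) (wK δ r0 R) 2 r0 δ := fun y => by
  rw [wexp, norm_eq_abs, abs_of_pos (exp_pos _), ← mul_one (exp (-R y))]
  refine h.grows_aux y zero_le_one ?_
  rw [← mul_pow]
  exact one_le_pow₀ (h.size_le y).2

lemma grows_wexp' (h : Pot d δ r0 R g) :
    Grows (fderiv ℝ (wexp R)) (wK δ r0 R) 2 r0 δ := fun y => by
  rw [(h.hasFDerivAt_wexp y).fderiv, norm_smul, norm_neg, innerSL_apply_norm, norm_eq_abs,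
    abs_of_pos (exp_pos _)]
  refine h.grows_aux y (norm_nonneg _) ?_
  rw [← mul_pow]
  nlinarith [h.size_le y, norm_nonneg (g y)]

lemma grows_wgrad (h : Pot d δ r0 R g) : Grows (wgrad R g) (wK δ r0 R) 2 r0 δ := fun y => by
  rw [wgrad, norm_smul, norm_eq_abs, abs_of_pos (exp_pos _)]
  refine h.grows_aux y (norm_nonneg _) ?_
  rw [← mul_pow]
  nlinarith [h.size_le y, norm_nonneg (g y)]

lemma grows_wgrad' (h : Pot d δ r0 R g) :
    Grows (fderiv ℝ (wgrad R g)) (2 * wK δ r0 R) 2 r0 δ := fun y => by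
  rw [(h.hasFDerivAt_wgrad y).fderiv]
  refine (norm_add_le _ _).trans ?_
  rw [norm_smul, ContinuousLinearMap.norm_smulRight_apply, norm_smul, norm_neg,
    innerSL_apply_norm, norm_eq_abs, abs_of_pos (exp_pos _)]
  have h1 : exp (-R y) * ‖fderiv ℝ g y‖
      ≤ wK δ r0 R * (1 + ‖y‖) ^ 2 * exp (r0 * ‖y‖) * exp (δ * ‖y‖ ^ 2) := by
    refine h.grows_aux y (norm_nonneg _) ?_
    rw [← mul_pow]
    have := h.norm_fderiv_g y
    have := h.pos
    have := h.le_eighth
    nlinarith [h.size_le y]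
  have h2 : exp (-R y) * (‖g y‖ * ‖g y‖)
      ≤ wK δ r0 R * (1 + ‖y‖) ^ 2 * exp (r0 * ‖y‖) * exp (δ * ‖y‖ ^ 2) := by
    refine h.grows_aux y (by positivity) ?_
    rw [← mul_pow, sq]
    exact mul_le_mul (h.size_le y).1 (h.size_le y).1 (norm_nonneg _)
      (le_trans zero_le_one (h.size_le y).2)
  calc exp (-R y) * ‖fderiv ℝ g y‖ + exp (-R y) * ‖g y‖ * ‖g y‖
      ≤ 2 * (wK δ r0 R * (1 + ‖y‖) ^ 2 * exp (r0 * ‖y‖) * exp (δ * ‖y‖ ^ 2)) := by
        rw [mul_assoc (exp (-R y))]; linarith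
    _ = _ := by ring

lemma abs_delta_lt (h : Pot d δ r0 R g) : |δ| < 1 / 4 := by
  rw [abs_of_pos h.pos]; linarith [h.le_eighth]

lemma gI_wexp_pos (h : Pot d δ r0 R g) {l : ℝ} (hl : l ∈ Icc (0 : ℝ) 1) (x : E d) :
    0 < gI (wexp R) l x := (h.shift hl x).mass_pos

lemma vel_eq (h : Pot d δ r0 R g) {l : ℝ} (hl : l ∈ Icc (0 : ℝ) 1) (x : E d) :
    vel R g l x = (gI (wexp R) l x)⁻¹ • gI (wgrad R g) l x := by
  rw [vel, (h.shift hl x).integral_tilt]
  rfl

/-- The derivative of the velocity field. -/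
noncomputable def velD (R : E d → ℝ) (g : E d → E d) (l : ℝ) (x : E d) : E d →L[ℝ] E d :=
  (gI (wexp R) l x)⁻¹ • (l • gI (fderiv ℝ (wgrad R g)) l x)
    + ((-((gI (wexp R) l x) ^ 2)⁻¹) • (l • gI (fderiv ℝ (wexp R)) l x)).smulRight
        (gI (wgrad R g) l x)

lemma hasFDerivAt_vel (h : Pot d δ r0 R g) {l : ℝ} (hl : l ∈ Icc (0 : ℝ) 1) (x : E d) :
    HasFDerivAt (vel R g l) (velD R g l x) x := by
  rw [show vel R g l = fun x => (gI (wexp R) l x)⁻¹ • gI (wgrad R g) l x from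
    funext (h.vel_eq hl)]
  have hD := hasFDerivAt_gI h.smooth_wexp h.grows_wexp h.grows_wexp' h.abs_delta_lt hl x
  have hN : HasFDerivAt (gI (wgrad R g) l) (l • gI (fderiv ℝ (wgrad R g)) l x) x := by
    refine hasFDerivAt_gI h.smooth_wgrad (K := 2 * wK δ r0 R) (fun y => ?_) h.grows_wgrad'
      h.abs_delta_lt hl x
    refine (h.grows_wgrad y).trans ?_
    have : 0 ≤ wK δ r0 R := by unfold wK; positivity
    gcongr
    linarith
  exact ((hasDerivAt_inv (h.gI_wexp_pos hl x).ne').comp_hasFDerivAt x hD).smul hN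

lemma continuousOn_vel (h : Pot d δ r0 R g) :
    ContinuousOn (fun p : ℝ × E d => vel R g p.1 p.2) (Icc 0 1 ×ˢ univ) := by
  refine ContinuousOn.congr ?_ fun p hp => h.vel_eq hp.1 p.2
  exact ((continuousOn_gI h.smooth_wexp.continuous h.grows_wexp h.abs_delta_lt).inv₀
    fun p hp => (h.gI_wexp_pos hp.1 p.2).ne').smul
    (continuousOn_gI h.smooth_wgrad.continuous h.grows_wgrad h.abs_delta_lt)

lemma continuousOn_velD (h : Pot d δ r0 R g) :
    ContinuousOn (fun p : ℝ × E d => velD R g p.1 p.2) (Icc 0 1 ×ˢ univ) := by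
  have hD := continuousOn_gI h.smooth_wexp.continuous h.grows_wexp h.abs_delta_lt
  have hD' := continuousOn_gI (h.smooth_wexp.continuous_fderiv one_ne_zero) h.grows_wexp'
    h.abs_delta_lt
  have hN := continuousOn_gI h.smooth_wgrad.continuous h.grows_wgrad h.abs_delta_lt
  have hN' := continuousOn_gI (h.smooth_wgrad.continuous_fderiv one_ne_zero) h.grows_wgrad'
    h.abs_delta_lt
  have hl : ContinuousOn (fun p : ℝ × E d => p.1) (Icc 0 1 ×ˢ univ) := continuousOn_fst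
  refine ContinuousOn.add ?_ ?_
  · exact (hD.inv₀ fun p hp => (h.gI_wexp_pos hp.1 p.2).ne').smul (hl.smul hN')
  · refine ContinuousOn.clm_apply (g := fun p : ℝ × E d => gI (wgrad R g) p.1 p.2)
      (f := fun p : ℝ × E d => ContinuousLinearMap.smulRightL ℝ (E d) (E d)
        ((-((gI (wexp R) p.1 p.2) ^ 2)⁻¹) • (p.1 • gI (fderiv ℝ (wexp R)) p.1 p.2))) ?_ hN
    refine (ContinuousLinearMap.smulRightL ℝ (E d) (E d)).continuous.comp_continuousOn ?_
    exact (((hD.pow 2).inv₀ fun p hp => pow_ne_zero 2 (h.gI_wexp_pos hp.1 p.2).ne').neg).smul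
      (hl.smul hD')

/-- A bound on the derivative of the velocity field. -/
noncomputable def velLip (d : ℕ) (δ : ℝ) : ℝ := δ + 2 * δ ^ 2 * d + (1 + 2 * δ ^ 2 * d) ^ 2

lemma norm_velD_le (h : Pot d δ r0 R g) {l : ℝ} (hl : l ∈ Icc (0 : ℝ) 1) (x : E d) :
    ‖velD R g l x‖ ≤ velLip d δ := by
  have hp := h.pos
  refine ContinuousLinearMap.opNorm_le_bound _ (by unfold velLip; positivity) fun v => ?_
  have hs := h.shift hl x
  haveI := hs.isProb
  set μ := tilt (shiftR R l x) with hμ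
  set Y : E d → E d := fun w => l • x + sc l • w with hY
  set mean := ∫ w, w ∂μ with hmean
  set c := g (Y mean) with hc
  have hint : ∀ {G : Type} [NormedAddCommGroup G] [NormedSpace ℝ G] [CompleteSpace G]
      (f : E d → G), ∫ w, f (Y w) ∂μ
        = (gI (wexp R) l x)⁻¹ • gI (fun y => exp (-R y) • f y) l x := fun f =>
    hs.integral_tilt _
  have hi1 : Integrable (fun w => g (Y w) - c) μ :=
    hs.integrable_tilt (by have := h.contg; fun_prop) (δ * (1 + ‖mean‖)) 1 fun w => by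
      refine (h.lip _ _).trans ?_
      rw [show Y w - Y mean = sc l • (w - mean) by simp [hY, smul_sub], norm_smul, norm_eq_abs,
        abs_of_nonneg (sc_nonneg l), pow_one, mul_assoc]
      refine mul_le_mul_of_nonneg_left ?_ h.pos.le
      calc sc l * ‖w - mean‖ ≤ 1 * (‖w‖ + ‖mean‖) :=
            mul_le_mul (sc_le_one l) (norm_sub_le _ _) (norm_nonneg _) zero_le_one
        _ ≤ _ := by nlinarith [norm_nonneg w, norm_nonneg mean]
  have hsq : ∀ w, ‖g (Y w) - c‖ ^ 2 ≤ δ ^ 2 * ‖w - mean‖ ^ 2 := fun w => by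
    rw [← mul_pow]
    refine pow_le_pow_left₀ (norm_nonneg _) ?_ 2
    refine (h.lip _ _).trans (mul_le_mul_of_nonneg_left ?_ h.pos.le)
    rw [show Y w - Y mean = sc l • (w - mean) by simp [hY, smul_sub], norm_smul, norm_eq_abs,
      abs_of_nonneg (sc_nonneg l)]
    exact mul_le_of_le_one_left (norm_nonneg _) (sc_le_one l)
  have hi2 : Integrable (fun w => δ ^ 2 * ‖w - mean‖ ^ 2) μ :=
    (hs.integrable_tilt (by fun_prop) ((1 + ‖mean‖) ^ 2) 2 fun w => by
      rw [norm_pow, norm_norm, ← mul_pow]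
      refine pow_le_pow_left₀ (norm_nonneg _) ((norm_sub_le _ _).trans ?_) 2
      nlinarith [norm_nonneg w, norm_nonneg mean]).const_mul _
  have hV : ∫ w, ‖g (Y w) - c‖ ^ 2 ∂μ ≤ 2 * δ ^ 2 * d :=
    calc ∫ w, ‖g (Y w) - c‖ ^ 2 ∂μ ≤ ∫ w, δ ^ 2 * ‖w - mean‖ ^ 2 ∂μ :=
          integral_mono_of_nonneg (ae_of_all _ fun w => sq_nonneg _) hi2 (ae_of_all _ hsq)
      _ = δ ^ 2 * ∫ w, ‖w - mean‖ ^ 2 ∂μ := integral_const_mul _ _
      _ ≤ δ ^ 2 * (2 * d) := mul_le_mul_of_nonneg_left hs.integral_dist_mean_le (sq_nonneg δ)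
      _ = _ := by ring
  have hm : ‖vel R g l x - c‖ ≤ 1 + 2 * δ ^ 2 * d := by
    have : vel R g l x - c = ∫ w, (g (Y w) - c) ∂μ := by
      have hg : Integrable (fun w => g (Y w)) μ :=
        (hi1.add (integrable_const c)).congr (ae_of_all _ fun w => by simp)
      rw [integral_sub hg (integrable_const c)]
      simp [vel, hY, hμ]
    rw [this]
    calc ‖∫ w, (g (Y w) - c) ∂μ‖ ≤ ∫ w, (1 + δ ^ 2 * ‖w - mean‖ ^ 2) ∂μ := by
          refine norm_integral_le_of_norm_le ((integrable_const _).add hi2) (ae_of_all _ fun w => ?_)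
          nlinarith [hsq w, sq_nonneg (‖g (Y w) - c‖ - 1), norm_nonneg (g (Y w) - c)]
      _ ≤ 1 + 2 * δ ^ 2 * d := by
          rw [integral_add (integrable_const _) hi2, integral_const_mul]
          simp only [integral_const, probReal_univ, one_smul]
          nlinarith [hs.integral_dist_mean_le, sq_nonneg δ]
  -- the derivative as a covariance
  have hgY : Integrable (fun w => g (Y w)) μ := (hi1.add (integrable_const c)).congr (ae_of_all _ fun w => by simp)
  have hDg : Integrable (fun w => fderiv ℝ g (Y w) v) μ := by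
    refine hs.integrable_tilt (((h.smooth.continuous_fderiv one_ne_zero).comp (by fun_prop)).clm_apply
      continuous_const) (δ * ‖v‖) 0 fun w => ?_
    rw [pow_zero, mul_one]
    exact (ContinuousLinearMap.le_opNorm _ _).trans
      (mul_le_mul_of_nonneg_right (h.norm_fderiv_g _) (norm_nonneg _))
  have hcov : Integrable (fun w => ⟪g (Y w) - c, v⟫ • (g (Y w) - c)) μ := by
    refine (hi2.mul_const ‖v‖).mono' (by have := h.contg; fun_prop) (ae_of_all _ fun w => ?_)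
    rw [norm_smul, norm_eq_abs]
    calc |⟪g (Y w) - c, v⟫| * ‖g (Y w) - c‖ ≤ ‖g (Y w) - c‖ * ‖v‖ * ‖g (Y w) - c‖ :=
          mul_le_mul_of_nonneg_right (abs_real_inner_le_norm _ _) (norm_nonneg _)
      _ = ‖g (Y w) - c‖ ^ 2 * ‖v‖ := by ring
      _ ≤ _ := mul_le_mul_of_nonneg_right (hsq w) (norm_nonneg _)
  have hin : Integrable (fun w => ⟪g (Y w), v⟫) μ := Integrable.inner_const hgY v
  have hlin : Integrable (fun w => ⟪g (Y w), v⟫ • c + ⟪c, v⟫ • g (Y w) - ⟪c, v⟫ • c) μ :=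
    ((hin.smul_const c).add (Integrable.smul ⟪c, v⟫ hgY)).sub (integrable_const _)
  have hsplit : ∀ w, ⟪g (Y w), v⟫ • g (Y w) = ⟪g (Y w) - c, v⟫ • (g (Y w) - c)
      + (⟪g (Y w), v⟫ • c + ⟪c, v⟫ • g (Y w) - ⟪c, v⟫ • c) := fun w => by
    rw [inner_sub_left]; module
  have hq : Integrable (fun w => ⟪g (Y w), v⟫ • g (Y w)) μ := by
    simp only [hsplit]; exact hcov.add hlin
  set m := vel R g l x with hm'
  have hmint : ∫ w, g (Y w) ∂μ = m := rfl
  have e3 : ⟪m, v⟫ = ∫ w, ⟪g (Y w), v⟫ ∂μ := by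
    rw [← hmint, real_inner_comm, ← integral_inner hgY]
    exact integral_congr_ae (ae_of_all _ fun w => real_inner_comm _ _)
  have e1 : gI (fderiv ℝ (wgrad R g)) l x v
      = gI (fun y => exp (-R y) • (fderiv ℝ g y v - ⟪g y, v⟫ • g y)) l x := by
    rw [gI, gI, ContinuousLinearMap.integral_apply]
    · refine integral_congr_ae (ae_of_all _ fun w => ?_)
      simp only [(h.hasFDerivAt_wgrad _).fderiv, add_apply, smul_apply,
        ContinuousLinearMap.smulRight_apply, neg_apply, innerSL_apply_apply, smul_eq_mul]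
      module
    · exact (integrable_domin h.abs_delta_lt _ 2 r0 ‖x‖).mono'
        ((h.smooth_wgrad.continuous_fderiv one_ne_zero).comp (by fun_prop)).aestronglyMeasurable
        (ae_of_all _ fun w => norm_le_domin h.grows_wgrad' hl le_rfl w)
  have e2 : gI (fderiv ℝ (wexp R)) l x v = -gI (fun y => exp (-R y) • ⟪g y, v⟫) l x := by
    rw [gI, gI, ContinuousLinearMap.integral_apply, ← integral_neg]
    · refine integral_congr_ae (ae_of_all _ fun w => ?_)
      simp [(h.hasFDerivAt_wexp _).fderiv]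
    · exact (integrable_domin h.abs_delta_lt _ 2 r0 ‖x‖).mono'
        ((h.smooth_wexp.continuous_fderiv one_ne_zero).comp (by fun_prop)).aestronglyMeasurable
        (ae_of_all _ fun w => norm_le_domin h.grows_wexp' hl le_rfl w)
  have f1 : (gI (wexp R) l x)⁻¹ • gI (fderiv ℝ (wgrad R g)) l x v
      = (∫ w, fderiv ℝ g (Y w) v ∂μ) - ∫ w, ⟪g (Y w), v⟫ • g (Y w) ∂μ := by
    rw [e1, ← integral_sub hDg hq, hint (fun y => fderiv ℝ g y v - ⟪g y, v⟫ • g y)]
  have f2 : (gI (wexp R) l x)⁻¹ * gI (fderiv ℝ (wexp R)) l x v = -⟪m, v⟫ := by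
    rw [e2, e3, hint (fun y => ⟪g y, v⟫), smul_eq_mul, mul_neg]
  have f3 : (gI (wexp R) l x)⁻¹ • gI (wgrad R g) l x = m := (h.vel_eq hl x).symm
  have hform : velD R g l x v = l • ((∫ w, fderiv ℝ g (Y w) v ∂μ)
      - ((∫ w, ⟪g (Y w), v⟫ • g (Y w) ∂μ) - ⟪m, v⟫ • m)) := by
    rw [velD]
    simp only [add_apply, smul_apply, ContinuousLinearMap.smulRight_apply, smul_eq_mul]
    rw [show (gI (wexp R) l x)⁻¹ • l • gI (fderiv ℝ (wgrad R g)) l x v
        = l • ((gI (wexp R) l x)⁻¹ • gI (fderiv ℝ (wgrad R g)) l x v) from smul_comm _ _ _, f1,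
      show (-((gI (wexp R) l x) ^ 2)⁻¹ * (l * gI (fderiv ℝ (wexp R)) l x v)) • gI (wgrad R g) l x
        = l • ((-((gI (wexp R) l x)⁻¹ * gI (fderiv ℝ (wexp R)) l x v)) •
            ((gI (wexp R) l x)⁻¹ • gI (wgrad R g) l x)) by
          simp only [smul_smul]; congr 1; rw [← inv_pow]; ring, f2, f3, neg_neg]
    module
  have hsum : (∫ w, ⟪g (Y w), v⟫ • g (Y w) ∂μ) - ⟪m, v⟫ • m
      = (∫ w, ⟪g (Y w) - c, v⟫ • (g (Y w) - c) ∂μ) - ⟪m - c, v⟫ • (m - c) := by
    simp only [hsplit]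
    rw [integral_add hcov hlin]
    have : ∫ w, (⟪g (Y w), v⟫ • c + ⟪c, v⟫ • g (Y w) - ⟪c, v⟫ • c) ∂μ
        = ⟪m, v⟫ • c + ⟪c, v⟫ • m - ⟪c, v⟫ • c := by
      rw [integral_sub, integral_add, integral_smul_const, integral_smul, ← e3, hmint]
      · simp
      · exact hin.smul_const c
      · exact Integrable.smul ⟪c, v⟫ hgY
      · exact (hin.smul_const c).add (Integrable.smul ⟪c, v⟫ hgY)
      · exact integrable_const _
    rw [this, inner_sub_left]
    module
  have b1 : ‖∫ w, fderiv ℝ g (Y w) v ∂μ‖ ≤ δ * ‖v‖ := by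
    have := norm_integral_le_of_norm_le_const (μ := μ) (f := fun w => fderiv ℝ g (Y w) v)
      (C := δ * ‖v‖) (ae_of_all _ fun w => (ContinuousLinearMap.le_opNorm _ _).trans
        (mul_le_mul_of_nonneg_right (h.norm_fderiv_g _) (norm_nonneg _)))
    simpa using this
  have b2 : ‖∫ w, ⟪g (Y w) - c, v⟫ • (g (Y w) - c) ∂μ‖ ≤ 2 * δ ^ 2 * d * ‖v‖ := by
    calc ‖∫ w, ⟪g (Y w) - c, v⟫ • (g (Y w) - c) ∂μ‖
        ≤ ∫ w, δ ^ 2 * ‖w - mean‖ ^ 2 * ‖v‖ ∂μ := by
          refine norm_integral_le_of_norm_le (hi2.mul_const _) (ae_of_all _ fun w => ?_)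
          rw [norm_smul, norm_eq_abs]
          calc |⟪g (Y w) - c, v⟫| * ‖g (Y w) - c‖
              ≤ ‖g (Y w) - c‖ * ‖v‖ * ‖g (Y w) - c‖ :=
                mul_le_mul_of_nonneg_right (abs_real_inner_le_norm _ _) (norm_nonneg _)
            _ = ‖g (Y w) - c‖ ^ 2 * ‖v‖ := by ring
            _ ≤ _ := mul_le_mul_of_nonneg_right (hsq w) (norm_nonneg _)
      _ = δ ^ 2 * (∫ w, ‖w - mean‖ ^ 2 ∂μ) * ‖v‖ := by
          rw [integral_mul_const, integral_const_mul]
      _ ≤ δ ^ 2 * (2 * d) * ‖v‖ := by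
          gcongr; exact hs.integral_dist_mean_le
      _ = _ := by ring
  have b3 : ‖⟪m - c, v⟫ • (m - c)‖ ≤ (1 + 2 * δ ^ 2 * d) ^ 2 * ‖v‖ := by
    rw [norm_smul, norm_eq_abs]
    calc |⟪m - c, v⟫| * ‖m - c‖ ≤ ‖m - c‖ * ‖v‖ * ‖m - c‖ :=
          mul_le_mul_of_nonneg_right (abs_real_inner_le_norm _ _) (norm_nonneg _)
      _ ≤ (1 + 2 * δ ^ 2 * d) * ‖v‖ * (1 + 2 * δ ^ 2 * d) := by gcongr
      _ = _ := by ring
  rw [hform, hsum, norm_smul, norm_eq_abs, abs_of_nonneg hl.1]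
  refine (mul_le_of_le_one_left (norm_nonneg _) hl.2).trans ((norm_sub_le _ _).trans ?_)
  refine (add_le_add b1 ((norm_sub_le _ _).trans (add_le_add b2 b3))).trans (le_of_eq ?_)
  rw [velLip]; ring

end Pot

end Vale.Agent.P347
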