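import Vale.Agent.P347.FlowIdent
import Vale.Agent.P347.FlowEuler

/-!
P347: the Euler maps transport the Gaussian law to the tilted law in the limit.
-/

open MeasureTheory ProbabilityTheory WithLp Real Set Filter
open scoped RealInnerProductSpace Topology

namespace Vale.Agent.P347

variable {d : ℕ} {δ r0 : ℝ} {R : E d → ℝ} {g : E d → E d}

lemma abs_sc_sub_le {a b : ℝ} (ha : a ∈ Icc (0 : ℝ) 1) (hb : b ∈ Icc (0 : ℝ) 1) :
    |sc a - sc b| ≤ √(2 * |a - b|) := by
  rw [le_sqrt (abs_nonneg _) (by positivity), sq_abs]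
  have h : sc a ^ 2 - sc b ^ 2 = (b - a) * (b + a) := by
    linarith [sq_add_sc_sq ha, sq_add_sc_sq hb, mul_comm a b]
  have h1 : (sc a - sc b) ^ 2 ≤ |sc a ^ 2 - sc b ^ 2| := by
    rw [sq_sub_sq (sc a) (sc b), abs_mul, ← sq_abs (sc a - sc b), sq]
    refine mul_le_mul_of_nonneg_right ?_ (abs_nonneg _)
    rw [abs_of_nonneg (add_nonneg (sc_nonneg a) (sc_nonneg b)), abs_le]
    constructor <;> linarith [sc_nonneg a, sc_nonneg b]
  refine h1.trans ?_
  rw [h, abs_mul, abs_sub_comm, mul_comm]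
  exact mul_le_mul_of_nonneg_right
    (abs_le.2 ⟨by linarith [ha.1, hb.1], by linarith [ha.2, hb.2]⟩) (abs_nonneg _)

lemma norm_mixP_sub_le {a b : ℝ} (ha : a ∈ Icc (0 : ℝ) 1) (hb : b ∈ Icc (0 : ℝ) 1)
    (p : E d × E d) : ‖mixP a p - mixP b p‖ ≤ |a - b| * ‖p.1‖ + √(2 * |a - b|) * ‖p.2‖ := by
  have : mixP a p - mixP b p = (a - b) • p.1 + (sc a - sc b) • p.2 := by simp only [mixP]; module
  rw [this]
  refine (norm_add_le _ _).trans ?_
  rw [norm_smul, norm_smul, norm_eq_abs, norm_eq_abs]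
  exact add_le_add le_rfl (mul_le_mul_of_nonneg_right (abs_sc_sub_le ha hb) (norm_nonneg _))

namespace Pot

/-- A constant dominating the size of the drift relative to `1 + ‖x‖`. -/
noncomputable def sizeK (d : ℕ) (δ r0 : ℝ) : ℝ := δ + δ * √d + r0

lemma sizeK_nonneg (h : Pot d δ r0 R g) : 0 ≤ sizeK d δ r0 := by
  have := h.pos; have := h.r0_nonneg; unfold sizeK; positivity

lemma driftSize_le_sizeK (h : Pot d δ r0 R g) {x : E d} {S : ℝ} (hS : 1 ≤ S) (hx : ‖x‖ ≤ S) :
    driftSize δ r0 x ≤ sizeK d δ r0 * S := by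
  unfold driftSize sizeK
  have hp := h.pos
  have := mul_le_mul_of_nonneg_left hx hp.le
  have := le_mul_of_one_le_right (mul_nonneg hp.le (sqrt_nonneg (d : ℝ))) hS
  have := le_mul_of_one_le_right h.r0_nonneg hS
  nlinarith

lemma test_comp (h : Pot d δ r0 R g) (hd : 0 < d) {φ : E d → ℝ} {L : ℝ} (hφ : Test φ L)
    {N k j : ℕ} (hj : k + j ≤ N) :
    Test (fun x => φ (eul R g N k j x))
      (L * exp (velLip d δ) * (1 + 3 * sizeK d δ r0 + 1)) where
  smooth := by
    refine hφ.smooth.comp (contDiff_one_iff_fderiv.2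
      ⟨fun x => (h.hasFDerivAt_eul N k hj x).differentiableAt, ?_⟩)
    rw [funext fun x => (h.hasFDerivAt_eul N k hj x).fderiv]
    refine continuous_iff_continuousAt.2 fun x => ?_
    refine Metric.continuousAt_iff.2 fun ε hε => ?_
    obtain ⟨ζ, hζ, hmod⟩ := h.equicontinuous_eulD hd (‖x‖ + 1) (half_pos hε)
    refine ⟨min ζ 1, lt_min hζ one_pos, fun y hy => ?_⟩
    rw [dist_eq_norm] at hy
    have hy1 : ‖y‖ ≤ ‖x‖ + 1 := by
      linarith [norm_le_norm_add_norm_sub' y x, norm_sub_rev x y, min_le_right ζ 1]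
    rw [dist_eq_norm]
    exact (hmod N k j hj y x hy1 (by linarith) (hy.le.trans (min_le_left _ _))).trans_lt
      (half_lt_self hε)
  bound x := by
    have hcomp := ((hφ.smooth.differentiable one_ne_zero _).hasFDerivAt).comp x
      (h.hasFDerivAt_eul N k hj x)
    rw [show (fun x => φ (eul R g N k j x)) = φ ∘ eul R g N k j from rfl, hcomp.fderiv]
    refine (ContinuousLinearMap.opNorm_comp_le _ _).trans ?_
    have hK := driftSize_nonneg h x
    have h1 := h.norm_eul_sub_le hd N k hj x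
    have h2 : ‖eul R g N k j x‖ ≤ ‖x‖ + 3 * driftSize δ r0 x := by
      have := norm_le_norm_add_norm_sub' (eul R g N k j x) x
      have := mul_le_mul_of_nonneg_right (grid_mem (show j ≤ N by omega)).2 hK
      linarith [norm_sub_rev x (eul R g N k j x)]
    have h3 := h.driftSize_le_sizeK (x := x) (S := 1 + ‖x‖) (by linarith [norm_nonneg x])
      (by linarith)
    calc ‖fderiv ℝ φ (eul R g N k j x)‖ * ‖eulD R g N k j x‖
        ≤ (L * (1 + ‖eul R g N k j x‖)) * exp (velLip d δ) :=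
          mul_le_mul (hφ.bound _) (h.norm_eulD_le_exp hj x) (norm_nonneg _)
            (by have := hφ.nonneg; positivity)
      _ ≤ (L * ((1 + 3 * sizeK d δ r0 + 1) * (1 + ‖x‖))) * exp (velLip d δ) := by
          have := hφ.nonneg
          gcongr
          nlinarith [norm_nonneg x]
      _ = _ := by ring

/-- The derivatives of the composed test functions share a modulus of continuity on balls. -/
lemma modulus_comp (h : Pot d δ r0 R g) (hd : 0 < d) {φ : E d → ℝ} {L : ℝ} (hφ : Test φ L)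
    (r : ℝ) {ε : ℝ} (hε : 0 < ε) :
    ∃ ζ > 0, ∀ N k j : ℕ, k + j ≤ N → ∀ x y : E d, ‖x‖ ≤ r → ‖y‖ ≤ r → ‖x - y‖ ≤ ζ →
      ‖fderiv ℝ (fun z => φ (eul R g N k j z)) x - fderiv ℝ (fun z => φ (eul R g N k j z)) y‖
        ≤ ε := by
  have hL := hφ.nonneg
  have hK := h.sizeK_nonneg
  set r' := (1 + 3 * sizeK d δ r0) * (1 + |r|) with hr'
  set M := velLip d δ
  have hr0 : 0 ≤ r' := by rw [hr']; positivity
  have hcomp := isCompact_closedBall (0 : E d) r'
  have huc := hcomp.uniformContinuousOn_of_continuous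
    (hφ.smooth.continuous_fderiv one_ne_zero).continuousOn
  rw [Metric.uniformContinuousOn_iff_le] at huc
  obtain ⟨ζ1, hζ1, huc⟩ := huc (ε / 2 * exp (-M)) (by positivity)
  obtain ⟨ζ2, hζ2, hmod⟩ := h.equicontinuous_eulD hd r
    (ε := ε / 2 / (L * (1 + r') + 1)) (by positivity)
  refine ⟨min (ζ1 * exp (-M)) ζ2, lt_min (by positivity) hζ2, fun N k j hj x y hx hy hxy => ?_⟩
  have hd' : ∀ z, fderiv ℝ (fun z => φ (eul R g N k j z)) z
      = (fderiv ℝ φ (eul R g N k j z)).comp (eulD R g N k j z) := fun z =>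
    (((hφ.smooth.differentiable one_ne_zero _).hasFDerivAt).comp z
      (h.hasFDerivAt_eul N k hj z)).fderiv
  rw [hd', hd']
  have hball : ∀ z : E d, ‖z‖ ≤ r → eul R g N k j z ∈ Metric.closedBall (0 : E d) r' := by
    intro z hz
    rw [mem_closedBall_zero_iff]
    have hz' : ‖z‖ ≤ 1 + |r| := by linarith [le_abs_self r]
    have h3 := h.driftSize_le_sizeK (x := z) (S := 1 + |r|) (by linarith [abs_nonneg r]) hz'
    have h1 := h.norm_eul_sub_le hd N k hj z
    have := mul_le_mul_of_nonneg_right (grid_mem (show j ≤ N by omega)).2 (driftSize_nonneg h z)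
    have := norm_le_norm_add_norm_sub' (eul R g N k j z) z
    rw [hr']
    nlinarith [norm_sub_rev z (eul R g N k j z), h.sizeK_nonneg]
  set A := fderiv ℝ φ (eul R g N k j x)
  set A' := fderiv ℝ φ (eul R g N k j y)
  set B := eulD R g N k j x
  set B' := eulD R g N k j y
  have hA : ‖A - A'‖ ≤ ε / 2 * exp (-M) := by
    rw [← dist_eq_norm]
    refine huc _ (hball x hx) _ (hball y hy) ?_
    rw [dist_eq_norm]
    calc ‖eul R g N k j x - eul R g N k j y‖ ≤ exp M * ‖x - y‖ := h.lipschitz_eul hj x y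
      _ ≤ exp M * (ζ1 * exp (-M)) :=
          mul_le_mul_of_nonneg_left (hxy.trans (min_le_left _ _)) (exp_pos _).le
      _ = ζ1 := by rw [mul_comm ζ1, ← mul_assoc, ← Real.exp_add]; simp
  have hA' : ‖A'‖ ≤ L * (1 + r') + 1 := by
    refine (hφ.bound _).trans ?_
    have := mem_closedBall_zero_iff.1 (hball y hy)
    nlinarith
  calc ‖A.comp B - A'.comp B'‖ = ‖(A - A').comp B + A'.comp (B - B')‖ := by
        congr 1; simp [ContinuousLinearMap.comp_sub, ContinuousLinearMap.sub_comp]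
    _ ≤ ‖A - A'‖ * ‖B‖ + ‖A'‖ * ‖B - B'‖ := (norm_add_le _ _).trans
        (add_le_add (ContinuousLinearMap.opNorm_comp_le _ _)
          (ContinuousLinearMap.opNorm_comp_le _ _))
    _ ≤ ε / 2 * exp (-M) * exp M + (L * (1 + r') + 1) * (ε / 2 / (L * (1 + r') + 1)) := by
        gcongr
        · exact h.norm_eulD_le_exp hj x
        · exact hmod N k j hj x y hx hy (hxy.trans (min_le_right _ _))
    _ = ε := by
        rw [mul_assoc, ← Real.exp_add, neg_add_cancel, Real.exp_zero]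
        field_simp
        ring

/-- The error of one Euler step on the test function `ψ`, given a modulus `ω` for its derivative. -/
lemma step_error (h : Pot d δ r0 R g) (hd : 0 < d) {ψ : E d → ℝ} {L : ℝ} (hψ : Test ψ L)
    {l η : ℝ} (hl : l ∈ Icc (0 : ℝ) 1) (hη : 0 ≤ η) (hl' : l + η ≤ 1) {ω : E d × E d → ℝ}
    (hω : ∀ p, ∀ t ∈ Icc l (l + η),
      ‖fderiv ℝ ψ (mixP t p) - fderiv ℝ ψ (mixP l p)‖ ≤ ω p)
    (hω' : ∀ p, ∀ b ∈ segment ℝ (mixP l p) (mixP l p - η • vel R g l (mixP l p)),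
      ‖fderiv ℝ ψ b - fderiv ℝ ψ (mixP l p)‖ ≤ ω p)
    (hωi : Integrable (fun p : E d × E d =>
      exp (-R p.1) * (ω p * (1 + ‖p.1‖ + ‖p.2‖))) (gau2 d)) :
    |avgI R ψ (l + η) - avgI R (fun x => ψ (x - η • vel R g l x)) l|
      ≤ η * (3 * sizeK d δ r0) * ∫ p, exp (-R p.1) * (ω p * (1 + ‖p.1‖ + ‖p.2‖)) ∂gau2 d := by
  have hL := hψ.nonneg
  have hK := h.sizeK_nonneg
  set S : E d × E d → ℝ := fun p => 1 + ‖p.1‖ + ‖p.2‖
  set K := sizeK d δ r0
  set Iω := ∫ p, exp (-R p.1) * (ω p * S p) ∂gau2 d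
  have hS : ∀ p, 1 ≤ S p := fun p => by simp only [S]; linarith [norm_nonneg p.1, norm_nonneg p.2]
  have hgp : ∀ p : E d × E d, ‖g p.1‖ ≤ K * S p := fun p => by
    refine (h.norm_le _).trans (le_trans ?_ (h.driftSize_le_sizeK (x := p.1) (hS p)
      (by simp only [S]; linarith [norm_nonneg p.2])))
    unfold driftSize
    nlinarith [h.pos, sqrt_nonneg (d : ℝ)]
  have hv : ∀ p : E d × E d, ‖vel R g l (mixP l p)‖ ≤ 2 * K * S p := fun p => by
    refine (Vale.Agent.P347.norm_vel_le h hd hl _).trans ?_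
    have := h.driftSize_le_sizeK (x := mixP l p) (hS p)
      (by simp only [S]; linarith [norm_mixP_le hl p])
    linarith
  have hω0 : ∀ p, 0 ≤ ω p := fun p =>
    (norm_nonneg _).trans (hω p l (left_mem_Icc.2 (by linarith)))
  have hcv : Continuous (vel R g l) :=
    continuous_iff_continuousAt.2 fun x => (h.hasFDerivAt_vel hl x).continuousAt
  have hcd : Continuous (fderiv ℝ ψ) := hψ.smooth.continuous_fderiv one_ne_zero
  have hcψ : Continuous ψ := hψ.smooth.continuous
  have hmix : ∀ u, Continuous (mixP (d := d) u) := fun u => by unfold mixP; fun_prop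
  have hint : ∀ u ∈ Icc (0 : ℝ) 1, Integrable
      (fun p : E d × E d => exp (-R p.1) • fderiv ℝ ψ (mixP u p) (g p.1)) (gau2 d) := by
    intro u hu
    refine h.integrable_weighted (f := fun p : E d × E d => fderiv ℝ ψ (mixP u p) (g p.1))
      ((hcd.comp (hmix u)).clm_apply (h.contg.comp continuous_fst)) continuous_fst norm_fst_le
      (L * K) 2 fun p => (ContinuousLinearMap.le_opNorm _ _).trans ?_
    calc ‖fderiv ℝ ψ (mixP u p)‖ * ‖g p.1‖ ≤ (L * S p) * (K * S p) := by
          refine mul_le_mul ((hψ.bound _).trans (mul_le_mul_of_nonneg_left ?_ hL)) (hgp p)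
            (norm_nonneg _) (mul_nonneg hL (zero_le_one.trans (hS p)))
          simp only [S]; linarith [norm_mixP_le hu p]
      _ = _ := by simp only [S]; ring
  have hA : ∀ t ∈ Icc l (l + η), |avgD R g ψ t - avgD R g ψ l| ≤ K * Iω := by
    intro t ht
    rw [avgD, avgD, ← integral_sub (hint t ⟨hl.1.trans ht.1, ht.2.trans hl'⟩) (hint l hl),
      ← integral_const_mul, ← norm_eq_abs]
    refine norm_integral_le_of_norm_le (hωi.const_mul _) (ae_of_all _ fun p => ?_)
    rw [← smul_sub, ← sub_apply, norm_smul, norm_eq_abs (exp _), abs_of_pos (exp_pos _)]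
    calc exp (-R p.1) * ‖(fderiv ℝ ψ (mixP t p) - fderiv ℝ ψ (mixP l p)) (g p.1)‖
        ≤ exp (-R p.1) * (ω p * (K * S p)) :=
          mul_le_mul_of_nonneg_left ((ContinuousLinearMap.le_opNorm _ _).trans
            (mul_le_mul (hω p t ht) (hgp p) (norm_nonneg _) (hω0 p))) (exp_pos _).le
      _ = _ := by ring
  have hFTC := h.avgI_sub hψ hl.1 (by linarith : l ≤ l + η) hl'
  have hiD : IntervalIntegrable (avgD R g ψ) volume l (l + η) := by
    refine ContinuousOn.intervalIntegrable ?_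
    rw [uIcc_of_le (by linarith : l ≤ l + η)]
    exact (h.avgD_continuousOn hψ).mono (Icc_subset_Icc hl.1 hl')
  have h1 : |(avgI R ψ (l + η) - avgI R ψ l) + η * avgD R g ψ l| ≤ η * (K * Iω) := by
    have e : (avgI R ψ (l + η) - avgI R ψ l) + η * avgD R g ψ l
        = -∫ t in l..l + η, (avgD R g ψ t - avgD R g ψ l) := by
      rw [hFTC, intervalIntegral.integral_sub hiD intervalIntegrable_const,
        intervalIntegral.integral_const, smul_eq_mul, add_sub_cancel_left]
      ring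
    rw [e, abs_neg, ← norm_eq_abs]
    refine (intervalIntegral.norm_integral_le_of_norm_le_const (C := K * Iω) fun t ht => ?_).trans
      (le_of_eq ?_)
    · rw [uIoc_of_le (by linarith : l ≤ l + η)] at ht
      rw [norm_eq_abs]; exact hA t (Ioc_subset_Icc_self ht)
    · rw [add_sub_cancel_left, abs_of_nonneg hη]; ring
  -- the step on the other side
  have htower : avgD R g ψ l
      = ∫ p, exp (-R p.1) • fderiv ℝ ψ (mixP l p) (vel R g l (mixP l p)) ∂gau2 d :=
    h.tower hd hl hcd L 1 (by simpa using hψ.bound)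
  have hiv : Integrable (fun p : E d × E d =>
      exp (-R p.1) • fderiv ℝ ψ (mixP l p) (vel R g l (mixP l p))) (gau2 d) := by
    refine h.integrable_weighted (f := fun p : E d × E d =>
        fderiv ℝ ψ (mixP l p) (vel R g l (mixP l p)))
      ((hcd.comp (hmix l)).clm_apply (hcv.comp (hmix l))) continuous_fst norm_fst_le
      (L * (2 * K)) 2 fun p => (ContinuousLinearMap.le_opNorm _ _).trans ?_
    calc ‖fderiv ℝ ψ (mixP l p)‖ * ‖vel R g l (mixP l p)‖ ≤ (L * S p) * (2 * K * S p) := by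
          refine mul_le_mul ((hψ.bound _).trans (mul_le_mul_of_nonneg_left ?_ hL)) (hv p)
            (norm_nonneg _) (mul_nonneg hL (zero_le_one.trans (hS p)))
          simp only [S]; linarith [norm_mixP_le hl p]
      _ = _ := by simp only [S]; ring
  have hi0 : Integrable (fun p : E d × E d => exp (-R p.1) * ψ (mixP l p)) (gau2 d) := by
    refine (h.integrable_weighted (f := fun p : E d × E d => ψ (mixP l p))
      (hcψ.comp (hmix l)) continuous_fst norm_fst_le (|ψ 0| + L) 2 fun p =>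
        (hψ.growth _).trans ?_).congr (ae_of_all _ fun p => by simp)
    exact mul_le_mul_of_nonneg_left (pow_le_pow_left₀ (by positivity)
      (by linarith [norm_mixP_le hl p]) 2) (by positivity)
  have hi1 : Integrable (fun p : E d × E d =>
      exp (-R p.1) * ψ (mixP l p - η • vel R g l (mixP l p))) (gau2 d) := by
    refine (h.integrable_weighted (f := fun p : E d × E d =>
        ψ (mixP l p - η • vel R g l (mixP l p)))
      (hcψ.comp ((hmix l).sub ((hcv.comp (hmix l)).const_smul η))) continuous_fst norm_fst_le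
      ((|ψ 0| + L) * (1 + 2 * K) ^ 2) 2 fun p =>
        (hψ.growth _).trans ?_).congr (ae_of_all _ fun p => by simp)
    rw [mul_assoc, ← mul_pow]
    refine mul_le_mul_of_nonneg_left (pow_le_pow_left₀ (by positivity) ?_ 2) (by positivity)
    have h1 : ‖η • vel R g l (mixP l p)‖ ≤ 2 * K * S p := by
      rw [norm_smul, norm_eq_abs, abs_of_nonneg hη]
      exact (mul_le_of_le_one_left (norm_nonneg _) (by linarith [hl.1])).trans (hv p)
    have h2 := norm_sub_le (mixP l p) (η • vel R g l (mixP l p))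
    have := norm_mixP_le hl p
    simp only [S] at h1 ⊢
    nlinarith
  have h2 : |avgI R ψ l - avgI R (fun x => ψ (x - η • vel R g l x)) l - η * avgD R g ψ l|
      ≤ η * (2 * K * Iω) := by
    rw [htower, avgI, avgI, ← integral_const_mul, ← integral_sub hi0 hi1,
      ← integral_sub (f := fun p : E d × E d =>
        exp (-R p.1) * ψ (mixP l p) - exp (-R p.1) * ψ (mixP l p - η • vel R g l (mixP l p)))
        (hi0.sub hi1) (hiv.const_mul η), ← norm_eq_abs]
    refine le_of_le_of_eq (norm_integral_le_of_norm_le (hωi.const_mul (η * (2 * K)))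
      (ae_of_all _ fun p => ?_)) (by rw [integral_const_mul]; ring)
    set q := mixP l p
    set v := vel R g l q
    have hb : ‖ψ (q - η • v) - ψ q - fderiv ℝ ψ q ((q - η • v) - q)‖
        ≤ ω p * ‖(q - η • v) - q‖ :=
      (convex_segment q (q - η • v)).norm_image_sub_le_of_norm_fderiv_le' (𝕜 := ℝ)
        (fun y _ => hψ.smooth.differentiable one_ne_zero y) (fun y hy => hω' p y hy)
        (left_mem_segment ℝ _ _) (right_mem_segment ℝ _ _)
    rw [sub_sub_cancel_left, map_neg, map_smul, sub_neg_eq_add, norm_neg, norm_smul,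
      norm_eq_abs η, abs_of_nonneg hη, smul_eq_mul] at hb
    rw [norm_eq_abs, smul_eq_mul, show exp (-R p.1) * ψ q - exp (-R p.1) * ψ (q - η • v)
        - η * (exp (-R p.1) * fderiv ℝ ψ q v)
        = -(exp (-R p.1) * (ψ (q - η • v) - ψ q + η * fderiv ℝ ψ q v)) by ring, abs_neg, abs_mul,
      abs_of_pos (exp_pos _)]
    calc exp (-R p.1) * |ψ (q - η • v) - ψ q + η * fderiv ℝ ψ q v|
        ≤ exp (-R p.1) * (ω p * (η * (2 * K * S p))) :=
          mul_le_mul_of_nonneg_left (hb.trans (mul_le_mul_of_nonneg_left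
            (mul_le_mul_of_nonneg_left (hv p) hη) (hω0 p))) (exp_pos _).le
      _ = _ := by simp only [S]; ring
  calc |avgI R ψ (l + η) - avgI R (fun x => ψ (x - η • vel R g l x)) l|
      = |((avgI R ψ (l + η) - avgI R ψ l) + η * avgD R g ψ l)
          + (avgI R ψ l - avgI R (fun x => ψ (x - η • vel R g l x)) l - η * avgD R g ψ l)| := by
        congr 1; ring
    _ ≤ η * (K * Iω) + η * (2 * K * Iω) := (abs_add_le _ _).trans (add_le_add h1 h2)
    _ = _ := by ring

/-- The modulus used for one step. -/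
noncomputable def modFn (d : ℕ) (δ r0 L ε : ℝ) (n : ℕ) (p : E d × E d) : ℝ :=
  ε + {p : E d × E d | (n : ℝ) < ‖p.1‖ + ‖p.2‖}.indicator
    (fun p => L * (4 * (1 + sizeK d δ r0)) * (1 + ‖p.1‖ + ‖p.2‖)) p

/-- The radius on which the modulus is used. -/
noncomputable def modR (d : ℕ) (δ r0 : ℝ) (n : ℕ) : ℝ := (1 + 2 * sizeK d δ r0) * (1 + (n : ℝ))

/-- The displacement of one step on the good event. -/
noncomputable def modT (d : ℕ) (δ r0 : ℝ) (n N : ℕ) : ℝ :=
  √(2 * (1 / (N : ℝ))) * (n : ℝ) + 1 / (N : ℝ) * (n + 2 * sizeK d δ r0 * (1 + n))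

lemma modulus_mix (h : Pot d δ r0 R g) {ψ : E d → ℝ} {L' : ℝ} (hψ : Test ψ L') {l : ℝ} {N : ℕ}
    (hl : l ∈ Icc (0 : ℝ) 1) (hl' : l + 1 / (N : ℝ) ≤ 1) {ε ζ : ℝ} (_hε : 0 ≤ ε) {n : ℕ}
    (hτ : modT d δ r0 n N ≤ ζ)
    (hmod : ∀ x y : E d, ‖x‖ ≤ modR d δ r0 n → ‖y‖ ≤ modR d δ r0 n → ‖x - y‖ ≤ ζ →
      ‖fderiv ℝ ψ x - fderiv ℝ ψ y‖ ≤ ε)
    (p : E d × E d) (t : ℝ) (ht : t ∈ Icc l (l + 1 / (N : ℝ))) :
    ‖fderiv ℝ ψ (mixP t p) - fderiv ℝ ψ (mixP l p)‖ ≤ modFn d δ r0 L' ε n p := by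
  have hK := h.sizeK_nonneg
  have hL' := hψ.nonneg
  have htI : t ∈ Icc (0 : ℝ) 1 := ⟨hl.1.trans ht.1, ht.2.trans hl'⟩
  have b3 := norm_mixP_le htI p
  have b4 := norm_mixP_le hl p
  simp only [modFn, indicator_apply, mem_setOf_eq]
  split_ifs with hp
  · refine (norm_sub_le _ _).trans ?_
    have b1 := hψ.bound (mixP t p)
    have b2 := hψ.bound (mixP l p)
    nlinarith [norm_nonneg p.1, norm_nonneg p.2, mul_nonneg hL' hK,
      mul_nonneg (mul_nonneg hL' hK) (add_nonneg (norm_nonneg p.1) (norm_nonneg p.2)),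
      mul_le_mul_of_nonneg_left b3 hL', mul_le_mul_of_nonneg_left b4 hL']
  · rw [add_zero]
    push Not at hp
    refine hmod _ _ ?_ ?_ (((norm_mixP_sub_le htI hl p).trans ?_).trans hτ)
    · simp only [modR]; nlinarith [norm_nonneg p.1, norm_nonneg p.2]
    · simp only [modR]; nlinarith [norm_nonneg p.1, norm_nonneg p.2]
    · have hn0 : 0 ≤ 1 / (N : ℝ) := by positivity
      have hΔ : |t - l| ≤ 1 / N := abs_le.2 ⟨by linarith [ht.1], by linarith [ht.2]⟩
      have e3 : 0 ≤ 2 * sizeK d δ r0 * (1 + (n : ℝ)) := by positivity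
      have := mul_le_mul hΔ (by linarith [norm_nonneg p.2] : ‖p.1‖ ≤ (n : ℝ)) (norm_nonneg _) hn0
      have := mul_le_mul (sqrt_le_sqrt (by linarith : 2 * |t - l| ≤ 2 * (1 / (N : ℝ))))
        (by linarith [norm_nonneg p.1] : ‖p.2‖ ≤ (n : ℝ)) (norm_nonneg _) (sqrt_nonneg _)
      have := mul_nonneg hn0 e3
      simp only [modT, mul_add]
      linarith

lemma modulus_seg (h : Pot d δ r0 R g) (hd : 0 < d) {ψ : E d → ℝ} {L' : ℝ} (hψ : Test ψ L')
    {l : ℝ} {N : ℕ} (hl : l ∈ Icc (0 : ℝ) 1) (hN : 1 ≤ N) {ε ζ : ℝ} (_hε : 0 ≤ ε) {n : ℕ}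
    (hτ : modT d δ r0 n N ≤ ζ)
    (hmod : ∀ x y : E d, ‖x‖ ≤ modR d δ r0 n → ‖y‖ ≤ modR d δ r0 n → ‖x - y‖ ≤ ζ →
      ‖fderiv ℝ ψ x - fderiv ℝ ψ y‖ ≤ ε)
    (p : E d × E d) (b : E d)
    (hb : b ∈ segment ℝ (mixP l p) (mixP l p - (1 / (N : ℝ)) • vel R g l (mixP l p))) :
    ‖fderiv ℝ ψ b - fderiv ℝ ψ (mixP l p)‖ ≤ modFn d δ r0 L' ε n p := by
  have hK := h.sizeK_nonneg
  have hL' := hψ.nonneg
  have hNpos : (0 : ℝ) < N := by exact_mod_cast hN
  set q := mixP l p
  set v := vel R g l q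
  have hq := norm_mixP_le hl p
  have hv : ‖v‖ ≤ 2 * (sizeK d δ r0 * (1 + ‖p.1‖ + ‖p.2‖)) :=
    (Vale.Agent.P347.norm_vel_le h hd hl _).trans (mul_le_mul_of_nonneg_left
      (h.driftSize_le_sizeK (by linarith [norm_nonneg p.1, norm_nonneg p.2]) (by linarith))
      zero_le_two)
  have hbq : ‖b - q‖ ≤ 1 / N * ‖v‖ := by
    obtain ⟨a, c, ha, hc, hac, rfl⟩ := hb
    rw [show a • q + c • (q - (1 / (N : ℝ)) • v) - q
        = (a + c - 1) • q - (c / (N : ℝ)) • v by module, hac, sub_self, zero_smul, zero_sub,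
      norm_neg, norm_smul, norm_eq_abs, abs_of_nonneg (by positivity)]
    refine mul_le_mul_of_nonneg_right ?_ (norm_nonneg _)
    gcongr
    linarith
  have hN' : 1 / (N : ℝ) ≤ 1 := by rw [div_le_one hNpos]; exact_mod_cast hN
  have hb' : ‖b‖ ≤ ‖q‖ + ‖v‖ := by
    have := norm_le_norm_add_norm_sub' b q
    linarith [norm_sub_rev q b, mul_le_of_le_one_left (norm_nonneg v) hN']
  simp only [modFn, indicator_apply, mem_setOf_eq]
  split_ifs with hp
  · refine (norm_sub_le _ _).trans ?_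
    have b1 := hψ.bound b
    have b2 := hψ.bound q
    nlinarith [norm_nonneg p.1, norm_nonneg p.2, mul_nonneg hL' hK,
      mul_nonneg (mul_nonneg hL' hK) (add_nonneg (norm_nonneg p.1) (norm_nonneg p.2)),
      mul_le_mul_of_nonneg_left hb' hL', mul_le_mul_of_nonneg_left hq hL',
      mul_le_mul_of_nonneg_left hv hL']
  · rw [add_zero]
    push Not at hp
    have hvn : ‖v‖ ≤ 2 * sizeK d δ r0 * (1 + n) := by
      nlinarith [norm_nonneg p.1, norm_nonneg p.2]
    refine hmod _ _ ?_ ?_ ((hbq.trans ?_).trans hτ)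
    · simp only [modR]; nlinarith [Nat.cast_nonneg (α := ℝ) n]
    · simp only [modR]; nlinarith [Nat.cast_nonneg (α := ℝ) n]
    · have := mul_nonneg (sqrt_nonneg (2 * (1 / (N : ℝ)))) (Nat.cast_nonneg (α := ℝ) n)
      have := mul_le_mul_of_nonneg_left hvn (one_div_pos.2 hNpos).le
      have := mul_nonneg (one_div_pos.2 hNpos).le (Nat.cast_nonneg (α := ℝ) n)
      simp only [modT, mul_add] at *
      linarith

/-- The Euler maps transport the Gaussian law to the tilted law in the limit. -/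
theorem tendsto_eul (h : Pot d δ r0 R g) (hd : 0 < d) {φ : E d → ℝ} {L : ℝ} (hφ : Test φ L) :
    Tendsto (fun N => ∫ x, φ (eul R g N 0 N x) ∂gau (Fin d)) atTop (𝓝 (∫ x, φ x ∂tilt R)) := by
  have hK := h.sizeK_nonneg
  set L' := L * exp (velLip d δ) * (1 + 3 * sizeK d δ r0 + 1)
  have hL' : 0 ≤ L' := by
    have := hφ.nonneg; positivity
  set Z := ∫ x, exp (-R x) ∂gau (Fin d)
  have hZ : 0 < Z := h.mass_pos
  set C1 := L' * (4 * (1 + sizeK d δ r0))
  set bad : ℕ → E d × E d → ℝ := fun n p =>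
    {p : E d × E d | (n : ℝ) < ‖p.1‖ + ‖p.2‖}.indicator
      (fun p => exp (-R p.1) * (1 + ‖p.1‖ + ‖p.2‖) ^ 2) p
  have hmass : Integrable (fun p : E d × E d => exp (-R p.1) * (1 + ‖p.1‖ + ‖p.2‖)) (gau2 d) :=
    (h.integrable_weighted (f := fun p : E d × E d => 1 + ‖p.1‖ + ‖p.2‖) (by fun_prop)
      continuous_fst norm_fst_le 1 1 fun p => by
        rw [norm_eq_abs, abs_of_nonneg (by positivity), pow_one, one_mul]).congr
      (ae_of_all _ fun p => by simp)
  have hsq : Integrable (fun p : E d × E d => exp (-R p.1) * (1 + ‖p.1‖ + ‖p.2‖) ^ 2) (gau2 d) :=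
    (h.integrable_weighted (f := fun p : E d × E d => (1 + ‖p.1‖ + ‖p.2‖) ^ 2) (by fun_prop)
      continuous_fst norm_fst_le 1 2 fun p => by
        rw [norm_eq_abs, abs_of_nonneg (by positivity), one_mul]).congr
      (ae_of_all _ fun p => by simp)
  have hmeas : ∀ n : ℕ, MeasurableSet {p : E d × E d | (n : ℝ) < ‖p.1‖ + ‖p.2‖} := fun n =>
    measurableSet_lt measurable_const (by fun_prop)
  have hbi : ∀ n, Integrable (bad n) (gau2 d) := fun n => hsq.indicator (hmeas n)
  have hbad : Tendsto (fun n => ∫ p, bad n p ∂gau2 d) atTop (𝓝 0) := by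
    have := tendsto_integral_of_dominated_convergence
      (fun p : E d × E d => exp (-R p.1) * (1 + ‖p.1‖ + ‖p.2‖) ^ 2) (F := bad) (f := fun _ => 0)
      (μ := gau2 d) (fun n => (hbi n).aestronglyMeasurable) hsq (fun n => ae_of_all _ fun p => by
        simp only [bad]
        rw [norm_indicator_eq_indicator_norm]
        refine indicator_le_self' (fun _ _ => norm_nonneg _) p |>.trans ?_
        rw [norm_eq_abs, abs_of_nonneg (by positivity)])
      (ae_of_all _ fun p => by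
        refine tendsto_const_nhds.congr' ?_
        filter_upwards [eventually_ge_atTop ⌈‖p.1‖ + ‖p.2‖⌉₊] with n hn
        simp only [bad]
        rw [indicator_of_notMem]
        simp only [mem_setOf_eq, not_lt]
        exact (Nat.le_ceil _).trans (by exact_mod_cast hn))
    simpa using this
  set I1 := ∫ p, exp (-R p.1) * (1 + ‖p.1‖ + ‖p.2‖) ∂gau2 d
  have hI1 : 0 ≤ I1 := integral_nonneg fun p => by positivity
  rw [Metric.tendsto_atTop]
  intro ε hε
  set ε1 := ε * Z / (6 * (sizeK d δ r0 + 1) * (I1 + 1))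
  have hε1 : 0 < ε1 := by positivity
  obtain ⟨n, hn⟩ := (Metric.tendsto_atTop.1 hbad) (ε * Z / (6 * (sizeK d δ r0 + 1) * (C1 + 1)))
    (by positivity)
  have hn := hn n le_rfl
  rw [dist_zero_right, norm_eq_abs] at hn
  set r := (1 + 2 * sizeK d δ r0) * (1 + (n : ℝ))
  obtain ⟨ζ, hζ, hmod⟩ := h.modulus_comp hd hφ r hε1
  set τ : ℕ → ℝ := fun N => √(2 * (1 / (N : ℝ))) * (n : ℝ)
    + 1 / (N : ℝ) * (n + 2 * sizeK d δ r0 * (1 + n))
  have hτ : Tendsto τ atTop (𝓝 0) := by
    have h0 : Tendsto (fun N : ℕ => 1 / (N : ℝ)) atTop (𝓝 0) := tendsto_one_div_atTop_nhds_zero_nat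
    have := ((h0.const_mul 2).sqrt.mul_const (n : ℝ)).add
      (h0.mul_const ((n : ℝ) + 2 * sizeK d δ r0 * (1 + n)))
    simpa [τ] using this
  obtain ⟨N0, hN0⟩ := eventually_atTop.1 (hτ.eventually (eventually_le_nhds hζ))
  refine ⟨max N0 1, fun N hN => ?_⟩
  have hN1 : 1 ≤ N := (le_max_right _ _).trans hN
  have hNpos : (0 : ℝ) < N := by exact_mod_cast hN1
  have hτN : τ N ≤ ζ := hN0 N ((le_max_left _ _).trans hN)
  -- telescoping
  set J : ℕ → ℝ := fun k => avgI R (fun x => φ (eul R g N k (N - k) x)) ((k : ℝ) / N)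
  set ω : E d × E d → ℝ := fun p => ε1
    + {p : E d × E d | (n : ℝ) < ‖p.1‖ + ‖p.2‖}.indicator
        (fun p => C1 * (1 + ‖p.1‖ + ‖p.2‖)) p
  have hωeq : ∀ p, exp (-R p.1) * (ω p * (1 + ‖p.1‖ + ‖p.2‖))
      = ε1 * (exp (-R p.1) * (1 + ‖p.1‖ + ‖p.2‖)) + C1 * bad n p := by
    intro p
    simp only [ω, bad, indicator_apply]
    split_ifs <;> ring
  have hωi : Integrable (fun p : E d × E d =>
      exp (-R p.1) * (ω p * (1 + ‖p.1‖ + ‖p.2‖))) (gau2 d) := by
    simp only [hωeq]; exact (hmass.const_mul _).add ((hbi n).const_mul _)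
  have hstep : ∀ k < N, |J (k + 1) - J k| ≤ 1 / N * (3 * sizeK d δ r0)
      * (ε1 * I1 + C1 * ∫ p, bad n p ∂gau2 d) := by
    intro k hk
    set ψ : E d → ℝ := fun x => φ (eul R g N (k + 1) (N - (k + 1)) x)
    have hψ : Test ψ L' := h.test_comp hd hφ (show k + 1 + (N - (k + 1)) ≤ N by omega)
    have hl : ((k : ℝ) / N) ∈ Icc (0 : ℝ) 1 := grid_mem hk.le
    have hl' : (k : ℝ) / N + 1 / N ≤ 1 := by
      have := (grid_mem (N := N) (a := k + 1) (by omega)).2
      push_cast at this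
      rw [← add_div]; exact this
    have e1 : J (k + 1) = avgI R ψ ((k : ℝ) / N + 1 / N) := by
      simp only [J, ψ]; congr 1; push_cast; ring
    have e2 : J k = avgI R (fun x => ψ (x - (1 / (N : ℝ)) • vel R g ((k : ℝ) / N) x))
        ((k : ℝ) / N) := by
      simp only [J, ψ]
      congr 1
      funext x
      rw [show N - k = (N - (k + 1)) + 1 by omega, eul_succ_left]
      simp [eul]
    rw [e1, e2]
    refine (h.step_error hd hψ hl (by positivity) hl' (ω := ω) (fun p t ht => ?_)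
      (fun p b hb => ?_) hωi).trans (le_of_eq ?_)
    · exact h.modulus_mix hψ hl hl' hε1.le hτN (hmod N (k + 1) (N - (k + 1)) (by omega)) p t ht
    · exact h.modulus_seg hd hψ hl hN1 hε1.le hτN (hmod N (k + 1) (N - (k + 1)) (by omega)) p b hb
    · simp only [hωeq]
      rw [integral_add (hmass.const_mul _) ((hbi n).const_mul _), integral_const_mul,
        integral_const_mul]
  have htel : |J N - J 0| ≤ 3 * sizeK d δ r0 * (ε1 * I1 + C1 * ∫ p, bad n p ∂gau2 d) := by
    rw [← Finset.sum_range_sub J N]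
    refine (Finset.abs_sum_le_sum_abs _ _).trans
      ((Finset.sum_le_sum fun k hk => hstep k (Finset.mem_range.1 hk)).trans (le_of_eq ?_))
    rw [Finset.sum_const, Finset.card_range, nsmul_eq_mul]
    field_simp
  -- the two ends
  have hend : J N = Z * ∫ x, φ x ∂tilt R := by
    rw [h.integral_tilt, smul_eq_mul, ← mul_assoc, mul_inv_cancel₀ hZ.ne', one_mul]
    simp only [J, avgI, Nat.sub_self, eul, div_self hNpos.ne', mixP, sc, one_pow, sub_self,
      sqrt_zero, one_smul, zero_smul, add_zero]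
    rw [integral_fun_fst (f := fun x => exp (-R x) * φ x)]
    simp
  have hstart : J 0 = Z * ∫ x, φ (eul R g N 0 N x) ∂gau (Fin d) := by
    simp only [J, avgI, Nat.sub_zero, Nat.cast_zero, zero_div, mixP, sc, ne_eq, OfNat.ofNat_ne_zero,
      not_false_eq_true, zero_pow, sub_zero, sqrt_one, one_smul, zero_smul, zero_add]
    exact integral_prod_mul (fun x => exp (-R x)) (fun x => φ (eul R g N 0 N x))
  rw [hend, hstart, ← mul_sub, abs_mul, abs_of_pos hZ, abs_sub_comm] at htel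
  rw [dist_eq_norm, norm_eq_abs]
  have hbad0 : 0 ≤ ∫ p, bad n p ∂gau2 d :=
    integral_nonneg fun p => indicator_nonneg (fun _ _ => by positivity) p
  rw [abs_of_nonneg hbad0] at hn
  have hC1 : 0 ≤ C1 := by positivity
  have b1 : 3 * sizeK d δ r0 * (ε1 * I1) ≤ ε * Z / 2 := by
    simp only [ε1]
    rw [div_mul_eq_mul_div, mul_div_assoc', div_le_iff₀ (by positivity)]
    nlinarith [mul_nonneg (mul_nonneg hε.le hZ.le) hK, mul_nonneg (mul_nonneg hε.le hZ.le) hI1,
      mul_pos hε hZ]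
  have b2 : 3 * sizeK d δ r0 * (C1 * ∫ p, bad n p ∂gau2 d) < ε * Z / 2 := by
    calc 3 * sizeK d δ r0 * (C1 * ∫ p, bad n p ∂gau2 d)
        ≤ 3 * (sizeK d δ r0 + 1) * ((C1 + 1) * ∫ p, bad n p ∂gau2 d) := by
          gcongr <;> linarith
      _ < 3 * (sizeK d δ r0 + 1)
            * ((C1 + 1) * (ε * Z / (6 * (sizeK d δ r0 + 1) * (C1 + 1)))) := by gcongr
      _ = ε * Z / 2 := by field_simp; ring
  refine lt_of_mul_lt_mul_left (lt_of_le_of_lt htel ?_) hZ.le
  linarith [mul_comm Z ε]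

end Pot

end Vale.Agent.P347
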