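import Vale.Agent.P347.GaussBasic

/-!
P347 module A, part 1: integrability, moments, linear images, translations and integration by
parts for standard Gaussian laws on Euclidean spaces.
-/

open MeasureTheory ProbabilityTheory WithLp Real
open scoped RealInnerProductSpace

namespace Vale.Agent.P347

variable {ι : Type*} [Fintype ι]

section integrable

lemma integrable_exp_sq_gaussianReal {a : ℝ} (ha : a < 1 / 2) :
    Integrable (fun x : ℝ => Real.exp (a * x ^ 2)) (gaussianReal 0 1) := by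
  rw [gaussianReal_of_var_ne_zero 0 one_ne_zero,
    integrable_withDensity_iff_integrable_smul' (measurable_gaussianPDF 0 1)
      (ae_of_all _ fun _ => gaussianPDF_lt_top)]
  refine ((integrable_exp_neg_mul_sq (b := 1 / 2 - a) (by linarith)).const_mul
    (√(2 * π * ((1 : NNReal) : ℝ)))⁻¹).congr (ae_of_all _ fun x => ?_)
  dsimp only
  rw [toReal_gaussianPDF, gaussianPDFReal, smul_eq_mul]
  conv_rhs => rw [mul_assoc, ← Real.exp_add]
  congr 2
  simp only [NNReal.coe_one]
  ring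

lemma integrable_gau_exp_norm_sq {a : ℝ} (ha : a < 1 / 2) :
    Integrable (fun x => Real.exp (a * ‖x‖ ^ 2)) (gau ι) := by
  rw [gau, ← map_pi_eq_stdGaussian, integrable_map_measure (by fun_prop) (by fun_prop)]
  simp only [Function.comp_def, EuclideanSpace.real_norm_sq_eq, Finset.mul_sum, Real.exp_sum]
  exact Integrable.fintype_prod fun _ => integrable_exp_sq_gaussianReal ha

/-- Functions of sub-Gaussian growth are integrable. -/
lemma integrable_gau_exp_sq {a : ℝ} (ha : a < 1 / 2) (b : ℝ) :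
    Integrable (fun x => Real.exp (a * ‖x‖ ^ 2 + b * ‖x‖)) (gau ι) := by
  set r := (1 / 2 - a) / 2 with hr
  have hr0 : 0 < r := by rw [hr]; linarith
  refine ((integrable_gau_exp_norm_sq (ι := ι) (a := a + r) (by rw [hr]; linarith)).const_mul
    (Real.exp (b ^ 2 / (4 * r)))).mono' (by fun_prop) (ae_of_all _ fun x => ?_)
  rw [Real.norm_eq_abs, Real.abs_exp, ← Real.exp_add, Real.exp_le_exp]
  have h : b ^ 2 / (4 * r) + r * ‖x‖ ^ 2 - b * ‖x‖ = (2 * r * ‖x‖ - b) ^ 2 / (4 * r) := by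
    field_simp
    ring
  nlinarith [show 0 ≤ (2 * r * ‖x‖ - b) ^ 2 / (4 * r) by positivity]

variable {F : Type*} [NormedAddCommGroup F]

lemma integrable_of_growth {f : EuclideanSpace ℝ ι → F} (hf : AEStronglyMeasurable f (gau ι))
    {K a b : ℝ} (ha : a < 1 / 2) (h : ∀ x, ‖f x‖ ≤ K * Real.exp (a * ‖x‖ ^ 2 + b * ‖x‖)) :
    Integrable f (gau ι) :=
  ((integrable_gau_exp_sq ha b).const_mul K).mono' hf (ae_of_all _ h)

lemma integrable_of_poly {f : EuclideanSpace ℝ ι → F} (hf : AEStronglyMeasurable f (gau ι))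
    {K : ℝ} {k : ℕ} (h : ∀ x, ‖f x‖ ≤ K * (1 + ‖x‖) ^ k) : Integrable f (gau ι) := by
  refine integrable_of_growth hf (a := 0) (b := k) (K := |K|) (by norm_num) fun x => ?_
  refine (h x).trans ((mul_le_mul_of_nonneg_right (le_abs_self K) (by positivity)).trans
    (mul_le_mul_of_nonneg_left ?_ (abs_nonneg K)))
  rw [zero_mul, zero_add, Real.exp_nat_mul]
  gcongr
  rw [add_comm]
  exact Real.add_one_le_exp _

lemma integrable_gau_nrm : Integrable (fun x : EuclideanSpace ℝ ι => ‖x‖) (gau ι) :=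
  integrable_of_poly (K := 1) (k := 1) (by fun_prop) fun x => by
    rw [norm_norm, one_mul, pow_one]; linarith

lemma integrable_gau_nrm_sq : Integrable (fun x : EuclideanSpace ℝ ι => ‖x‖ ^ 2) (gau ι) :=
  integrable_of_poly (K := 1) (k := 2) (by fun_prop) fun x => by
    rw [norm_pow, norm_norm, one_mul]
    exact pow_le_pow_left₀ (norm_nonneg x) (by linarith) 2

end integrable

section moments

end moments

section maps

variable {E₁ E₂ : Type*} [NormedAddCommGroup E₁] [InnerProductSpace ℝ E₁] [FiniteDimensional ℝ E₁]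
  [MeasurableSpace E₁] [BorelSpace E₁] [NormedAddCommGroup E₂] [InnerProductSpace ℝ E₂]
  [FiniteDimensional ℝ E₂] [MeasurableSpace E₂] [BorelSpace E₂]

/-- The image of a standard Gaussian law by a coisometry is standard Gaussian. -/
theorem gau_map (L : E₁ →L[ℝ] E₂) (hL : ∀ x, ‖L x‖ ≤ ‖x‖) (J : E₂ → E₁)
    (hJ : ∀ y, L (J y) = y ∧ ‖J y‖ ≤ ‖y‖) :
    (stdGaussian E₁).map L = stdGaussian E₂ := by
  apply Measure.ext_of_charFunDual
  ext M
  rw [charFunDual_map, charFunDual_stdGaussian, charFunDual_stdGaussian]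
  have h : ‖M.comp L‖ = ‖M‖ := by
    refine le_antisymm (ContinuousLinearMap.opNorm_le_bound _ (norm_nonneg _) fun x => ?_)
      (ContinuousLinearMap.opNorm_le_bound _ (norm_nonneg _) fun y => ?_)
    · exact (M.le_opNorm _).trans (mul_le_mul_of_nonneg_left (hL x) (norm_nonneg _))
    · calc ‖M y‖ = ‖(M.comp L) (J y)‖ := by rw [ContinuousLinearMap.comp_apply, (hJ y).1]
        _ ≤ ‖M.comp L‖ * ‖J y‖ := (M.comp L).le_opNorm _
        _ ≤ _ := mul_le_mul_of_nonneg_left (hJ y).2 (norm_nonneg _)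
  rw [h]

variable {κ : Type*} [Fintype κ]

/-- Splitting the coordinates of a standard Gaussian vector into two independent blocks. -/
theorem gau_split :
    (gau (ι ⊕ κ)).map (fun z => ((toLp 2 fun i => z (Sum.inl i) : EuclideanSpace ℝ ι),
        (toLp 2 fun j => z (Sum.inr j) : EuclideanSpace ℝ κ))) = (gau ι).prod (gau κ) := by
  rw [gau, gau, gau, ← map_pi_eq_stdGaussian, ← map_pi_eq_stdGaussian, ← map_pi_eq_stdGaussian,
    Measure.map_map (by fun_prop) (by fun_prop),
    Measure.map_prod_map _ _ (by fun_prop) (by fun_prop),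
    ← (measurePreserving_sumPiEquivProdPi fun _ : ι ⊕ κ => gaussianReal 0 1).map_eq,
    Measure.map_map (by fun_prop) (MeasurableEquiv.measurable _)]
  rfl

/-- Rotation invariance of a pair of independent standard Gaussian vectors. -/
theorem gau_rotate {c s : ℝ} (h : c ^ 2 + s ^ 2 = 1) :
    ((gau ι).prod (gau ι)).map (fun p => (c • p.1 + s • p.2, -s • p.1 + c • p.2)) =
      (gau ι).prod (gau ι) :=
  map_rot h

/-- A rotated first coordinate is standard Gaussian. -/
theorem gau_rotate_fst {c s : ℝ} (h : c ^ 2 + s ^ 2 = 1) :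
    ((gau ι).prod (gau ι)).map (fun p => c • p.1 + s • p.2) = gau ι := by
  rw [show (fun p : EuclideanSpace ℝ ι × EuclideanSpace ℝ ι => c • p.1 + s • p.2) =
      Prod.fst ∘ fun p => (c • p.1 + s • p.2, -s • p.1 + c • p.2) from rfl,
    ← Measure.map_map measurable_fst (by fun_prop), gau_rotate h]
  exact measurePreserving_fst.map_eq

end maps

section shift

lemma gaussianReal_shift (m : ℝ) :
    gaussianReal m 1 = (gaussianReal 0 1).withDensity
      fun z => ENNReal.ofReal (Real.exp (m * z - m ^ 2 / 2)) := by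
  rw [gaussianReal_of_var_ne_zero _ one_ne_zero, gaussianReal_of_var_ne_zero _ one_ne_zero,
    ← withDensity_mul _ (measurable_gaussianPDF 0 1) (by fun_prop)]
  congr 1
  funext z
  simp only [gaussianPDF, Pi.mul_apply]
  rw [← ENNReal.ofReal_mul (gaussianPDFReal_nonneg _ _ _)]
  congr 1
  rw [gaussianPDFReal, gaussianPDFReal]
  conv_rhs => rw [mul_assoc, ← Real.exp_add]
  congr 2
  simp only [NNReal.coe_one]
  ring

lemma integrable_exp_shift (m : ℝ) :
    Integrable (fun z : ℝ => Real.exp (m * z - m ^ 2 / 2)) (gaussianReal 0 1) := by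
  simp_rw [sub_eq_add_neg, Real.exp_add]
  exact (integrable_exp_mul_gaussianReal m).mul_const _

lemma pi_shift (m : ι → ℝ) :
    (Measure.pi fun i => gaussianReal (m i) 1) =
      (Measure.pi fun _ : ι => gaussianReal 0 1).withDensity
        fun z => ENNReal.ofReal (Real.exp (∑ i, (m i * z i - m i ^ 2 / 2))) := by
  refine Measure.pi_eq fun s hs => ?_
  rw [withDensity_apply _ (.univ_pi hs), Measure.restrict_pi_pi]
  simp only [Real.exp_sum]
  rw [← ofReal_integral_eq_lintegral_ofReal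
    (Integrable.fintype_prod fun i => (integrable_exp_shift (m i)).restrict)
    (ae_of_all _ fun z => Finset.prod_nonneg fun i _ => (Real.exp_pos _).le),
    integral_fintype_prod_eq_prod (fun i z => Real.exp (m i * z - m i ^ 2 / 2)),
    ENNReal.ofReal_prod_of_nonneg fun i _ => integral_nonneg fun _ => (Real.exp_pos _).le]
  refine Finset.prod_congr rfl fun i _ => ?_
  rw [gaussianReal_shift (m i), withDensity_apply _ (hs i),
    ofReal_integral_eq_lintegral_ofReal (integrable_exp_shift (m i)).restrict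
      (ae_of_all _ fun _ => (Real.exp_pos _).le)]

/-- The Cameron–Martin density. -/
noncomputable def cmd (h x : EuclideanSpace ℝ ι) : ℝ := Real.exp (⟪h, x⟫ - ‖h‖ ^ 2 / 2)

lemma gau_map_add (h : EuclideanSpace ℝ ι) :
    (gau ι).map (fun x => x + h) = (gau ι).withDensity fun x => ENNReal.ofReal (cmd h x) := by
  rw [gau, ← map_pi_eq_stdGaussian, Measure.map_map (by fun_prop) (by fun_prop)]
  have e : ((fun x : EuclideanSpace ℝ ι => x + h) ∘ toLp 2) =
      toLp 2 ∘ fun (z : ι → ℝ) i => z i + h i := by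
    funext z; ext i; simp
  rw [e, ← Measure.map_map (by fun_prop) (by fun_prop),
    Measure.pi_map_pi (f := fun i (z : ℝ) => z + h i)
      (fun i => (measurable_id.add_const (h i)).aemeasurable)]
  simp_rw [gaussianReal_map_add_const, zero_add]
  rw [pi_shift]
  refine Measure.ext fun s hs => ?_
  rw [Measure.map_apply (by fun_prop) hs, withDensity_apply _ (hs.preimage (by fun_prop)),
    withDensity_apply _ hs, setLIntegral_map hs (by unfold cmd; fun_prop) (by fun_prop)]
  refine setLIntegral_congr_fun (hs.preimage (by fun_prop)) fun z _ => ?_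
  congr 2
  rw [Finset.sum_sub_distrib, ← Finset.sum_div, EuclideanSpace.real_norm_sq_eq]
  congr 1
  simp [PiLp.inner_apply, mul_comm]

variable {F : Type*} [NormedAddCommGroup F] [NormedSpace ℝ F]

/-- Translation of a standard Gaussian vector (Cameron–Martin). -/
theorem gau_shift (h : EuclideanSpace ℝ ι) (f : EuclideanSpace ℝ ι → F) :
    ∫ x, f (x + h) ∂gau ι = ∫ x, cmd h x • f x ∂gau ι := by
  rw [← (measurableEmbedding_addRight h).integral_map, gau_map_add,
    integral_withDensity_eq_integral_toReal_smul (by unfold cmd; fun_prop)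
      (ae_of_all _ fun _ => ENNReal.ofReal_lt_top)]
  refine integral_congr_ae (ae_of_all _ fun x => ?_)
  simp only [ENNReal.toReal_ofReal (show 0 ≤ cmd h x from (Real.exp_pos _).le)]

lemma hasDerivAt_cmd_smul (e x : EuclideanSpace ℝ ι) (s : ℝ) :
    HasDerivAt (fun s : ℝ => cmd (s • e) x) ((⟪e, x⟫ - s * ‖e‖ ^ 2) * cmd (s • e) x) s := by
  have h1 : HasDerivAt (fun s : ℝ => s * ⟪e, x⟫ - s ^ 2 * ‖e‖ ^ 2 / 2)
      (⟪e, x⟫ - s * ‖e‖ ^ 2) s := by
    have := ((hasDerivAt_id s).mul_const ⟪e, x⟫).sub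
      ((((hasDerivAt_id s).pow 2).mul_const (‖e‖ ^ 2)).div_const 2)
    refine this.congr_deriv ?_
    simp; ring
  have he : ∀ s : ℝ, cmd (s • e) x = Real.exp (s * ⟪e, x⟫ - s ^ 2 * ‖e‖ ^ 2 / 2) := fun s => by
    rw [cmd, real_inner_smul_left, norm_smul, mul_pow, Real.norm_eq_abs, sq_abs]
  simp only [he]
  refine h1.exp.congr_deriv ?_
  ring

lemma exp_growth_shift {a b : ℝ} {x v : EuclideanSpace ℝ ι} {c : ℝ} (hv : ‖v‖ ≤ c) :
    Real.exp (a * ‖x + v‖ ^ 2 + b * ‖x + v‖) ≤
      Real.exp (|a| * c ^ 2 + |b| * c) * Real.exp (a * ‖x‖ ^ 2 + (2 * |a| * c + |b|) * ‖x‖) := by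
  rw [← Real.exp_add, Real.exp_le_exp]
  have hc : 0 ≤ c := (norm_nonneg v).trans hv
  have h1 : |‖x + v‖ - ‖x‖| ≤ c := by
    refine (abs_norm_sub_norm_le _ _).trans ?_
    simpa using hv
  obtain ⟨h2, h3⟩ := abs_le.1 h1
  have hs : |‖x + v‖ ^ 2 - ‖x‖ ^ 2| ≤ c * (2 * ‖x‖ + c) := by
    rw [show ‖x + v‖ ^ 2 - ‖x‖ ^ 2 = (‖x + v‖ - ‖x‖) * (‖x + v‖ + ‖x‖) by ring, abs_mul]
    gcongr
    rw [abs_of_nonneg (by positivity)]
    linarith
  have h4 : a * (‖x + v‖ ^ 2 - ‖x‖ ^ 2) ≤ |a| * (c * (2 * ‖x‖ + c)) :=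
    (le_abs_self _).trans (by rw [abs_mul]; gcongr)
  have h5 : b * ‖x + v‖ ≤ |b| * (‖x‖ + c) :=
    mul_le_mul (le_abs_self b) (by linarith) (norm_nonneg _) (abs_nonneg b)
  nlinarith

/-- Gaussian integration by parts. -/
theorem gau_ibp_smul [CompleteSpace F] {f : EuclideanSpace ℝ ι → F} (hf : ContDiff ℝ 1 f) {K a b : ℝ}
    (ha : a < 1 / 2) (h0 : ∀ x, ‖f x‖ ≤ K * Real.exp (a * ‖x‖ ^ 2 + b * ‖x‖))
    (h1 : ∀ x, ‖fderiv ℝ f x‖ ≤ K * Real.exp (a * ‖x‖ ^ 2 + b * ‖x‖))
    (e : EuclideanSpace ℝ ι) :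
    ∫ x, ⟪x, e⟫ • f x ∂gau ι = ∫ x, fderiv ℝ f x e ∂gau ι := by
  have hc : Continuous f := hf.continuous
  have hc' : Continuous (fderiv ℝ f) := hf.continuous_fderiv one_ne_zero
  have hK : 0 ≤ K := by
    have := (norm_nonneg _).trans (h0 0)
    exact nonneg_of_mul_nonneg_left this (Real.exp_pos _)
  have hA := hasDerivAt_integral_of_dominated_loc_of_deriv_le (μ := gau ι)
    (F := fun (s : ℝ) x => f (x + s • e)) (x₀ := 0)
    (F' := fun s x => fderiv ℝ f (x + s • e) e)
    (bound := fun x => K * Real.exp (|a| * ‖e‖ ^ 2 + |b| * ‖e‖) * ‖e‖ *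
      Real.exp (a * ‖x‖ ^ 2 + (2 * |a| * ‖e‖ + |b|) * ‖x‖))
    (Metric.ball_mem_nhds 0 zero_lt_one) (.of_forall fun s => (by fun_prop))
    (integrable_of_growth (by fun_prop) ha (K := K) (b := b) (by simpa using h0))
    (by fun_prop)
    (ae_of_all _ fun x s hs => by
      rw [Metric.mem_ball, dist_zero_right, Real.norm_eq_abs] at hs
      have hv : ‖s • e‖ ≤ ‖e‖ := by
        rw [norm_smul, Real.norm_eq_abs]
        exact mul_le_of_le_one_left (norm_nonneg e) hs.le
      refine ((fderiv ℝ f (x + s • e)).le_opNorm e).trans ?_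
      refine (mul_le_mul_of_nonneg_right ((h1 _).trans
        (mul_le_mul_of_nonneg_left (exp_growth_shift hv) hK)) (norm_nonneg e)).trans (le_of_eq ?_)
      ring)
    ((integrable_gau_exp_sq ha _).const_mul _)
    (ae_of_all _ fun x s _ => by
      have h2 : HasDerivAt (fun s : ℝ => x + s • e) e s := by
        simpa using ((hasDerivAt_id s).smul_const e).const_add x
      exact ((hf.differentiable one_ne_zero) (x + s • e)).hasFDerivAt.comp_hasDerivAt s h2)
  have hB := hasDerivAt_integral_of_dominated_loc_of_deriv_le (μ := gau ι)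
    (F := fun (s : ℝ) x => cmd (s • e) x • f x) (x₀ := 0)
    (F' := fun s x => ((⟪e, x⟫ - s * ‖e‖ ^ 2) * cmd (s • e) x) • f x)
    (bound := fun x => K * (‖e‖ + ‖e‖ ^ 2) *
      Real.exp (a * ‖x‖ ^ 2 + (b + 1 + ‖e‖) * ‖x‖))
    (Metric.ball_mem_nhds 0 zero_lt_one)
    (.of_forall fun s => (by unfold cmd; fun_prop))
    (integrable_of_growth (by unfold cmd; fun_prop) ha (K := K) (b := b)
      (by simpa [cmd] using h0))
    (by unfold cmd; fun_prop)
    (ae_of_all _ fun x s hs => by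
      rw [Metric.mem_ball, dist_zero_right, Real.norm_eq_abs] at hs
      have hi := abs_real_inner_le_norm e x
      have hcm : cmd (s • e) x ≤ Real.exp (‖e‖ * ‖x‖) := by
        refine Real.exp_le_exp.2 ?_
        rw [real_inner_smul_left]
        have : |s * ⟪e, x⟫| ≤ ‖e‖ * ‖x‖ := by
          rw [abs_mul]
          exact (mul_le_of_le_one_left (abs_nonneg _) hs.le).trans hi
        have := le_abs_self (s * ⟪e, x⟫)
        have : (0 : ℝ) ≤ ‖s • e‖ ^ 2 / 2 := by positivity
        linarith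
      have hlin : |⟪e, x⟫ - s * ‖e‖ ^ 2| ≤ (‖e‖ + ‖e‖ ^ 2) * Real.exp ‖x‖ := by
        refine (abs_sub _ _).trans ?_
        rw [abs_mul, abs_of_nonneg (sq_nonneg ‖e‖)]
        have h3 : |s| * ‖e‖ ^ 2 ≤ ‖e‖ ^ 2 := mul_le_of_le_one_left (by positivity) hs.le
        have h4 := Real.add_one_le_exp ‖x‖
        have h5 : (1 : ℝ) ≤ Real.exp ‖x‖ := Real.one_le_exp (norm_nonneg x)
        nlinarith [norm_nonneg x, norm_nonneg e]
      rw [norm_smul, Real.norm_eq_abs, abs_mul, abs_of_nonneg (show 0 ≤ cmd (s • e) x from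
        (Real.exp_pos _).le)]
      calc |⟪e, x⟫ - s * ‖e‖ ^ 2| * cmd (s • e) x * ‖f x‖
          ≤ (‖e‖ + ‖e‖ ^ 2) * Real.exp ‖x‖ * Real.exp (‖e‖ * ‖x‖) *
              (K * Real.exp (a * ‖x‖ ^ 2 + b * ‖x‖)) := by
            gcongr
            · exact (Real.exp_pos _).le
            · exact h0 x
        _ = K * (‖e‖ + ‖e‖ ^ 2) *
              (Real.exp ‖x‖ * Real.exp (‖e‖ * ‖x‖) * Real.exp (a * ‖x‖ ^ 2 + b * ‖x‖)) := by
            ring
        _ = _ := by
            rw [← Real.exp_add, ← Real.exp_add]; ring_nf)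
    ((integrable_gau_exp_sq ha _).const_mul _)
    (ae_of_all _ fun x s _ => (hasDerivAt_cmd_smul e x s).smul_const (f x))
  have := (hA.2.congr_of_eventuallyEq (.of_forall fun s => (gau_shift (s • e) f).symm)).unique hB.2
  simpa [cmd, real_inner_comm e] using this.symm

end shift

section interp

variable {d : ℕ}

variable {v : E d → ℝ} {K1 K2 L : ℝ} {Ξ : EuclideanSpace ℝ ι → E d} {G : E d → ℝ} {KG : ℝ}

section cov

variable {Φ : EuclideanSpace ℝ ι → E d →L[ℝ] ℝ} {w : EuclideanSpace ℝ ι → E d} {K3 : ℝ}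

lemma norm_rot_le (θ : ℝ) (x y : EuclideanSpace ℝ ι) :
    ‖cos θ • x + sin θ • y‖ ≤ ‖x‖ + ‖y‖ ∧ ‖-sin θ • x + cos θ • y‖ ≤ ‖x‖ + ‖y‖ := by
  constructor <;> refine (norm_add_le _ _).trans (add_le_add ?_ ?_) <;>
    rw [norm_smul, Real.norm_eq_abs] <;> refine mul_le_of_le_one_left (norm_nonneg _) ?_
  · exact abs_cos_le_one θ
  · exact abs_sin_le_one θ
  · rw [abs_neg]; exact abs_sin_le_one θ
  · exact abs_cos_le_one θ

end cov

end interp

end Vale.Agent.P347
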