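import Vale.Agent.P347.Defs
import Vale.Agent.P347.Shortcuts

/-!
P347: integrability, rotation invariance and integration by parts for the standard Gaussian law.
-/

open MeasureTheory ProbabilityTheory WithLp Real
open scoped RealInnerProductSpace

namespace Vale.Agent.P347

variable {ι : Type*} [Fintype ι]

lemma gau_eq_map : gau ι = (Measure.pi fun _ : ι => gaussianReal 0 1).map (toLp 2) :=
  (map_pi_eq_stdGaussian).symm

lemma integral_gau {F : Type*} [NormedAddCommGroup F] [NormedSpace ℝ F]
    (f : EuclideanSpace ℝ ι → F) :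
    ∫ x, f x ∂gau ι = ∫ z, f (toLp 2 z) ∂Measure.pi fun _ : ι => gaussianReal 0 1 := by
  rw [gau_eq_map]
  exact integral_map_equiv (MeasurableEquiv.toLp 2 (ι → ℝ)) f

lemma integrable_gau_iff {F : Type*} [NormedAddCommGroup F] [NormedSpace ℝ F]
    (f : EuclideanSpace ℝ ι → F) :
    Integrable f (gau ι) ↔
      Integrable (fun z => f (toLp 2 z)) (Measure.pi fun _ : ι => gaussianReal 0 1) := by
  rw [gau_eq_map]
  exact integrable_map_equiv (MeasurableEquiv.toLp 2 (ι → ℝ)) f

lemma integrable_exp_sq_one {a : ℝ} (ha : a < 1 / 2) :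
    Integrable (fun x : ℝ => exp (a * x ^ 2)) (gaussianReal 0 1) := by
  rw [gaussianReal_of_var_ne_zero 0 one_ne_zero,
    integrable_withDensity_iff_integrable_smul' (measurable_gaussianPDF 0 1)
      (ae_of_all _ fun _ => gaussianPDF_lt_top)]
  have h := (integrable_exp_neg_mul_sq (b := 1 / 2 - a) (by linarith)).const_mul
    (√(2 * π * (1 : NNReal)))⁻¹
  refine h.congr (ae_of_all _ fun x => ?_)
  simp only [toReal_gaussianPDF, smul_eq_mul, gaussianPDFReal, sub_zero, NNReal.coe_one, mul_one]
  rw [mul_assoc, ← Real.exp_add]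
  ring_nf

lemma integrable_exp_sq {a : ℝ} (ha : a < 1 / 2) :
    Integrable (fun x : EuclideanSpace ℝ ι => exp (a * ‖x‖ ^ 2)) (gau ι) := by
  rw [integrable_gau_iff]
  simp only [EuclideanSpace.real_norm_sq_eq, Finset.mul_sum, Real.exp_sum]
  exact Integrable.fintype_prod (f := fun (_ : ι) (x : ℝ) => exp (a * x ^ 2))
    fun _ => integrable_exp_sq_one ha

/-- Polynomials and exponentials of linear size are absorbed by a Gaussian exponential. -/
lemma exp_absorb {a : ℝ} (ha : 0 < a) (k : ℕ) (b : ℝ) :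
    ∃ K : ℝ, 0 < K ∧ ∀ r : ℝ, 0 ≤ r → (1 + r) ^ k * exp (b * r) ≤ K * exp (a * r ^ 2) := by
  refine ⟨exp ((k + b) ^ 2 / (4 * a)), exp_pos _, fun r hr => ?_⟩
  have h1 : (1 + r) ^ k ≤ exp (k * r) := by
    rw [Real.exp_nat_mul]
    exact pow_le_pow_left₀ (by linarith) (by linarith [Real.add_one_le_exp r]) k
  calc (1 + r) ^ k * exp (b * r) ≤ exp (k * r) * exp (b * r) :=
        mul_le_mul_of_nonneg_right h1 (exp_pos _).le
    _ = exp ((k + b) * r) := by rw [← Real.exp_add]; ring_nf
    _ ≤ exp ((k + b) ^ 2 / (4 * a) + a * r ^ 2) := by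
        apply Real.exp_le_exp.2
        have : (k + b) ^ 2 / (4 * a) + a * r ^ 2 - (k + b) * r
            = (2 * a * r - (k + b)) ^ 2 / (4 * a) := by field_simp; ring
        have h2 : 0 ≤ (2 * a * r - (k + b)) ^ 2 / (4 * a) := by positivity
        linarith
    _ = _ := Real.exp_add _ _

/-- A continuous function of sub-Gaussian growth is integrable. -/
lemma integrable_gau_of_growth {F : Type*} [NormedAddCommGroup F] [NormedSpace ℝ F]
    [SecondCountableTopology F] {f : EuclideanSpace ℝ ι → F} (hf : Continuous f) {a : ℝ}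
    (ha : a < 1 / 2) (K : ℝ) (k : ℕ) (b : ℝ)
    (h : ∀ x, ‖f x‖ ≤ K * (1 + ‖x‖) ^ k * exp (b * ‖x‖) * exp (a * ‖x‖ ^ 2)) :
    Integrable f (gau ι) := by
  obtain ⟨C, hC0, hC⟩ := exp_absorb (a := (1 / 2 - a) / 2) (by linarith) k b
  refine ((integrable_exp_sq (ι := ι) (a := (1 / 2 + a) / 2) (by linarith)).const_mul
    (|K| * C)).mono' hf.aestronglyMeasurable (ae_of_all _ fun x => (h x).trans ?_)
  calc K * (1 + ‖x‖) ^ k * exp (b * ‖x‖) * exp (a * ‖x‖ ^ 2)
      ≤ |K| * ((1 + ‖x‖) ^ k * exp (b * ‖x‖)) * exp (a * ‖x‖ ^ 2) := by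
        have h0 : 0 ≤ (1 + ‖x‖) ^ k * exp (b * ‖x‖) := by positivity
        rw [mul_assoc K]
        exact mul_le_mul_of_nonneg_right (mul_le_mul_of_nonneg_right (le_abs_self K) h0)
          (exp_pos _).le
    _ ≤ |K| * (C * exp ((1 / 2 - a) / 2 * ‖x‖ ^ 2)) * exp (a * ‖x‖ ^ 2) :=
        mul_le_mul_of_nonneg_right
          (mul_le_mul_of_nonneg_left (hC _ (norm_nonneg x)) (abs_nonneg K)) (exp_pos _).le
    _ = _ := by
        rw [mul_assoc, mul_assoc C, ← Real.exp_add, ← mul_assoc]
        ring_nf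

/-- A continuous function of polynomial growth is integrable. -/
lemma integrable_gau_of_poly {F : Type*} [NormedAddCommGroup F] [NormedSpace ℝ F]
    [SecondCountableTopology F] {f : EuclideanSpace ℝ ι → F} (hf : Continuous f) (K : ℝ) (k : ℕ)
    (h : ∀ x, ‖f x‖ ≤ K * (1 + ‖x‖) ^ k) : Integrable f (gau ι) :=
  integrable_gau_of_growth hf (a := 0) (by norm_num) K k 0 (by simpa using h)

lemma integral_gau_coord_sq (i : ι) : ∫ x, x i ^ 2 ∂gau ι = 1 := by
  rw [integral_gau]
  simp only
  rw [integral_comp_eval (μ := fun _ : ι => gaussianReal 0 1) (i := i)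
    (f := fun x : ℝ => x ^ 2) (by fun_prop)]
  have h := variance_id_gaussianReal (μ := 0) (v := 1)
  rw [variance_eq_integral (by fun_prop)] at h
  simpa using h

lemma integral_gau_norm_sq : ∫ x, ‖x‖ ^ 2 ∂gau ι = Fintype.card ι := by
  simp only [EuclideanSpace.real_norm_sq_eq]
  rw [integral_finsetSum]
  · simp [integral_gau_coord_sq]
  · intro i _
    refine integrable_gau_of_poly (by fun_prop) 1 2 fun x => ?_
    have := PiLp.norm_apply_le (p := 2) x i
    rw [norm_pow]
    nlinarith [norm_nonneg (x i), norm_nonneg x]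

lemma integral_gau_norm : ∫ x, ‖x‖ ∂gau ι ≤ √(Fintype.card ι) := by
  rcases (Fintype.card ι).eq_zero_or_pos with h | h
  · haveI := Fintype.card_eq_zero_iff.1 h
    simp [h, Subsingleton.elim (α := EuclideanSpace ℝ ι) _ 0]
  · have hs : 0 < √(Fintype.card ι : ℝ) := sqrt_pos.2 (by exact_mod_cast h)
    have hi : Integrable (fun x : EuclideanSpace ℝ ι => ‖x‖ ^ 2) (gau ι) :=
      integrable_gau_of_poly (by fun_prop) 1 2 fun x => by
        rw [norm_pow, norm_norm]; nlinarith [norm_nonneg x]
    calc ∫ x, ‖x‖ ∂gau ι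
        ≤ ∫ x, (√(Fintype.card ι) / 2 + (2 * √(Fintype.card ι))⁻¹ * ‖x‖ ^ 2) ∂gau ι := by
          refine integral_mono_of_nonneg (ae_of_all _ fun x => norm_nonneg x)
            ((integrable_const _).add (hi.const_mul _)) (ae_of_all _ fun x => ?_)
          have : √(Fintype.card ι) / 2 + (2 * √(Fintype.card ι))⁻¹ * ‖x‖ ^ 2 - ‖x‖
              = (√(Fintype.card ι) - ‖x‖) ^ 2 / (2 * √(Fintype.card ι)) := by
            field_simp; ring
          have h2 : 0 ≤ (√(Fintype.card ι) - ‖x‖) ^ 2 / (2 * √(Fintype.card ι)) := by positivity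
          linarith
      _ = √(Fintype.card ι) := by
          rw [integral_add (integrable_const _) (hi.const_mul _), integral_const_mul,
            integral_gau_norm_sq]
          simp only [integral_const, probReal_univ, one_smul]
          field_simp
          rw [sq_sqrt (by positivity)]
          ring

/-- The rotation of pairs with cosine `c` and sine `s`. -/
def rot (c s : ℝ) (p : EuclideanSpace ℝ ι × EuclideanSpace ℝ ι) :
    EuclideanSpace ℝ ι × EuclideanSpace ℝ ι :=
  (c • p.1 + s • p.2, -s • p.1 + c • p.2)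

lemma map_rot {c s : ℝ} (h : c ^ 2 + s ^ 2 = 1) :
    ((gau ι).prod (gau ι)).map (rot c s) = (gau ι).prod (gau ι) := by
  obtain ⟨θ, hc, hs⟩ : ∃ θ : ℝ, cos θ = c ∧ sin θ = s := by
    have hc1 : -1 ≤ c ∧ c ≤ 1 := ⟨by nlinarith, by nlinarith⟩
    rcases le_total 0 s with hs | hs
    · refine ⟨arccos c, cos_arccos hc1.1 hc1.2, ?_⟩
      rw [sin_arccos, show 1 - c ^ 2 = s ^ 2 by linarith, sqrt_sq hs]
    · refine ⟨-arccos c, by rw [cos_neg, cos_arccos hc1.1 hc1.2], ?_⟩
      rw [sin_neg, sin_arccos, show 1 - c ^ 2 = (-s) ^ 2 by linarith, sqrt_sq (by linarith)]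
      ring
  subst hc hs
  have hr := IsGaussian.map_rotation_eq_self (μ := gau ι) (by simp) θ
  convert hr using 2
  funext p
  simp [rot, ContinuousLinearMap.rotation]

lemma measurePreserving_rot {c s : ℝ} (h : c ^ 2 + s ^ 2 = 1) :
    MeasurePreserving (rot (ι := ι) c s) ((gau ι).prod (gau ι)) ((gau ι).prod (gau ι)) :=
  ⟨by unfold rot; fun_prop, map_rot h⟩

lemma integral_rot {F : Type*} [NormedAddCommGroup F] [NormedSpace ℝ F] {c s : ℝ}
    (h : c ^ 2 + s ^ 2 = 1) {f : EuclideanSpace ℝ ι × EuclideanSpace ℝ ι → F}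
    (hf : AEStronglyMeasurable f ((gau ι).prod (gau ι))) :
    ∫ p, f (rot c s p) ∂(gau ι).prod (gau ι) = ∫ p, f p ∂(gau ι).prod (gau ι) := by
  conv_rhs => rw [← map_rot (ι := ι) h]
  rw [integral_map (by unfold rot; fun_prop) (by rwa [map_rot h])]

/-- A combination `c x + s y` of independent Gaussian vectors with `c² + s² = 1`. -/
lemma integral_comb {F : Type*} [NormedAddCommGroup F] [NormedSpace ℝ F]
    [SecondCountableTopology F] {c s : ℝ} (h : c ^ 2 + s ^ 2 = 1)
    {f : EuclideanSpace ℝ ι → F} (hf : Continuous f) :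
    ∫ p, f (c • p.1 + s • p.2) ∂(gau ι).prod (gau ι) = ∫ x, f x ∂gau ι := by
  have := integral_rot h (f := fun p : EuclideanSpace ℝ ι × EuclideanSpace ℝ ι => f p.1)
    (by exact (hf.comp continuous_fst).aestronglyMeasurable)
  simp only [rot] at this
  rw [this, integral_fun_fst]
  simp

/-- Gaussian integration by parts. -/
lemma gau_ibp {f : EuclideanSpace ℝ ι → ℝ} (hf : ContDiff ℝ 1 f) {a : ℝ} (ha : a < 1 / 2)
    (K : ℝ) (k : ℕ) (b : ℝ)
    (h0 : ∀ x, |f x| ≤ K * (1 + ‖x‖) ^ k * exp (b * ‖x‖) * exp (a * ‖x‖ ^ 2))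
    (h1 : ∀ x, ‖fderiv ℝ f x‖ ≤ K * (1 + ‖x‖) ^ k * exp (b * ‖x‖) * exp (a * ‖x‖ ^ 2))
    (v : EuclideanSpace ℝ ι) :
    ∫ x, ⟪x, v⟫ * f x ∂gau ι = ∫ x, fderiv ℝ f x v ∂gau ι := by
  classical
  have hd : Continuous (fderiv ℝ f) := hf.continuous_fderiv one_ne_zero
  have hK : ∀ x : EuclideanSpace ℝ ι,
      0 ≤ K * (1 + ‖x‖) ^ k * exp (b * ‖x‖) * exp (a * ‖x‖ ^ 2) :=
    fun x => (abs_nonneg _).trans (h0 x)
  have hcoord : ∀ i : ι, ∫ x, x i * f x ∂gau ι
      = ∫ x, fderiv ℝ f x (EuclideanSpace.single i 1) ∂gau ι := by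
    intro i
    have i0 : Integrable f (gau ι) := integrable_gau_of_growth hf.continuous ha K k b h0
    have i1 : Integrable (fun x : EuclideanSpace ℝ ι => x i * f x) (gau ι) := by
      refine integrable_gau_of_growth ((by fun_prop : Continuous fun x : EuclideanSpace ℝ ι => x i).mul
        hf.continuous) ha K (k + 1) b fun x => ?_
      rw [norm_mul, pow_succ]
      calc ‖x i‖ * ‖f x‖ ≤ (1 + ‖x‖) * (K * (1 + ‖x‖) ^ k * exp (b * ‖x‖) * exp (a * ‖x‖ ^ 2)) :=
            mul_le_mul (by linarith [PiLp.norm_apply_le (p := 2) x i]) (h0 x) (norm_nonneg _)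
              (by positivity)
        _ = _ := by ring
    have i2 : Integrable (fun x => fderiv ℝ f x (EuclideanSpace.single i 1)) (gau ι) := by
      refine integrable_gau_of_growth (hd.clm_apply continuous_const) ha K k b fun x => ?_
      calc ‖fderiv ℝ f x (EuclideanSpace.single i 1)‖
          ≤ ‖fderiv ℝ f x‖ * ‖(EuclideanSpace.single i (1 : ℝ))‖ :=
            ContinuousLinearMap.le_opNorm _ _
        _ ≤ _ := by simpa using h1 x
    rw [integral_gau, integral_gau]
    rw [integrable_gau_iff] at i0 i1 i2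
    set P := Measure.pi fun _ : ι => gaussianReal 0 1
    obtain ⟨T, hemb, hT, hk, hu⟩ : ∃ (T : ℝ × ({j // ¬ j = i} → ℝ) → (ι → ℝ)),
        MeasurableEmbedding T ∧ MeasurePreserving T
          ((gaussianReal 0 1).prod (Measure.pi fun _ : {j // ¬ j = i} => gaussianReal 0 1)) P ∧
        (∀ x r, T (x, r) i = x) ∧ (∀ x y r, Function.update (T (x, r)) i y = T (y, r)) := by
      let e1 := MeasurableEquiv.piEquivPiSubtypeProd (fun _ : ι => ℝ) (fun j => j = i)
      let e2 := (MeasurableEquiv.funUnique {j // j = i} ℝ).prodCongr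
        (MeasurableEquiv.refl ({j // ¬ j = i} → ℝ))
      refine ⟨fun p => e1.symm (e2.symm p), e1.symm.measurableEmbedding.comp
        e2.symm.measurableEmbedding, ?_, ?_, ?_⟩
      · have t1 := (measurePreserving_piEquivPiSubtypeProd (fun _ : ι => gaussianReal 0 1)
          (fun j => j = i)).symm
        have t2 := (measurePreserving_funUnique (gaussianReal 0 1) {j // j = i}).symm
        rw [show (Unique.fintype : Fintype {j // j = i}) = Subtype.fintype (fun j => j = i) from
          Subsingleton.elim _ _] at t2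
        exact t1.comp (t2.prod (MeasurePreserving.id _))
      · intro x r
        simp [e1, e2, MeasurableEquiv.piEquivPiSubtypeProd, MeasurableEquiv.prodCongr,
          MeasurableEquiv.funUnique, Equiv.piEquivPiSubtypeProd]
      · intro x y r
        ext j
        by_cases hj : j = i
        · subst hj
          simp [e1, e2, MeasurableEquiv.piEquivPiSubtypeProd, MeasurableEquiv.prodCongr,
            MeasurableEquiv.funUnique, Equiv.piEquivPiSubtypeProd]
        · simp [e1, e2, MeasurableEquiv.piEquivPiSubtypeProd, MeasurableEquiv.prodCongr,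
            MeasurableEquiv.funUnique, Equiv.piEquivPiSubtypeProd, hj]
    rw [← hT.integral_comp hemb, ← hT.integral_comp hemb]
    have j0 := (hT.integrable_comp_emb hemb).2 i0
    have j1 := (hT.integrable_comp_emb hemb).2 i1
    have j2 := (hT.integrable_comp_emb hemb).2 i2
    simp only [Function.comp_def] at j0 j1 j2
    rw [integral_prod_symm _ j1, integral_prod_symm _ j2]
    apply integral_congr_ae
    filter_upwards [j0.prod_left_ae, j1.prod_left_ae, j2.prod_left_ae] with r a0 a1 a2
    simp only [hk] at a1 ⊢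
    have hder : ∀ x : ℝ, HasDerivAt (fun x => f (toLp 2 (T (x, r))))
        (fderiv ℝ f (toLp 2 (T (x, r))) (EuclideanSpace.single i 1)) x := by
      intro x
      have hupd : HasDerivAt (fun y : ℝ => toLp 2 (T (y, r)))
          (EuclideanSpace.single i (1 : ℝ)) x := by
        have := ((PiLp.continuousLinearEquiv 2 ℝ (fun _ : ι => ℝ)).symm.toContinuousLinearMap
          ).hasFDerivAt.comp_hasDerivAt x (hasDerivAt_update (T (x, r)) i x)
        simp only [Function.comp_def, hu] at this
        exact this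
      exact ((hf.differentiable one_ne_zero _).hasFDerivAt).comp_hasDerivAt x hupd
    have hg0 := a0
    rw [gaussianReal_of_var_ne_zero 0 one_ne_zero,
      integrable_withDensity_iff_integrable_smul' (measurable_gaussianPDF 0 1)
        (ae_of_all _ fun _ => gaussianPDF_lt_top)] at a0 a1 a2
    simp only [toReal_gaussianPDF, smul_eq_mul] at a0 a1 a2
    rw [integral_gaussianReal_eq_integral_smul one_ne_zero,
      integral_gaussianReal_eq_integral_smul one_ne_zero]
    simp only [smul_eq_mul]
    have hpdf : ∀ x, HasDerivAt (gaussianPDFReal 0 1) (-x * gaussianPDFReal 0 1 x) x := by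
      intro x
      rw [gaussianPDFReal_def]
      have h : HasDerivAt (fun x : ℝ => -(x - 0) ^ 2 / (2 * ((1 : NNReal) : ℝ))) (-x) x := by
        have := ((((hasDerivAt_id x).sub_const 0).pow 2).neg).div_const (2 * ((1 : NNReal) : ℝ))
        refine this.congr_deriv ?_
        simp; ring
      simpa [mul_comm, mul_assoc, mul_left_comm] using
        (h.exp).const_mul (√(2 * π * ((1 : NNReal) : ℝ)))⁻¹
    have hd2 : ∀ x, HasDerivAt (fun x => gaussianPDFReal 0 1 x * f (toLp 2 (T (x, r))))
        (gaussianPDFReal 0 1 x * fderiv ℝ f (toLp 2 (T (x, r))) (EuclideanSpace.single i 1)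
          - gaussianPDFReal 0 1 x * (x * f (toLp 2 (T (x, r))))) x := fun x => by
      refine ((hpdf x).mul (hder x)).congr_deriv ?_; ring
    have := integral_eq_zero_of_hasDerivAt_of_integrable hd2 (a2.sub a1) a0
    rw [integral_sub a2 a1] at this
    linarith
  have hsum : v = ∑ i, v i • EuclideanSpace.single i (1 : ℝ) := by
    simpa using ((EuclideanSpace.basisFun ι ℝ).sum_repr v).symm
  calc ∫ x, ⟪x, v⟫ * f x ∂gau ι = ∫ x, ∑ i, v i * (x i * f x) ∂gau ι := by
        refine integral_congr_ae (ae_of_all _ fun x => ?_)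
        simp only [PiLp.inner_apply, RCLike.inner_apply, conj_trivial, Finset.sum_mul]
        exact Finset.sum_congr rfl fun i _ => by ring
    _ = ∑ i, v i * ∫ x, fderiv ℝ f x (EuclideanSpace.single i 1) ∂gau ι := by
        rw [integral_finsetSum]
        · exact Finset.sum_congr rfl fun i _ => by rw [integral_const_mul, hcoord i]
        · intro i _
          refine (Integrable.const_mul ?_ _)
          refine integrable_gau_of_growth ((by fun_prop : Continuous fun x : EuclideanSpace ℝ ι => x i).mul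
            hf.continuous) ha K (k + 1) b fun x => ?_
          rw [norm_mul, pow_succ]
          calc ‖x i‖ * ‖f x‖
              ≤ (1 + ‖x‖) * (K * (1 + ‖x‖) ^ k * exp (b * ‖x‖) * exp (a * ‖x‖ ^ 2)) :=
                mul_le_mul (by linarith [PiLp.norm_apply_le (p := 2) x i]) (h0 x) (norm_nonneg _)
                  (by positivity)
            _ = _ := by ring
    _ = ∫ x, fderiv ℝ f x v ∂gau ι := by
        conv_rhs => rw [hsum]; simp only [map_sum, map_smul, smul_eq_mul]
        rw [integral_finsetSum]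
        · exact Finset.sum_congr rfl fun i _ => by rw [integral_const_mul]
        · intro i _
          refine (integrable_gau_of_growth (hd.clm_apply continuous_const) ha K k b fun x => ?_).const_mul _
          calc ‖fderiv ℝ f x (EuclideanSpace.single i 1)‖
              ≤ ‖fderiv ℝ f x‖ * ‖(EuclideanSpace.single i (1 : ℝ))‖ :=
                ContinuousLinearMap.le_opNorm _ _
            _ ≤ _ := by simpa using h1 x

end Vale.Agent.P347
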