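import Vale.Agent.P347.Est
import Vale.Agent.P226.Basic

/-!
P347: the proximal kernel: the restricted Gaussian oracle in standardised coordinates, the
contraction of its estimator, moments of the Gibbs law, and exactness of the ideal kernel.
-/

open MeasureTheory ProbabilityTheory WithLp Real
open scoped RealInnerProductSpace Gradient

namespace Vale.Agent.P347

variable {d N : ℕ} {ε η σ : ℝ} {V : E d → ℝ}

/-! ## The non-quadratic part -/

lemma InClass.hasFDerivAt (hV : InClass d V) (x : E d) :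
    HasFDerivAt V (innerSL ℝ (∇ V x)) x :=
  (hV.1.differentiable (by norm_num) x).hasGradientAt.hasFDerivAt

lemma contDiff_grad (hV : InClass d V) : ContDiff ℝ 1 fun x => ∇ V x :=
  (InnerProductSpace.toDual ℝ (E d)).symm.toContinuousLinearEquiv.contDiff.comp
    (hV.1.fderiv_right (by norm_num))

lemma contDiff_restGrad (hV : InClass d V) : ContDiff ℝ 1 (restGrad V) :=
  (contDiff_grad hV).sub (contDiff_id.const_smul (3 / 2 : ℝ))

lemma continuous_restGrad (hV : InClass d V) : Continuous (restGrad V) :=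
  (contDiff_restGrad hV).continuous

lemma restGrad_zero (hV : InClass d V) : restGrad V 0 = 0 := by
  simp [restGrad, hV.2.2.1]

lemma hasFDerivAt_rest (hV : InClass d V) (x : E d) :
    HasFDerivAt (rest V) (innerSL ℝ (restGrad V x)) x := by
  refine ((hV.hasFDerivAt x).sub
    ((hasStrictFDerivAt_norm_sq x).hasFDerivAt.const_mul (3 / 4 : ℝ))).congr_fderiv ?_
  ext v
  simp [restGrad, inner_sub_left, inner_smul_left]
  ring

lemma norm_fderiv_restGrad_le (hV : InClass d V) (x : E d) :
    ‖fderiv ℝ (restGrad V) x‖ ≤ 1 / 2 := by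
  set A := fderiv ℝ (restGrad V) x with hA
  have hA' : ∀ h k : E d,
      ⟪A h, k⟫ = fderiv ℝ (fderiv ℝ V) x h k - (3 / 2 : ℝ) * ⟪h, k⟫ := by
    intro h k
    have h1 : HasFDerivAt (fun y => ⟪∇ V y, k⟫ - (3 / 2 : ℝ) * ⟪y, k⟫)
        ((innerSL ℝ k).comp A) x := by
      refine HasFDerivAt.congr_of_eventuallyEq (((innerSL ℝ k).hasFDerivAt).comp x
        ((contDiff_restGrad hV).differentiable one_ne_zero x).hasFDerivAt) ?_
      refine Filter.Eventually.of_forall fun y => ?_
      simp [restGrad, inner_sub_right, inner_smul_right, real_inner_comm k]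
    have e : (fun y => ⟪∇ V y, k⟫) = fun y => fderiv ℝ V y k := by
      funext y
      rw [(hV.hasFDerivAt y).fderiv, innerSL_apply_apply]
    have hd : HasFDerivAt (fun y => fderiv ℝ V y k)
        ((ContinuousLinearMap.apply ℝ ℝ k).comp (fderiv ℝ (fderiv ℝ V) x)) x :=
      (ContinuousLinearMap.apply ℝ ℝ k).hasFDerivAt.comp x
        ((hV.1.fderiv_right (m := 1) (by norm_num)).differentiable one_ne_zero x).hasFDerivAt
    rw [← e] at hd
    have h3 := hd.sub ((((innerSL ℝ k).hasFDerivAt).congr_of_eventuallyEq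
      (f₁ := fun y : E d => ⟪y, k⟫)
      (Filter.Eventually.of_forall fun y => by simp [real_inner_comm y k])).const_mul (3 / 2 : ℝ))
    have := congrArg (fun L => L h) (h1.unique h3)
    simpa [real_inner_comm k] using this
  have hq : ∀ h : E d, |⟪A h, h⟫| ≤ 1 / 2 * ‖h‖ ^ 2 := by
    intro h
    have := hV.2.2.2 x h
    rw [hA' h h, real_inner_self_eq_norm_sq, abs_le]
    constructor <;> linarith [this.1, this.2]
  have hsym : ∀ h k : E d, ⟪A h, k⟫ = ⟪A k, h⟫ := by
    intro h k
    rw [hA' h k, hA' k h, hV.1.contDiffAt.isSymmSndFDerivAt (by simp), real_inner_comm h k]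
  refine ContinuousLinearMap.opNorm_le_bound _ (by norm_num) fun h => ?_
  set k := (2 : ℝ) • A h with hk
  have h1 := (abs_le.1 (hq (h + k))).2
  have h2 := (abs_le.1 (hq (h - k))).1
  rw [map_add, inner_add_left, inner_add_right, inner_add_right, norm_add_sq_real] at h1
  rw [map_sub, inner_sub_left, inner_sub_right, inner_sub_right, norm_sub_sq_real] at h2
  have h3 : ⟪A k, h⟫ = ⟪A h, k⟫ := (hsym h k).symm
  have h4 : ⟪A h, k⟫ = 2 * ‖A h‖ ^ 2 := by
    rw [hk, inner_smul_right, real_inner_self_eq_norm_sq]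
  have h5 : ‖k‖ = 2 * ‖A h‖ := by rw [hk, norm_smul]; simp
  rw [h3, h4, h5] at h1 h2
  nlinarith [norm_nonneg h, norm_nonneg (A h)]

lemma lipschitzWith_restGrad (hV : InClass d V) : LipschitzWith (1 / 2) (restGrad V) :=
  lipschitzWith_of_nnnorm_fderiv_le ((contDiff_restGrad hV).differentiable one_ne_zero) fun x => by
    rw [← NNReal.coe_le_coe, coe_nnnorm]
    simpa using norm_fderiv_restGrad_le hV x

lemma restGrad_lip (hV : InClass d V) (x y : E d) :
    ‖restGrad V x - restGrad V y‖ ≤ 1 / 2 * ‖x - y‖ := by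
  simpa using (lipschitzWith_restGrad hV).norm_sub_le x y

lemma norm_restGrad_le (hV : InClass d V) (x : E d) : ‖restGrad V x‖ ≤ 1 / 2 * ‖x‖ := by
  simpa [restGrad_zero hV] using restGrad_lip hV x 0

/-! ## The scalars -/

lemma one_le_kap (hη : 0 < η) : 1 ≤ kap η := by unfold kap; linarith

lemma kap_pos (hη : 0 < η) : 0 < kap η := zero_lt_one.trans_le (one_le_kap hη)

lemma var'_pos (hη : 0 < η) : 0 < var' η := div_pos hη (kap_pos hη)

lemma var'_le (hη : 0 < η) : var' η ≤ η := div_le_self hη.le (one_le_kap hη)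

lemma inv_kap_le_one (hη : 0 < η) : (kap η)⁻¹ ≤ 1 := inv_le_one_of_one_le₀ (one_le_kap hη)

/-! ## The centre -/

lemma cen_succ (V : E d → ℝ) (η : ℝ) (y : E d) (j : ℕ) :
    cen V η y (j + 1) = (kap η)⁻¹ • y - var' η • restGrad V (cen V η y j) := rfl

lemma contDiff_cen (hV : InClass d V) (η : ℝ) : ∀ j, ContDiff ℝ 1 fun y => cen V η y j
  | 0 => contDiff_id.const_smul (kap η)⁻¹
  | j + 1 => (contDiff_id.const_smul (kap η)⁻¹).sub
      (((contDiff_restGrad hV).comp (contDiff_cen hV η j)).const_smul (var' η))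

lemma continuous_cen (hV : InClass d V) (η : ℝ) (j : ℕ) : Continuous fun y => cen V η y j :=
  (contDiff_cen hV η j).continuous

lemma cen_step_le (hV : InClass d V) (hη : 0 < η) (y : E d) : ∀ j,
    ‖cen V η y (j + 1) - cen V η y j‖ ≤ (var' η / 2) ^ (j + 1) * ‖y‖ := by
  intro j
  have hs := (var'_pos hη).le
  induction j with
  | zero =>
    rw [cen_succ]
    simp only [cen, sub_sub_cancel_left, norm_neg, norm_smul, norm_eq_abs, abs_of_nonneg hs,
      zero_add, pow_one]
    have h1 := norm_restGrad_le hV ((kap η)⁻¹ • y)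
    rw [norm_smul, norm_eq_abs, abs_of_nonneg (inv_nonneg.2 (kap_pos hη).le)] at h1
    have h2 := mul_le_mul_of_nonneg_right (inv_kap_le_one hη) (norm_nonneg y)
    nlinarith [mul_le_mul_of_nonneg_left h1 hs]
  | succ j ih =>
    rw [cen_succ V η y (j + 1), cen_succ V η y j, sub_sub_sub_cancel_left, ← smul_sub, norm_smul,
      norm_eq_abs, abs_of_nonneg hs, pow_succ' _ (j + 1), mul_assoc, norm_sub_rev,
      ← cen_succ V η y j]
    calc var' η * ‖restGrad V (cen V η y (j + 1)) - restGrad V (cen V η y j)‖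
        ≤ var' η * (1 / 2 * ((var' η / 2) ^ (j + 1) * ‖y‖)) :=
          mul_le_mul_of_nonneg_left ((restGrad_lip hV _ _).trans (by linarith)) hs
      _ = var' η / 2 * ((var' η / 2) ^ (j + 1) * ‖y‖) := by ring

lemma continuous_unitR (hV : InClass d V) (η : ℝ) :
    Continuous fun p : E d × E d => unitR V η p.1 p.2 := by
  have h1 := continuous_cen hV η 4
  have h2 := continuous_cen hV η 3
  have h3 : Continuous (rest V) :=
    continuous_iff_continuousAt.2 fun x => (hasFDerivAt_rest hV x).continuousAt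
  have h4 := continuous_restGrad hV
  unfold unitR
  fun_prop

lemma pot_unit (hV : InClass d V) (hη : 0 < η) (hη' : η ≤ 1 / 64) (y : E d) :
    Pot d (var' η / 2) (√(var' η) * (var' η / 2) ^ 4 * ‖y‖) (unitR V η y) (unitG V η y) where
  pos := half_pos (var'_pos hη)
  le_eighth := by linarith [var'_le hη]
  r0_nonneg := by have := var'_pos hη; positivity
  hasGrad x := by
    refine (((hasFDerivAt_rest hV (cen V η y 4 + √(var' η) • x)).comp x
      (((hasFDerivAt_id x).const_smul (√(var' η))).const_add (cen V η y 4))).sub_const _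
      |>.sub ((innerSL ℝ (restGrad V (cen V η y 3))).hasFDerivAt.const_mul (√(var' η))))
      |>.congr_fderiv ?_
    ext v
    simp [unitG, inner_sub_left, inner_smul_left, inner_smul_right, mul_sub]
  smooth := by
    have := contDiff_restGrad hV
    unfold unitG
    fun_prop
  lip x x' := by
    simp only [unitG, ← smul_sub, sub_sub_sub_cancel_right, norm_smul, norm_eq_abs,
      abs_of_nonneg (sqrt_nonneg _)]
    refine (mul_le_mul_of_nonneg_left (restGrad_lip hV _ _) (sqrt_nonneg _)).trans (le_of_eq ?_)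
    rw [add_sub_add_left_eq_sub, ← smul_sub, norm_smul, norm_eq_abs,
      abs_of_nonneg (sqrt_nonneg _)]
    have := Real.mul_self_sqrt (var'_pos hη).le
    linear_combination (1 / 2 * ‖x - x'‖) * this
  at_zero := by
    simp only [unitG, smul_zero, add_zero, norm_smul, norm_eq_abs, abs_of_nonneg (sqrt_nonneg _)]
    rw [mul_assoc]
    refine mul_le_mul_of_nonneg_left ?_ (sqrt_nonneg _)
    have h1 := restGrad_lip hV (cen V η y 4) (cen V η y 3)
    have h2 := cen_step_le hV hη y 3
    norm_num at h2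
    linarith [norm_nonneg (cen V η y 4 - cen V η y 3)]

/-! ## The estimator -/

/-! ## The Gibbs law -/

lemma InClass.lower (hV : InClass d V) (x : E d) : 1 / 4 * ‖x‖ ^ 2 ≤ V x := by
  have h := (convex_closedBall (0 : E d) ‖x‖).norm_image_sub_le_of_norm_fderiv_le (𝕜 := ℝ)
    (f := rest V) (C := 1 / 2 * ‖x‖) (fun y _ => (hasFDerivAt_rest hV y).differentiableAt)
    (fun y hy => by
      rw [(hasFDerivAt_rest hV y).fderiv, innerSL_apply_norm]
      have hy' : ‖y‖ ≤ ‖x‖ := by simpa using hy
      linarith [norm_restGrad_le hV y])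
    (Metric.mem_closedBall_self (norm_nonneg _)) (by simp : x ∈ Metric.closedBall 0 ‖x‖)
  rw [norm_eq_abs, sub_zero] at h
  have h0 : rest V 0 = 0 := by simp [rest, hV.2.1]
  have h' := (abs_le.1 h).1
  rw [h0, sub_zero] at h'
  simp only [rest] at h'
  nlinarith

lemma InClass.inner_grad (hV : InClass d V) (x : E d) : ‖x‖ ^ 2 ≤ ⟪x, ∇ V x⟫ := by
  have h : ∇ V x = restGrad V x + (3 / 2 : ℝ) • x := by simp [restGrad]
  rw [h, inner_add_right, inner_smul_right, real_inner_self_eq_norm_sq]
  have h1 := (abs_le.1 (abs_real_inner_le_norm x (restGrad V x))).1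
  nlinarith [mul_le_mul_of_nonneg_left (norm_restGrad_le hV x) (norm_nonneg x)]

lemma InClass.norm_grad_le (hV : InClass d V) (x : E d) : ‖∇ V x‖ ≤ 2 * ‖x‖ := by
  have h : ∇ V x = restGrad V x + (3 / 2 : ℝ) • x := by simp [restGrad]
  rw [h]
  refine (norm_add_le _ _).trans ?_
  rw [norm_smul]
  norm_num
  linarith [norm_restGrad_le hV x]

lemma integrable_exp_neg_smul (hV : InClass d V) {F : Type*} [NormedAddCommGroup F]
    [NormedSpace ℝ F] [SecondCountableTopology F] {f : E d → F} (hf : Continuous f) (K : ℝ)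
    (k : ℕ) (hb : ∀ x, ‖f x‖ ≤ K * (1 + ‖x‖) ^ k) :
    Integrable (fun x => exp (-V x) • f x) := by
  obtain ⟨C, -, hC⟩ := exp_absorb (a := 1 / 8) (by norm_num) k 0
  have hK : 0 ≤ K := by simpa using (norm_nonneg (f 0)).trans (hb 0)
  refine ((P226.integrable_exp_norm (r := d) (b := 1 / 8) (by norm_num)).const_mul (K * C)).mono'
    ((hV.1.continuous.neg.rexp).smul hf).aestronglyMeasurable (ae_of_all _ fun x => ?_)
  rw [norm_smul, norm_eq_abs, abs_of_pos (exp_pos _)]
  have h1 : exp (-V x) ≤ exp (-(1 / 4) * ‖x‖ ^ 2) := exp_le_exp.2 (by linarith [hV.lower x])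
  have h2 := hC ‖x‖ (norm_nonneg x)
  rw [zero_mul, exp_zero, mul_one] at h2
  calc exp (-V x) * ‖f x‖ ≤ exp (-(1 / 4) * ‖x‖ ^ 2) * (K * (C * exp (1 / 8 * ‖x‖ ^ 2))) :=
        mul_le_mul h1 ((hb x).trans (mul_le_mul_of_nonneg_left h2 hK)) (norm_nonneg _)
          (exp_pos _).le
    _ = K * C * exp (-(1 / 8) * ‖x‖ ^ 2) := by
        rw [show -(1 / 8 : ℝ) * ‖x‖ ^ 2 = -(1 / 4) * ‖x‖ ^ 2 + 1 / 8 * ‖x‖ ^ 2 by ring, exp_add]
        ring

lemma integrable_exp_neg (hV : InClass d V) : Integrable (fun x => exp (-V x)) := by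
  simpa using integrable_exp_neg_smul hV (f := fun _ => (1 : ℝ)) continuous_const 1 0 (by simp)

lemma mass_pos (hV : InClass d V) : 0 < ∫ x, exp (-V x) :=
  integral_exp_pos (integrable_exp_neg hV)

lemma gibbs_eq_tilted (hV : InClass d V) : gibbs V = volume.tilted fun x => -V x := by
  have hI := integrable_exp_neg hV
  have hm : (volume.withDensity fun x => ENNReal.ofReal (exp (-V x))) Set.univ =
      ENNReal.ofReal (∫ x, exp (-V x)) := by
    rw [withDensity_apply _ MeasurableSet.univ, Measure.restrict_univ,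
      ← ofReal_integral_eq_lintegral_ofReal hI (ae_of_all _ fun _ => (exp_pos _).le)]
  rw [gibbs, hm, Measure.tilted, ← withDensity_smul' _ _ (by simp [mass_pos hV])]
  congr 1
  funext x
  rw [Pi.smul_apply, smul_eq_mul, ← ENNReal.ofReal_inv_of_pos (mass_pos hV),
    ← ENNReal.ofReal_mul (inv_nonneg.2 (mass_pos hV).le), inv_mul_eq_div]

lemma isProb_gibbs (hV : InClass d V) : IsProbabilityMeasure (gibbs V) := by
  rw [gibbs_eq_tilted hV]
  exact isProbabilityMeasure_tilted (integrable_exp_neg hV)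

lemma integral_gibbs (hV : InClass d V) {F : Type*} [NormedAddCommGroup F] [NormedSpace ℝ F]
    (f : E d → F) : ∫ x, f x ∂gibbs V = (∫ x, exp (-V x))⁻¹ • ∫ x, exp (-V x) • f x := by
  rw [gibbs_eq_tilted hV, integral_tilted, ← integral_smul]
  refine integral_congr_ae (ae_of_all _ fun x => ?_)
  simp only [smul_smul, div_eq_mul_inv, mul_comm]

lemma integrable_gibbs (hV : InClass d V) {F : Type*} [NormedAddCommGroup F] [NormedSpace ℝ F]
    [SecondCountableTopology F] {f : E d → F} (hf : Continuous f) (K : ℝ) (k : ℕ)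
    (hb : ∀ x, ‖f x‖ ≤ K * (1 + ‖x‖) ^ k) : Integrable f (gibbs V) := by
  rw [gibbs_eq_tilted hV, integrable_tilted_iff (integrable_exp_neg hV)]
  exact integrable_exp_neg_smul hV hf K k hb

lemma integrable_norm_sq_gibbs (hV : InClass d V) :
    Integrable (fun x => ‖x‖ ^ 2) (gibbs V) :=
  integrable_gibbs hV (by fun_prop) 1 2 fun x => by
    rw [norm_pow, norm_norm]; nlinarith [norm_nonneg x]

lemma integral_norm_sq_gibbs_le (hV : InClass d V) : ∫ x, ‖x‖ ^ 2 ∂gibbs V ≤ d := by
  have key : ∀ i, ∫ x, exp (-V x) * (x i * ∇ V x i) = ∫ x, exp (-V x) := by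
    intro i
    have hg : ∀ x, HasFDerivAt (fun x => exp (-V x)) (exp (-V x) • -innerSL ℝ (∇ V x)) x :=
      fun x => (hV.hasFDerivAt x).neg.exp
    have hf : ∀ x : E d, HasFDerivAt (fun y : E d => y i)
        (EuclideanSpace.proj (𝕜 := ℝ) i : E d →L[ℝ] ℝ) x :=
      fun x => (EuclideanSpace.proj (𝕜 := ℝ) i : E d →L[ℝ] ℝ).hasFDerivAt
    have hcg : Continuous fun x => ∇ V x := (contDiff_grad hV).continuous
    have i2 : Integrable fun x : E d => exp (-V x) * (x i * ∇ V x i) := by
      simpa [smul_eq_mul] using integrable_exp_neg_smul hV (f := fun x : E d => x i * ∇ V x i)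
        (by fun_prop) 2 2 fun x => by
        rw [norm_mul]
        nlinarith [mul_le_mul (PiLp.norm_apply_le (p := 2) x i)
          ((PiLp.norm_apply_le (p := 2) (∇ V x) i).trans (hV.norm_grad_le x)) (norm_nonneg _)
          (norm_nonneg _), norm_nonneg x]
    have i3 : Integrable fun x : E d => x i * exp (-V x) := by
      simpa [smul_eq_mul, mul_comm] using integrable_exp_neg_smul hV (f := fun x : E d => x i)
        (by fun_prop) 1 1 fun x => by linarith [PiLp.norm_apply_le (p := 2) x i, norm_nonneg x]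
    have hco : ∀ x, fderiv ℝ V x (EuclideanSpace.single i 1) = ∇ V x i := fun x => by
      rw [(hV.hasFDerivAt x).fderiv, innerSL_apply_apply, EuclideanSpace.inner_single_right]
      simp
    have := integral_mul_fderiv_eq_neg_fderiv_mul_of_integrable (μ := (volume : Measure (E d)))
      (f := fun y : E d => y i) (g := fun x => exp (-V x)) (v := EuclideanSpace.single i 1)
      (by simpa [(hf _).fderiv] using integrable_exp_neg hV)
      (by
        refine i2.neg.congr (ae_of_all _ fun x => ?_)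
        simp [(hg x).fderiv, hco]
        ring)
      i3 (fun x _ => (hf x).differentiableAt) (fun x _ => (hg x).differentiableAt)
    simp [(hf _).fderiv, (hg _).fderiv, hco] at this
    rw [integral_neg, neg_inj] at this
    rw [← this]
    exact integral_congr_ae (ae_of_all _ fun x => by ring)
  rw [integral_gibbs hV, smul_eq_mul, inv_mul_le_iff₀ (mass_pos hV)]
  have i1 : Integrable fun x => exp (-V x) • ‖x‖ ^ 2 :=
    integrable_exp_neg_smul hV (by fun_prop) 1 2 fun x => by
      rw [norm_pow, norm_norm]; nlinarith [norm_nonneg x]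
  have hcg : Continuous fun x => ∇ V x := (contDiff_grad hV).continuous
  have i2 : ∀ i, Integrable fun x : E d => exp (-V x) * (x i * ∇ V x i) := fun i => by
    simpa [smul_eq_mul] using integrable_exp_neg_smul hV (f := fun x : E d => x i * ∇ V x i)
      (by fun_prop) 2 2 fun x => by
      rw [norm_mul]
      nlinarith [mul_le_mul (PiLp.norm_apply_le (p := 2) x i)
        ((PiLp.norm_apply_le (p := 2) (∇ V x) i).trans (hV.norm_grad_le x)) (norm_nonneg _)
        (norm_nonneg _), norm_nonneg x]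
  calc ∫ x, exp (-V x) • ‖x‖ ^ 2 ≤ ∫ x, ∑ i, exp (-V x) * (x i * ∇ V x i) := by
        refine integral_mono i1 (integrable_finsetSum _ fun i _ => i2 i) fun x => ?_
        simp only [smul_eq_mul, ← Finset.mul_sum]
        refine mul_le_mul_of_nonneg_left ((hV.inner_grad x).trans (le_of_eq ?_)) (exp_pos _).le
        simp only [PiLp.inner_apply, RCLike.inner_apply, conj_trivial]
        exact Finset.sum_congr rfl fun i _ => mul_comm _ _
    _ = (∫ x, exp (-V x)) * d := by
        rw [integral_finsetSum _ fun i _ => i2 i]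
        simp [key, mul_comm]

/-- The Gibbs law blurred by Gaussian noise of variance `η`. -/
noncomputable def noisyGibbs (V : E d → ℝ) (η : ℝ) : Measure (E d) :=
  ((gibbs V).prod (gau (Fin d))).map fun p => p.1 + √η • p.2

lemma isProb_noisyGibbs (hV : InClass d V) (η : ℝ) : IsProbabilityMeasure (noisyGibbs V η) := by
  haveI := isProb_gibbs hV
  exact Measure.isProbabilityMeasure_map (by fun_prop)

lemma integrable_norm_sq_noisyGibbs (hV : InClass d V) (η : ℝ) :
    Integrable (fun y => ‖y‖ ^ 2) (noisyGibbs V η) := by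
  haveI := isProb_gibbs hV
  rw [noisyGibbs, integrable_map_measure (by fun_prop) (by fun_prop)]
  have h1 : Integrable (fun p : E d × E d => ‖p.1‖ ^ 2) ((gibbs V).prod (gau (Fin d))) :=
    (integrable_norm_sq_gibbs hV).comp_fst _
  have h2 : Integrable (fun p : E d × E d => ‖p.2‖ ^ 2) ((gibbs V).prod (gau (Fin d))) :=
    (integrable_gau_of_poly (f := fun z : E d => ‖z‖ ^ 2) (by fun_prop) 1 2 fun x => by
      rw [norm_pow, norm_norm]; nlinarith [norm_nonneg x]).comp_snd _
  refine ((h1.const_mul 2).add (h2.const_mul (2 * √η ^ 2))).mono' (by fun_prop)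
    (ae_of_all _ fun p => ?_)
  have h := norm_add_le p.1 (√η • p.2)
  rw [norm_smul, norm_eq_abs, abs_of_nonneg (sqrt_nonneg η)] at h
  simp only [Function.comp_apply, Pi.add_apply, norm_pow, norm_norm]
  nlinarith [norm_nonneg (p.1 + √η • p.2), sq_nonneg (‖p.1‖ - √η * ‖p.2‖)]

lemma integral_norm_sq_noisyGibbs_le (hV : InClass d V) (hη : 0 < η) (hη' : η ≤ 1 / 64) :
    ∫ y, ‖y‖ ^ 2 ∂noisyGibbs V η ≤ 2 * d := by
  haveI := isProb_gibbs hV
  rw [noisyGibbs, integral_map (by fun_prop) (by fun_prop)]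
  have g2 : Integrable (fun z : E d => ‖z‖ ^ 2) (gau (Fin d)) :=
    integrable_gau_of_poly (by fun_prop) 1 2 fun x => by
      rw [norm_pow, norm_norm]; nlinarith [norm_nonneg x]
  have h1 : Integrable (fun p : E d × E d => ‖p.1‖ ^ 2) ((gibbs V).prod (gau (Fin d))) :=
    (integrable_norm_sq_gibbs hV).comp_fst _
  have h2 : Integrable (fun p : E d × E d => ‖p.2‖ ^ 2) ((gibbs V).prod (gau (Fin d))) :=
    g2.comp_snd _
  calc ∫ p, ‖p.1 + √η • p.2‖ ^ 2 ∂(gibbs V).prod (gau (Fin d))
      ≤ ∫ p, (5 / 4 * ‖p.1‖ ^ 2 + 5 * η * ‖p.2‖ ^ 2) ∂(gibbs V).prod (gau (Fin d)) := by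
        refine integral_mono_of_nonneg (ae_of_all _ fun p => sq_nonneg _)
          ((h1.const_mul _).add (h2.const_mul _)) (ae_of_all _ fun p => ?_)
        have h := norm_add_le p.1 (√η • p.2)
        rw [norm_smul, norm_eq_abs, abs_of_nonneg (sqrt_nonneg η)] at h
        have hsq := Real.sq_sqrt hη.le
        simp only
        nlinarith [norm_nonneg (p.1 + √η • p.2), sq_nonneg (‖p.1‖ - 4 * (√η * ‖p.2‖))]
    _ = 5 / 4 * (∫ x, ‖x‖ ^ 2 ∂gibbs V) + 5 * η * ∫ z, ‖z‖ ^ 2 ∂gau (Fin d) := by
        rw [integral_add (h1.const_mul _) (h2.const_mul _), integral_const_mul, integral_const_mul,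
          integral_fun_fst (fun z : E d => ‖z‖ ^ 2), integral_fun_snd (fun z : E d => ‖z‖ ^ 2)]
        simp
    _ ≤ 2 * d := by
        rw [integral_gau_norm_sq, Fintype.card_fin]
        nlinarith [integral_norm_sq_gibbs_le hV, (Nat.cast_nonneg d : (0 : ℝ) ≤ d)]

/-! ## Disintegration -/

/-- The joint density of a Gibbs point and its blur, without normalisation. -/
noncomputable def joint (V : E d → ℝ) (η : ℝ) (x y : E d) : ℝ :=
  exp (-V x) * exp (-(2 * η)⁻¹ * ‖y - x‖ ^ 2)

lemma joint_unit (V : E d → ℝ) (hη : 0 < η) (y z : E d) :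
    joint V η (cen V η y 4 + √(var' η) • z) y =
      joint V η (cen V η y 4) y * (exp (-unitR V η y z) * exp (-‖z‖ ^ 2 / 2)) := by
  set c := cen V η y 4 with hc
  set r := √(var' η) with hr
  have hk := (kap_pos hη).ne'
  have hr2 : r ^ 2 = var' η := Real.sq_sqrt (var'_pos hη).le
  have hcG : var' η * ⟪restGrad V (cen V η y 3), z⟫ = (kap η)⁻¹ * ⟪y, z⟫ - ⟪c, z⟫ := by
    rw [hc, cen_succ V η y 3, inner_sub_left, inner_smul_left, inner_smul_left]
    simp
  simp only [joint, unitR, rest, ← Real.exp_add, ← hc, ← hr]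
  congr 1
  rw [sub_add_eq_sub_sub, norm_sub_sq_real (y - c) (r • z), norm_add_sq_real, norm_smul, mul_pow,
    norm_eq_abs, sq_abs, hr2, inner_smul_right, inner_smul_right, inner_sub_left]
  rw [var'] at hcG ⊢
  field_simp at hcG ⊢
  simp only [kap] at hcG ⊢
  linear_combination -(r * (8 + 12 * η)) * hcG

lemma continuous_joint (hV : InClass d V) (η : ℝ) :
    Continuous fun p : E d × E d => joint V η p.1 p.2 := by
  have := hV.1.continuous
  unfold joint
  fun_prop

lemma gau_integral_eq (h : E d → ℝ) :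
    ∫ z, h z ∂gau (Fin d) =
      ((2 * π) ^ ((d : ℝ) / 2))⁻¹ * ∫ z, h z * exp (-‖z‖ ^ 2 / 2) := by
  rw [show gau (Fin d) = stdGaussian (P226.EE d) from rfl, P226.integral_stdGaussian,
    ← integral_const_mul]
  exact integral_congr_ae (ae_of_all _ fun z => by simp only [P226.dens]; ring)

lemma integral_joint_affine (V : E d → ℝ) (η : ℝ) (hη : 0 < η) (f : E d → ℝ) (y : E d) :
    ∫ x, f x * joint V η x y =
      (√(var' η) ^ d * joint V η (cen V η y 4) y * (2 * π) ^ ((d : ℝ) / 2)) *
        ∫ z, exp (-unitR V η y z) * f (cen V η y 4 + √(var' η) • z) ∂gau (Fin d) := by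
  have hr : 0 < √(var' η) := sqrt_pos.2 (var'_pos hη)
  rw [← integral_add_left_eq_self (fun x => f x * joint V η x y) (cen V η y 4),
    gau_integral_eq]
  have h := Measure.integral_comp_smul (μ := (volume : Measure (E d)))
    (fun x => f (cen V η y 4 + x) * joint V η (cen V η y 4 + x) y) (√(var' η))
  rw [finrank_euclideanSpace_fin, abs_of_pos (by positivity), smul_eq_mul,
    eq_inv_mul_iff_mul_eq₀ (by positivity)] at h
  have hc : ((2 * π) ^ ((d : ℝ) / 2)) ≠ 0 := by positivity
  rw [← h, mul_assoc _ _ (((2 * π) ^ ((d : ℝ) / 2))⁻¹ * _), mul_inv_cancel_left₀ hc,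
    mul_assoc (√(var' η) ^ d)]
  congr 1
  rw [← integral_const_mul]
  refine integral_congr_ae (ae_of_all _ fun z => ?_)
  simp only [joint_unit V hη]
  ring

lemma blur_integral (hη : 0 < η) (V : E d → ℝ) (φ : E d → ℝ) (x : E d) :
    exp (-V x) * ∫ z, φ (x + √η • z) ∂gau (Fin d) =
      (((2 * π) ^ ((d : ℝ) / 2))⁻¹ * (√η ^ d)⁻¹) * ∫ y, φ y * joint V η x y := by
  have hsq := Real.sq_sqrt hη.le
  have hr : 0 < √η := sqrt_pos.2 hη
  rw [← integral_add_left_eq_self (fun y => φ y * joint V η x y) x, gau_integral_eq]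
  have h := Measure.integral_comp_smul (μ := (volume : Measure (E d)))
    (fun y => φ (x + y) * joint V η x (x + y)) (√η)
  rw [finrank_euclideanSpace_fin, abs_of_pos (by positivity), smul_eq_mul] at h
  rw [mul_assoc _ _ (∫ _, _), ← h, mul_left_comm, ← integral_const_mul]
  congr 1
  refine integral_congr_ae (ae_of_all _ fun z => ?_)
  simp only [joint, add_sub_cancel_left, norm_smul, norm_eq_abs, mul_pow, sq_abs, hsq]
  field_simp

lemma integrable_joint (hV : InClass d V) (hη : 0 < η) :
    Integrable (Function.uncurry (joint V η)) ((volume : Measure (E d)).prod volume) := by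
  have hb : 0 < (2 * η)⁻¹ := by positivity
  have hi := P226.integrable_exp_norm (r := d) hb
  refine (integrable_prod_iff (continuous_joint hV η).aestronglyMeasurable).2
    ⟨ae_of_all _ fun x => ?_, ?_⟩
  · exact ((hi.comp_sub_right x).const_mul (exp (-V x)))
  · have h : ∀ x, ∫ y, ‖joint V η x y‖ =
        exp (-V x) * ∫ y : E d, exp (-(2 * η)⁻¹ * ‖y‖ ^ 2) := by
      intro x
      rw [← integral_const_mul, ← integral_sub_right_eq_self
        (fun y : E d => exp (-V x) * exp (-(2 * η)⁻¹ * ‖y‖ ^ 2)) x]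
      refine integral_congr_ae (ae_of_all _ fun y => ?_)
      simp [joint, abs_of_pos]
    simp only [Function.uncurry_apply_pair, h]
    exact (integrable_exp_neg hV).mul_const _

/-- The inner integral of the ideal kernel. -/
noncomputable def oracleMean (V : E d → ℝ) (η : ℝ) (ψ : E d → ℝ) (y : E d) : ℝ :=
  ∫ z, ψ (cen V η y 4 + √(var' η) • z) ∂tilt (unitR V η y)

lemma measurable_oracleMean (hV : InClass d V) (hη : 0 < η) (hη' : η ≤ 1 / 64) {ψ : E d → ℝ}
    (hψ : Continuous ψ) : Measurable (oracleMean V η ψ) := by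
  have h1 := continuous_unitR hV η
  have h2 := continuous_cen hV η 4
  have hA : StronglyMeasurable fun y => ∫ z, exp (-unitR V η y z) *
      ψ (cen V η y 4 + √(var' η) • z) ∂gau (Fin d) :=
    (Continuous.stronglyMeasurable (f := fun p : E d × E d => exp (-unitR V η p.1 p.2) *
      ψ (cen V η p.1 4 + √(var' η) • p.2)) (by fun_prop)).integral_prod_right'
  have hB : StronglyMeasurable fun y => ∫ z, exp (-unitR V η y z) ∂gau (Fin d) :=
    (Continuous.stronglyMeasurable (f := fun p : E d × E d => exp (-unitR V η p.1 p.2))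
      (by fun_prop)).integral_prod_right'
  have e : oracleMean V η ψ = fun y => (∫ z, exp (-unitR V η y z) ∂gau (Fin d))⁻¹ *
      ∫ z, exp (-unitR V η y z) * ψ (cen V η y 4 + √(var' η) • z) ∂gau (Fin d) := by
    funext y
    rw [oracleMean, (pot_unit hV hη hη' y).integral_tilt]
    simp
  rw [e]
  exact hB.measurable.inv.mul hA.measurable

lemma abs_oracleMean_le (hV : InClass d V) (hη : 0 < η) (hη' : η ≤ 1 / 64) {ψ : E d → ℝ} {B : ℝ}
    (hB : ∀ x, |ψ x| ≤ B) (y : E d) : |oracleMean V η ψ y| ≤ B := by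
  haveI := (pot_unit hV hη hη' y).isProb
  have := norm_integral_le_of_norm_le_const (μ := tilt (unitR V η y))
    (f := fun z => ψ (cen V η y 4 + √(var' η) • z)) (ae_of_all _ fun z => hB _)
  simpa [oracleMean] using this

lemma oracleMean_mul_mass (hV : InClass d V) (hη : 0 < η) (hη' : η ≤ 1 / 64) (ψ : E d → ℝ)
    (y : E d) : oracleMean V η ψ y * ∫ x, joint V η x y = ∫ x, ψ x * joint V η x y := by
  have h1 := integral_joint_affine V η hη (fun _ => 1) y
  simp only [one_mul, mul_one] at h1
  rw [h1, integral_joint_affine V η hη ψ y, oracleMean, (pot_unit hV hη hη' y).integral_tilt]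
  have hm := (pot_unit hV hη hη' y).mass_pos.ne'
  simp only [smul_eq_mul]
  field_simp

/-- The ideal kernel maps the blurred Gibbs law back to the Gibbs law. -/
theorem gibbs_disintegration (hV : InClass d V) (hη : 0 < η) (hη' : η ≤ 1 / 64) {ψ : E d → ℝ}
    (hψ : Continuous ψ) {B : ℝ} (hB : ∀ x, |ψ x| ≤ B) :
    ∫ y, (∫ z, ψ (cen V η y 4 + √(var' η) • z) ∂tilt (unitR V η y)) ∂noisyGibbs V η =
      ∫ x, ψ x ∂gibbs V := by
  haveI := isProb_gibbs hV
  set m := oracleMean V η ψ with hm
  have hmm := measurable_oracleMean hV hη hη' hψ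
  have hmb := abs_oracleMean_le hV hη hη' hB
  change ∫ y, m y ∂noisyGibbs V η = _
  have hJ := integrable_joint hV hη
  set C := ((2 * π) ^ ((d : ℝ) / 2))⁻¹ * (√η ^ d)⁻¹ with hC
  have i1 : Integrable (Function.uncurry fun x y => m y * joint V η x y)
      ((volume : Measure (E d)).prod volume) :=
    hJ.bdd_mul (c := B) ((hmm.comp measurable_snd).aestronglyMeasurable)
      (ae_of_all _ fun p => hmb _)
  have i2 : Integrable (Function.uncurry fun x y => ψ x * joint V η x y)
      ((volume : Measure (E d)).prod volume) :=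
    hJ.bdd_mul (c := B) ((hψ.comp continuous_fst).aestronglyMeasurable)
      (ae_of_all _ fun p => hB _)
  have iN : Integrable (fun p : E d × E d => m (p.1 + √η • p.2))
      ((gibbs V).prod (gau (Fin d))) :=
    Integrable.of_bound (hmm.comp (by fun_prop)).aestronglyMeasurable B
      (ae_of_all _ fun p => hmb _)
  have key : (∫ x, ∫ y, m y * joint V η x y) = ∫ x, ∫ y, ψ x * joint V η x y := by
    rw [integral_integral_swap i1, integral_integral_swap i2]
    refine integral_congr_ae (ae_of_all _ fun y => ?_)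
    simp only [integral_const_mul]
    exact oracleMean_mul_mass hV hη hη' ψ y
  have hL : ∫ y, m y ∂noisyGibbs V η =
      (∫ x, exp (-V x))⁻¹ * (C * ∫ x, ∫ y, m y * joint V η x y) := by
    rw [noisyGibbs, integral_map (by fun_prop) hmm.aestronglyMeasurable, integral_prod _ iN,
      integral_gibbs hV, smul_eq_mul, ← integral_const_mul C]
    congr 1
    refine integral_congr_ae (ae_of_all _ fun x => ?_)
    simp only [smul_eq_mul]
    exact blur_integral hη V m x
  have hR : ∫ x, ψ x ∂gibbs V =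
      (∫ x, exp (-V x))⁻¹ * (C * ∫ x, ∫ y, ψ x * joint V η x y) := by
    rw [integral_gibbs hV, smul_eq_mul, ← integral_const_mul C]
    congr 1
    refine integral_congr_ae (ae_of_all _ fun x => ?_)
    have h := blur_integral hη V (fun _ => ψ x) x
    simp only [integral_const, probReal_univ, one_smul] at h
    simpa [smul_eq_mul] using h
  rw [hL, hR, key]

end Vale.Agent.P347
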