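import Vale.Agent.P347.FlowWeak
import Vale.Agent.P347.Kernel
import Vale.Agent.P347.Est
import Vale.Agent.P347.Mean

/-!
P347: total variation of a tilted Gaussian law from the Gaussian law, the error of the output step,
and the action of the steps on bounded measurable functions.
-/

open MeasureTheory ProbabilityTheory WithLp Real Set Filter
open scoped RealInnerProductSpace Topology BoundedContinuousFunction

namespace Vale.Agent.P347

variable {d : ℕ}

/-- The logarithmic lower bound behind the entropy inequality. -/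
lemma two_mul_sq_div_le_mul_log {q : ℝ} (hq : 0 < q) :
    2 * (q - 1) ^ 2 / (q + 1) ≤ (q - 1) * log q := by
  rcases le_total 1 q with h | h
  · have h1 := le_log_one_add_of_nonneg (x := q - 1) (by linarith)
    rw [show 1 + (q - 1) = q by ring, show q - 1 + 2 = q + 1 by ring] at h1
    have h2 := mul_le_mul_of_nonneg_left h1 (show 0 ≤ q - 1 by linarith)
    refine (le_of_eq ?_).trans h2
    ring
  · have hi : 1 ≤ q⁻¹ := (one_le_inv₀ hq).2 h
    have h1 := le_log_one_add_of_nonneg (x := q⁻¹ - 1) (by linarith)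
    rw [show 1 + (q⁻¹ - 1) = q⁻¹ by ring, Real.log_inv] at h1
    have h3 : 2 * (q⁻¹ - 1) / (q⁻¹ - 1 + 2) = 2 * (1 - q) / (q + 1) := by
      field_simp; ring
    rw [h3] at h1
    have h2 := mul_le_mul_of_nonneg_left h1 (show 0 ≤ 1 - q by linarith)
    refine (le_of_eq ?_).trans (h2.trans (le_of_eq ?_)) <;> ring

namespace Pot

variable {δ r0 : ℝ} {R : E d → ℝ} {g : E d → E d}

lemma test_self (h : Pot d δ r0 R g) : Test R (δ + r0) where
  smooth := h.smoothR
  bound x := by
    rw [h.fderivR x, innerSL_apply_norm]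
    have := h.norm_le x
    nlinarith [h.pos, mul_nonneg h.r0_nonneg (norm_nonneg x)]

lemma driftSize_sq_le (z : E d) :
    driftSize δ r0 z ^ 2 ≤ 2 * δ ^ 2 * ‖z‖ ^ 2 + 2 * (δ * √d + r0) ^ 2 := by
  unfold driftSize
  nlinarith [sq_nonneg (δ * ‖z‖ - (δ * √d + r0))]

lemma abs_comp_eul_sub_le (h : Pot d δ r0 R g) (hd : 0 < d) (N : ℕ) (z : E d) :
    |R (eul R g N 0 N z) - R z| ≤ 4 * driftSize δ r0 z ^ 2 * 3 := by
  set K := driftSize δ r0 z with hK
  have hK0 : 0 ≤ K := driftSize_nonneg h z
  set w := eul R g N 0 N z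
  have hw : ‖w - z‖ ≤ 3 * K := by
    refine (h.norm_eul_sub_le hd N 0 (j := N) (by omega) z).trans ?_
    have := (grid_mem (le_refl N)).2
    nlinarith
  have hball : w ∈ Metric.closedBall z (3 * K) := by
    rw [Metric.mem_closedBall, dist_eq_norm]; exact hw
  have hz : z ∈ Metric.closedBall z (3 * K) := Metric.mem_closedBall_self (by positivity)
  have := (convex_closedBall z (3 * K)).norm_image_sub_le_of_norm_fderiv_le (𝕜 := ℝ) (f := R)
    (C := 4 * K) (fun y _ => (h.hasGrad y).differentiableAt) (fun y hy => by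
      rw [h.fderivR y, innerSL_apply_norm]
      rw [Metric.mem_closedBall, dist_eq_norm] at hy
      refine (h.norm_le y).trans ?_
      have h1 := mul_le_mul_of_nonneg_left (norm_le_norm_add_norm_sub' y z) h.pos.le
      have h2 := mul_le_mul h.le_eighth hy (norm_nonneg _) (by norm_num)
      have h3 : δ * ‖z‖ + r0 ≤ K := by
        rw [hK, driftSize]
        linarith [mul_nonneg h.pos.le (sqrt_nonneg (d : ℝ))]
      linarith) hz hball
  rw [← norm_eq_abs]
  refine this.trans ?_
  nlinarith [mul_le_mul_of_nonneg_left hw (show 0 ≤ 4 * K by linarith)]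

/-- The relative entropy of the tilted law, up to symmetrisation, is of second order. -/
lemma integral_gau_sub_tilt_le (h : Pot d δ r0 R g) (hd : 0 < d) :
    |(∫ x, R x ∂gau (Fin d)) - ∫ x, R x ∂tilt R| ≤ 48 * (δ * √d + r0) ^ 2 := by
  have hlim := h.tendsto_eul hd h.test_self
  have iR : Integrable R (gau (Fin d)) :=
    integrable_gau_of_poly h.contR (|R 0| + (δ + r0)) 2 h.test_self.growth
  have i2 : Integrable (fun z : E d => ‖z‖ ^ 2) (gau (Fin d)) :=
    integrable_gau_of_poly (by fun_prop) 1 2 fun x => by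
      rw [norm_pow, norm_norm]; nlinarith [norm_nonneg x]
  have iK : Integrable
      (fun z : E d => 4 * (2 * δ ^ 2 * ‖z‖ ^ 2 + 2 * (δ * √d + r0) ^ 2) * 3) (gau (Fin d)) :=
    (((i2.const_mul _).add (integrable_const _)).const_mul _).mul_const _
  refine le_of_tendsto ((tendsto_const_nhds.sub hlim).abs) (Filter.Eventually.of_forall fun N => ?_)
  have hb : ∀ z, |R z - R (eul R g N 0 N z)|
      ≤ 4 * (2 * δ ^ 2 * ‖z‖ ^ 2 + 2 * (δ * √d + r0) ^ 2) * 3 := fun z => by
    rw [abs_sub_comm]
    refine (h.abs_comp_eul_sub_le hd N z).trans ?_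
    have := driftSize_sq_le (δ := δ) (r0 := r0) z
    linarith
  have id : Integrable (fun z => R z - R (eul R g N 0 N z)) (gau (Fin d)) := by
    refine iK.mono' ?_ (ae_of_all _ fun z => by rw [norm_eq_abs]; exact hb z)
    have hc := h.continuous_eul (show 0 + N ≤ N by omega)
    have := h.contR
    exact (h.contR.sub (h.contR.comp hc)).aestronglyMeasurable
  have ie : Integrable (fun z => R (eul R g N 0 N z)) (gau (Fin d)) :=
    (iR.sub id).congr (ae_of_all _ fun z => by simp)
  rw [← integral_sub iR ie]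
  refine abs_integral_le_integral_abs.trans ?_
  refine (integral_mono id.abs iK hb).trans ?_
  rw [integral_mul_const, integral_const_mul, integral_add (i2.const_mul _) (integrable_const _),
    integral_const_mul, integral_gau_norm_sq, Fintype.card_fin, integral_const, probReal_univ,
    one_smul]
  have := sq_sqrt (Nat.cast_nonneg (α := ℝ) d)
  have hle : (δ * √d) ^ 2 ≤ (δ * √d + r0) ^ 2 :=
    pow_le_pow_left₀ (mul_nonneg h.pos.le (sqrt_nonneg _)) (by linarith [h.r0_nonneg]) 2
  rw [mul_pow, this] at hle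
  linarith

end Pot

/-- A tilted Gaussian law is within `7 (δ √d + r0)` of the Gaussian law in total variation. -/
theorem tilt_tv {δ r0 : ℝ} {R : E d → ℝ} {g : E d → E d} (h : Pot d δ r0 R g) (hd : 0 < d)
    {f : E d → ℝ} (hf : Measurable f) (hf1 : ∀ x, |f x| ≤ 1) :
    |(∫ x, f x ∂tilt R) - ∫ x, f x ∂gau (Fin d)| ≤ 7 * (δ * √d + r0) := by
  set K := δ * √d + r0
  have hK : 0 < K := by
    have : 0 < √(d : ℝ) := sqrt_pos.2 (by exact_mod_cast hd)
    have := h.r0_nonneg
    have := h.pos
    positivity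
  set Z := ∫ x, exp (-R x) ∂gau (Fin d)
  have hZ : 0 < Z := h.mass_pos
  set q : E d → ℝ := fun x => Z⁻¹ * exp (-R x)
  have hq : ∀ x, 0 < q x := fun x => by positivity
  have iq : Integrable q (gau (Fin d)) := h.integrable_exp.const_mul _
  have hq1 : ∫ x, q x ∂gau (Fin d) = 1 := by
    simp only [q]; rw [integral_const_mul]; exact inv_mul_cancel₀ hZ.ne'
  have iqR : Integrable (fun x => exp (-R x) • R x) (gau (Fin d)) :=
    h.integrable_smul_exp h.contR _ 2 h.test_self.growth
  have iR : Integrable R (gau (Fin d)) :=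
    integrable_gau_of_poly h.contR _ 2 h.test_self.growth
  have ht : ∀ φ : E d → ℝ, ∫ x, φ x ∂tilt R = ∫ x, q x * φ x ∂gau (Fin d) := fun φ => by
    rw [h.integral_tilt, smul_eq_mul, ← integral_const_mul]
    simp only [q, smul_eq_mul, mul_assoc, Z]
  have heq : ∀ x, (q x - 1) * log (q x)
      = R x - q x * R x - log Z * (q x - 1) := fun x => by
    simp only [q]
    rw [log_mul (inv_ne_zero hZ.ne') (exp_pos _).ne', log_inv, log_exp]
    ring
  have iqR' : Integrable (fun x => q x * R x) (gau (Fin d)) :=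
    (iqR.const_mul Z⁻¹).congr (ae_of_all _ fun x => by simp [q, mul_assoc])
  have iL : Integrable (fun x => (q x - 1) * log (q x)) (gau (Fin d)) := by
    simp only [heq]
    exact (iR.sub iqR').sub ((iq.sub (integrable_const _)).const_mul _)
  have hD : ∫ x, (q x - 1) * log (q x) ∂gau (Fin d) ≤ 48 * K ^ 2 := by
    refine le_trans ?_ ((le_abs_self _).trans (h.integral_gau_sub_tilt_le hd))
    have iA : Integrable (fun x => R x - q x * R x) (gau (Fin d)) := iR.sub iqR'
    have iB : Integrable (fun x => log Z * (q x - 1)) (gau (Fin d)) :=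
      (iq.sub (integrable_const 1)).const_mul _
    rw [integral_congr_ae (ae_of_all _ heq), integral_sub iA iB,
      integral_sub iR iqR', integral_const_mul,
      integral_sub iq (integrable_const _), hq1, ← ht]
    simp
  set a := (7 * K)⁻¹ with ha
  have ha0 : 0 < a := by positivity
  have hpt : ∀ x, |q x - 1| ≤ a / 2 * ((q x - 1) * log (q x)) + (4 * a)⁻¹ * (q x + 1) := fun x => by
    have hs : 0 < q x + 1 := by linarith [hq x]
    have h1 : |q x - 1| ≤ a * ((q x - 1) ^ 2 / (q x + 1)) + (4 * a)⁻¹ * (q x + 1) := by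
      rw [← sq_abs (q x - 1)]
      have e : a * (|q x - 1| ^ 2 / (q x + 1)) + (4 * a)⁻¹ * (q x + 1) - |q x - 1|
          = (2 * a * |q x - 1| - (q x + 1)) ^ 2 / (4 * a * (q x + 1)) := by
        field_simp; ring
      have h0 : 0 ≤ (2 * a * |q x - 1| - (q x + 1)) ^ 2 / (4 * a * (q x + 1)) := by positivity
      linarith
    have h2 := mul_le_mul_of_nonneg_left (two_mul_sq_div_le_mul_log (hq x)) ha0.le
    rw [show a * (2 * (q x - 1) ^ 2 / (q x + 1)) = 2 * (a * ((q x - 1) ^ 2 / (q x + 1))) by ring]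
      at h2
    linarith
  have iqf : Integrable (fun x => q x * f x) (gau (Fin d)) :=
    iq.mul_bdd (c := 1) hf.aestronglyMeasurable (ae_of_all _ fun x => hf1 x)
  have if' : Integrable f (gau (Fin d)) :=
    Integrable.of_bound hf.aestronglyMeasurable 1 (ae_of_all _ fun x => hf1 x)
  rw [ht, ← integral_sub iqf if']
  refine abs_integral_le_integral_abs.trans ?_
  refine (integral_mono_of_nonneg (ae_of_all _ fun x => abs_nonneg _)
    ((iL.const_mul (a / 2)).add ((iq.add (integrable_const 1)).const_mul (4 * a)⁻¹))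
    (ae_of_all _ fun x => ?_)).trans ?_
  · simp only [Pi.add_apply]
    refine le_trans ?_ (hpt x)
    rw [show q x * f x - f x = (q x - 1) * f x by ring, abs_mul]
    exact mul_le_of_le_one_right (abs_nonneg _) (hf1 x)
  have iC : Integrable (fun x => (4 * a)⁻¹ * (q x + 1)) (gau (Fin d)) :=
    (iq.add (integrable_const 1)).const_mul _
  simp only [Pi.add_apply]
  rw [integral_add (iL.const_mul _) iC, integral_const_mul, integral_const_mul]
  rw [integral_add iq (integrable_const 1), hq1, integral_const, probReal_univ, one_smul]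
  have h3 := mul_le_mul_of_nonneg_left hD (show 0 ≤ a / 2 by positivity)
  have h4 : a / 2 * (48 * K ^ 2) = 24 / 7 * K := by
    rw [ha]; field_simp; ring
  have h5 : (4 * a)⁻¹ * (1 + 1) = 7 / 2 * K := by
    rw [ha]; field_simp; ring
  linarith

/-- A bound on bounded continuous functions passes to bounded measurable functions. -/
lemma abs_integral_sub_le_of_continuous {μ ν : Measure (E d)} [IsFiniteMeasure μ]
    [IsFiniteMeasure ν] {c : ℝ}
    (hc : ∀ φ : E d → ℝ, Continuous φ → (∀ x, |φ x| ≤ 1) →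
      |(∫ x, φ x ∂μ) - ∫ x, φ x ∂ν| ≤ c)
    {f : E d → ℝ} (hf : Measurable f) (hf1 : ∀ x, |f x| ≤ 1) :
    |(∫ x, f x ∂μ) - ∫ x, f x ∂ν| ≤ c := by
  refine le_of_forall_pos_le_add fun ε hε => ?_
  obtain ⟨G, hG, -⟩ := (Integrable.of_bound (μ := μ + ν) hf.aestronglyMeasurable 1
    (ae_of_all _ fun x => hf1 x)).exists_boundedContinuous_integral_sub_le hε
  set φ : E d → ℝ := fun x => max (-1) (min 1 (G x))
  have hφ : Continuous φ := by have := G.continuous; fun_prop
  have hφ1 : ∀ x, |φ x| ≤ 1 := fun x => by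
    rw [abs_le]
    exact ⟨le_max_left _ _, max_le (by norm_num) (min_le_left _ _)⟩
  have hle : ∀ x, |f x - φ x| ≤ ‖f x - G x‖ := fun x => by
    rw [norm_eq_abs]
    have e : f x = max (-1) (min 1 (f x)) := by
      rw [min_eq_right (abs_le.1 (hf1 x)).2, max_eq_right (abs_le.1 (hf1 x)).1]
    conv_lhs => rw [e]
    simp only [φ]
    exact (abs_max_sub_max_le_max _ _ _ _).trans (by
      rw [sub_self, abs_zero, max_eq_right (abs_nonneg _)]
      refine (abs_min_sub_min_le_max _ _ _ _).trans ?_
      rw [sub_self, abs_zero, max_eq_right (abs_nonneg _)])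
  have hif : ∀ m : Measure (E d), IsFiniteMeasure m → Integrable f m := fun m _ =>
    Integrable.of_bound hf.aestronglyMeasurable 1 (ae_of_all _ fun x => hf1 x)
  have hiφ : ∀ m : Measure (E d), IsFiniteMeasure m → Integrable φ m := fun m _ =>
    Integrable.of_bound hφ.aestronglyMeasurable 1 (ae_of_all _ fun x => hφ1 x)
  have hiA : ∀ m : Measure (E d), IsFiniteMeasure m → Integrable (fun x => |f x - φ x|) m :=
    fun m hm => ((hif m hm).sub (hiφ m hm)).abs
  have hbd : ∀ m : Measure (E d), IsFiniteMeasure m →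
      |(∫ x, f x ∂m) - ∫ x, φ x ∂m| ≤ ∫ x, |f x - φ x| ∂m := fun m hm => by
    rw [← integral_sub (hif m hm) (hiφ m hm)]
    exact abs_integral_le_integral_abs
  have hsum : (∫ x, |f x - φ x| ∂μ) + ∫ x, |f x - φ x| ∂ν ≤ ε := by
    rw [← integral_add_measure (hiA μ ‹_›) (hiA ν ‹_›)]
    refine le_trans (integral_mono (hiA _ inferInstance) ?_ hle) hG
    exact ((hif _ inferInstance).sub (G.integrable _)).norm
  have h1 := abs_le.1 (hbd μ ‹_›)
  have h2 := abs_le.1 (hbd ν ‹_›)
  have h3 := abs_le.1 (hc φ hφ hφ1)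
  rw [abs_le]
  constructor <;> linarith [h1.1, h1.2, h2.1, h2.2, h3.1, h3.2]

/-! ## The steps on bounded measurable functions -/

section steps

variable {N : ℕ} {ε : ℝ} {V : E d → ℝ} {η t : ℝ} {f : E d → ℝ}

/-- The average of `f` over the output step from `y`. -/
noncomputable def outMean (V : E d → ℝ) (η : ℝ) (f : E d → ℝ) (y : E d) : ℝ :=
  ∫ z, f (cen V η y 4 + √(var' η) • z) ∂gau (Fin d)

lemma measurable_outMean (hV : InClass d V) (η : ℝ) (hf : Measurable f) :
    Measurable (outMean V η f) := by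
  have h2 := continuous_cen hV η 4
  exact ((hf.comp (Continuous.measurable (by fun_prop :
    Continuous fun p : E d × E d => cen V η p.1 4 + √(var' η) • p.2))).stronglyMeasurable
    ).integral_prod_right'.measurable

lemma abs_integral_le_one {α : Type*} [MeasurableSpace α] {μ : Measure α} [IsProbabilityMeasure μ]
    {φ : α → ℝ} (hφ : ∀ x, |φ x| ≤ 1) : |∫ x, φ x ∂μ| ≤ 1 := by
  simpa using norm_integral_le_of_norm_le_const (μ := μ) (f := φ) (ae_of_all _ fun x => hφ x)

lemma abs_outMean_le (hf1 : ∀ x, |f x| ≤ 1) (y : E d) : |outMean V η f y| ≤ 1 :=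
  abs_integral_le_one fun _ => hf1 _

lemma isProb_outStep (hV : InClass d V) (η : ℝ) (μ : Measure (E d)) [IsProbabilityMeasure μ] :
    IsProbabilityMeasure (outStep V η μ) := by
  have h2 := continuous_cen hV η 4
  exact Measure.isProbabilityMeasure_map (by fun_prop)

lemma integral_outStep (hV : InClass d V) (η : ℝ) (μ : Measure (E d)) [IsProbabilityMeasure μ]
    (hf : Measurable f) (hf1 : ∀ x, |f x| ≤ 1) :
    ∫ x, f x ∂outStep V η μ = ∫ y, outMean V η f y ∂μ := by
  have h2 := continuous_cen hV η 4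
  have hm : Measurable fun p : E d × E d => cen V η p.1 4 + √(var' η) • p.2 :=
    Continuous.measurable (by fun_prop)
  rw [outStep, integral_map hm.aemeasurable hf.aestronglyMeasurable,
    integral_prod (fun p : E d × E d => f (cen V η p.1 4 + √(var' η) • p.2))
      (Integrable.of_bound (hf.comp hm).aestronglyMeasurable 1 (ae_of_all _ fun p => hf1 _))]
  rfl

lemma measurable_Psm_one (t : ℝ) (hf : Measurable f) : Measurable (Psm t f) :=
  ((hf.comp (Continuous.measurable (by fun_prop :
    Continuous fun p : E d × E d => p.1 + √t • p.2))).stronglyMeasurable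
    ).integral_prod_right'.measurable

lemma abs_Psm_le_one (t : ℝ) (hf1 : ∀ x, |f x| ≤ 1) (x : E d) : |Psm t f x| ≤ 1 :=
  abs_integral_le_one fun _ => hf1 _

end steps

/-- The error of the output step started from the blurred Gibbs law. -/
theorem out_error {V : E d → ℝ} {η : ℝ} (hV : InClass d V) (hd : 0 < d) (hη : 0 < η)
    (hη' : η ≤ 1 / 64) {f : E d → ℝ} (hf : Measurable f) (hf1 : ∀ x, |f x| ≤ 1) :
    |(∫ x, f x ∂outStep V η (noisyGibbs V η)) - ∫ x, f x ∂gibbs V| ≤ 14 * (η * √d) := by
  haveI := isProb_noisyGibbs hV η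
  haveI := isProb_gibbs hV
  haveI := isProb_outStep hV η (noisyGibbs V η)
  refine abs_integral_sub_le_of_continuous (fun φ hφ hφ1 => ?_) hf hf1
  set ν := noisyGibbs V η
  have hs := var'_pos hη
  have hs1 := var'_le hη
  have iA : Integrable (outMean V η φ) ν :=
    Integrable.of_bound (measurable_outMean hV η hφ.measurable).aestronglyMeasurable 1
      (ae_of_all _ fun y => abs_outMean_le hφ1 y)
  have iB : Integrable (oracleMean V η φ) ν :=
    Integrable.of_bound (measurable_oracleMean hV hη hη' hφ).aestronglyMeasurable 1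
      (ae_of_all _ fun y => abs_oracleMean_le hV hη hη' hφ1 y)
  have hsd : 0 < √(d : ℝ) := sqrt_pos.2 (by exact_mod_cast hd)
  have i2 := integrable_norm_sq_noisyGibbs hV η
  have hpt : ∀ y, |outMean V η φ y - oracleMean V η φ y|
      ≤ 7 * η * √d + 7 * η / (2 * √d) * ‖y‖ ^ 2 := fun y => by
    have hm : Measurable fun z : E d => φ (cen V η y 4 + √(var' η) • z) :=
      Continuous.measurable (by fun_prop)
    have h1 := tilt_tv (pot_unit hV hη hη' y) hd hm (fun z => hφ1 _)
    rw [abs_sub_comm] at h1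
    refine h1.trans ?_
    have h2 : √(var' η) * (var' η / 2) ^ 4 ≤ η := by
      have ha : √(var' η) ≤ 1 := sqrt_le_one.2 (by linarith)
      have hb : (var' η / 2) ^ 4 ≤ var' η / 2 :=
        pow_le_of_le_one (by linarith) (by linarith) (by norm_num)
      calc √(var' η) * (var' η / 2) ^ 4 ≤ 1 * (var' η / 2) :=
            mul_le_mul ha hb (by positivity) zero_le_one
        _ ≤ η := by linarith
    have h3 := mul_le_mul_of_nonneg_right h2 (norm_nonneg y)
    have h4 : var' η / 2 * √d ≤ η / 2 * √d := mul_le_mul_of_nonneg_right (by linarith) hsd.le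
    have h5 : ‖y‖ ≤ √d / 2 + ‖y‖ ^ 2 / (2 * √d) := by
      have e : √d / 2 + ‖y‖ ^ 2 / (2 * √d) - ‖y‖ = (√d - ‖y‖) ^ 2 / (2 * √d) := by
        field_simp; ring
      have : 0 ≤ (√d - ‖y‖) ^ 2 / (2 * √d) := by positivity
      linarith
    have h6 := mul_le_mul_of_nonneg_left h5 hη.le
    rw [show 7 * η / (2 * √d) * ‖y‖ ^ 2 = 7 * (η * (‖y‖ ^ 2 / (2 * √d))) by ring]
    nlinarith
  rw [integral_outStep hV η ν hφ.measurable hφ1, ← gibbs_disintegration hV hη hη' hφ hφ1]
  change |(∫ y, outMean V η φ y ∂ν) - ∫ y, oracleMean V η φ y ∂ν| ≤ _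
  rw [← integral_sub iA iB]
  refine abs_integral_le_integral_abs.trans ?_
  refine (integral_mono (iA.sub iB).abs ((integrable_const _).add (i2.const_mul _)) hpt).trans ?_
  simp only [Pi.add_apply]
  rw [integral_add (integrable_const _) (i2.const_mul _), integral_const, probReal_univ, one_smul,
    integral_const_mul]
  have h7 := mul_le_mul_of_nonneg_left (integral_norm_sq_noisyGibbs_le hV hη hη')
    (show 0 ≤ 7 * η / (2 * √(d : ℝ)) by positivity)
  have h8 : 7 * η / (2 * √(d : ℝ)) * (2 * d) = 7 * η * √d := by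
    field_simp
    rw [sq_sqrt (Nat.cast_nonneg d)]
  change 7 * η * √d + 7 * η / (2 * √d) * ∫ y, ‖y‖ ^ 2 ∂noisyGibbs V η ≤ _
  linarith

end Vale.Agent.P347
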