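import Vale.Agent.P347.Defs
import Vale.Agent.P347.Shortcuts

/-!
P347: asymptotics for the choice of parameters, and passage to the dimension exponent.
-/

open MeasureTheory Real Filter
open scoped Topology

namespace Vale.Agent.P347

/-- A power of the logarithm loses against a negative power. -/
lemma tendsto_log_rpow_mul_rpow_neg (k : ℝ) {b : ℝ} (hb : 0 < b) :
    Tendsto (fun x : ℝ => log x ^ k * x ^ (-b)) atTop (𝓝 0) := by
  have h := (isLittleO_log_rpow_rpow_atTop k hb).tendsto_div_nhds_zero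
  refine h.congr' ?_
  filter_upwards [eventually_gt_atTop 0] with x hx
  rw [rpow_neg hx.le, div_eq_mul_inv]

/-- The same along the dimensions, with a natural exponent and a constant. -/
lemma eventually_const_log_pow_mul_rpow_neg_le (c : ℝ) (k : ℕ) {b ρ : ℝ} (hb : 0 < b)
    (hρ : 0 < ρ) :
    ∀ᶠ d : ℕ in atTop, c * (log d ^ k * (d : ℝ) ^ (-b)) ≤ ρ := by
  have h := ((tendsto_log_rpow_mul_rpow_neg (k : ℝ) hb).comp
    tendsto_natCast_atTop_atTop).const_mul c
  rw [mul_zero] at h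
  filter_upwards [h.eventually_le_const hρ] with d hd
  simpa only [Function.comp_apply, rpow_natCast] using hd

/-- A power of the logarithm is below every positive power. -/
lemma eventually_log_pow_le_rpow (k : ℕ) {b : ℝ} (hb : 0 < b) :
    ∀ᶠ d : ℕ in atTop, log d ^ k ≤ (d : ℝ) ^ b := by
  filter_upwards [eventually_const_log_pow_mul_rpow_neg_le 1 k hb one_pos,
    eventually_gt_atTop 0] with d hd hd0
  have hd' : (0 : ℝ) < d := by exact_mod_cast hd0
  rw [one_mul, rpow_neg hd'.le, ← div_eq_mul_inv, div_le_one (rpow_pos_of_pos hd' _)] at hd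
  exact hd

/-- The number of steps after which a contraction by `1 - η/2` has decayed to `d ^ (-m)`. -/
noncomputable def stepCount (m : ℝ) (d : ℕ) (η : ℝ) : ℕ := ⌈2 * m * log d / η⌉₊ + 1

lemma one_le_stepCount (m : ℝ) (d : ℕ) (η : ℝ) : 1 ≤ stepCount m d η := Nat.le_add_left 1 _

lemma pow_stepCount_le {m η : ℝ} {d : ℕ} (hd : 0 < d) (hη : 0 < η) (hη' : η ≤ 1) :
    (1 - η / 2) ^ (stepCount m d η - 1) ≤ (d : ℝ) ^ (-m) := by
  have hd' : (0 : ℝ) < d := by exact_mod_cast hd
  have h1 : (0 : ℝ) ≤ 1 - η / 2 := by linarith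
  have h2 : 1 - η / 2 ≤ exp (-(η / 2)) := by linarith [add_one_le_exp (-(η / 2))]
  rw [stepCount, Nat.add_sub_cancel]
  refine (pow_le_pow_left₀ h1 h2 _).trans ?_
  rw [← Real.exp_nat_mul, rpow_def_of_pos hd']
  apply Real.exp_le_exp.2
  have h3 := mul_le_mul_of_nonneg_right (Nat.le_ceil (2 * m * log d / η))
    (show 0 ≤ η / 2 by linarith)
  have h4 : 2 * m * log d / η * (η / 2) = log d * m := by field_simp
  linarith

lemma stepCount_le {m η : ℝ} {d : ℕ} (hm : 0 ≤ m) (hη : 0 < η) :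
    (stepCount m d η : ℝ) ≤ 2 * m * log d / η + 2 := by
  rw [stepCount]
  push_cast
  linarith [Nat.ceil_lt_add_one (show 0 ≤ 2 * m * log d / η from
    div_nonneg (mul_nonneg (by linarith) (log_natCast_nonneg d)) hη.le)]

/-- The least budget is below the budget of any algorithm that solves the problem. -/
lemma Q_le {d q : ℕ} (h : ∃ A : Alg d q (E d), Solves A) : Q d ≤ q := Nat.sInf_le h

/-- Upper bounds `d ^ (a + ε)` on the budget bound the dimension exponent by `a`. -/
theorem exponent_le {a : ℝ} (ha : 0 ≤ a)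
    (h : ∀ ε : ℝ, 0 < ε → ∃ C : ℝ, ∀ᶠ d : ℕ in atTop,
      ∃ q : ℕ, (q : ℝ) ≤ C * (d : ℝ) ^ (a + ε) ∧ ∃ A : Alg d q (E d), Solves A) :
    limsup (fun d : ℕ => log (Q d) / log d) atTop ≤ a := by
  have h0 : IsCoboundedUnder (· ≤ ·) atTop fun d : ℕ => log (Q d) / log d :=
    isCoboundedUnder_le_of_le atTop (x := 0) fun d =>
      div_nonneg (log_natCast_nonneg _) (log_natCast_nonneg _)
  refine le_of_forall_pos_le_add fun ε hε => limsup_le_of_le h0 ?_
  obtain ⟨C, hC⟩ := h (ε / 2) (by linarith)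
  have hlog : Tendsto (fun d : ℕ => log (max C 1) / log d) atTop (𝓝 0) :=
    tendsto_const_nhds.div_atTop (tendsto_log_atTop.comp tendsto_natCast_atTop_atTop)
  filter_upwards [hC, eventually_gt_atTop 1,
    hlog.eventually_le_const (show 0 < ε / 2 by linarith)] with d hd hd1 hl
  obtain ⟨q, hq, hA⟩ := hd
  have hd' : (1 : ℝ) < d := by exact_mod_cast hd1
  have hld : 0 < log (d : ℝ) := log_pos hd'
  rw [div_le_iff₀ hld]
  have hC1 : (1 : ℝ) ≤ max C 1 := le_max_right _ _
  have hb : log (max C 1 * (d : ℝ) ^ (a + ε / 2)) ≤ (a + ε) * log d := by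
    rw [log_mul (by linarith) (rpow_pos_of_pos (by linarith) _).ne', log_rpow (by linarith)]
    rw [div_le_iff₀ hld] at hl
    linarith
  refine le_trans ?_ hb
  rcases Nat.eq_zero_or_pos (Q d) with hQ | hQ
  · rw [hQ, Nat.cast_zero, log_zero]
    exact log_nonneg (one_le_mul_of_one_le_of_one_le hC1
      (one_le_rpow hd'.le (by linarith)))
  · refine log_le_log (by exact_mod_cast hQ) ?_
    calc (Q d : ℝ) ≤ q := by exact_mod_cast Q_le hA
      _ ≤ C * (d : ℝ) ^ (a + ε / 2) := hq
      _ ≤ max C 1 * (d : ℝ) ^ (a + ε / 2) :=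
        mul_le_mul_of_nonneg_right (le_max_left _ _) (rpow_nonneg (by linarith) _)

/-! ## The step sizes `d ^ (-a)` -/

/-- The step size `d ^ (-a)`. -/
noncomputable def etaOf (a : ℝ) (d : ℕ) : ℝ := (d : ℝ) ^ (-a)

lemma etaOf_pos (a : ℝ) {d : ℕ} (hd : 0 < d) : 0 < etaOf a d :=
  rpow_pos_of_pos (by exact_mod_cast hd) _

/-- A positive step exponent makes the step sizes small. -/
lemma eventually_etaOf {a c : ℝ} (ha : 0 < a) (hc : 0 < c) :
    ∀ᶠ d : ℕ in atTop, 0 < etaOf a d ∧ etaOf a d ≤ c := by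
  have h := ((tendsto_rpow_neg_atTop ha).comp tendsto_natCast_atTop_atTop).eventually_le_const hc
  filter_upwards [h, eventually_gt_atTop 0] with d h1 h2
  exact ⟨etaOf_pos a h2, h1⟩

end Vale.Agent.P347
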