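import Vale.Agent.P347.Defs
import Vale.Agent.P347.Shortcuts

/-!
Quadrature in the correlation parameter of the Ornstein–Uhlenbeck operator: a combination of the
operators whose symbol is small on every monomial is small on `L²` of the Gaussian law.
-/

noncomputable section

namespace Vale.Agent.P347

open MeasureTheory ProbabilityTheory WithLp Filter
open scoped RealInnerProductSpace ComplexConjugate Topology NNReal

namespace Quad

variable {ι : Type*} [Fintype ι]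

/-- The correlated combination of a pair. -/
def mix (ρ : ℝ) (p : EuclideanSpace ℝ ι × EuclideanSpace ℝ ι) : EuclideanSpace ℝ ι :=
  ρ • p.1 + √(1 - ρ ^ 2) • p.2

theorem continuous_mix (ρ : ℝ) : Continuous (mix (ι := ι) ρ) := by
  unfold mix; fun_prop

theorem sq_le_one_of_mem {ρ : ℝ} (h : ρ ∈ Set.Icc (0 : ℝ) 1) : ρ ^ 2 ≤ 1 :=
  pow_le_one₀ h.1 h.2

theorem map_mix {ρ : ℝ} (h : ρ ^ 2 ≤ 1) :
    ((gau ι).prod (gau ι)).map (mix ρ) = gau ι := by
  have e : mix (ι := ι) ρ =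
      (fun p => p.1 + p.2) ∘ Prod.map (ρ • ·) (√(1 - ρ ^ 2) • ·) := rfl
  have m1 : Measurable (fun x : EuclideanSpace ℝ ι => ρ • x) := by fun_prop
  have m2 : Measurable (fun x : EuclideanSpace ℝ ι => √(1 - ρ ^ 2) • x) := by fun_prop
  have := Measure.isProbabilityMeasure_map (μ := gau ι) m1.aemeasurable
  have := Measure.isProbabilityMeasure_map (μ := gau ι) m2.aemeasurable
  apply Measure.ext_of_charFun
  ext t
  rw [e, ← Measure.map_map (by fun_prop) (m1.prodMap m2), ← Measure.map_prod_map _ _ m1 m2,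
    charFun_map_add_prod_eq_mul, Pi.mul_apply, charFun_map_smul, charFun_map_smul]
  simp only [charFun_stdGaussian, ← Complex.ofReal_pow, norm_smul, mul_pow, Real.norm_eq_abs,
    sq_abs, Real.sq_sqrt (sub_nonneg.2 h)]
  rw [← Complex.exp_add]
  congr 1
  push_cast
  ring

theorem ou_eq {F : Type*} [NormedAddCommGroup F] [NormedSpace ℝ F] (ρ : ℝ)
    (f : EuclideanSpace ℝ ι → F) (x : EuclideanSpace ℝ ι) :
    ou ρ f x = ∫ w, f (mix ρ (x, w)) ∂gau ι := rfl

theorem aesm_comp_mix {F : Type*} [TopologicalSpace F] {ρ : ℝ} (h : ρ ^ 2 ≤ 1)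
    {f : EuclideanSpace ℝ ι → F} (hf : AEStronglyMeasurable f (gau ι)) :
    AEStronglyMeasurable (fun p => f (mix ρ p)) ((gau ι).prod (gau ι)) := by
  rw [← map_mix h] at hf
  exact hf.comp_aemeasurable (continuous_mix ρ).measurable.aemeasurable

theorem integrable_comp_mix {F : Type*} [NormedAddCommGroup F] {ρ : ℝ} (h : ρ ^ 2 ≤ 1)
    {f : EuclideanSpace ℝ ι → F} (hf : Integrable f (gau ι)) :
    Integrable (fun p => f (mix ρ p)) ((gau ι).prod (gau ι)) := by
  rw [← map_mix h] at hf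
  exact (integrable_map_measure hf.1 (continuous_mix ρ).measurable.aemeasurable).1 hf

theorem ae_integrable_slice {F : Type*} [NormedAddCommGroup F] {ρ : ℝ} (h : ρ ^ 2 ≤ 1)
    {f : EuclideanSpace ℝ ι → F} (hf : Integrable f (gau ι)) :
    ∀ᵐ x ∂gau ι, Integrable (fun w => f (mix ρ (x, w))) (gau ι) :=
  (integrable_comp_mix h hf).prod_right_ae

/-- Jensen for the squared norm. -/
theorem norm_sq_integral_le {α F : Type*} [MeasurableSpace α] {μ : Measure α}
    [IsProbabilityMeasure μ] [NormedAddCommGroup F] [NormedSpace ℝ F] {g : α → F}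
    (hg : Integrable g μ) (hg2 : Integrable (fun a => ‖g a‖ ^ 2) μ) :
    ‖∫ a, g a ∂μ‖ ^ 2 ≤ ∫ a, ‖g a‖ ^ 2 ∂μ := by
  set m := ∫ a, ‖g a‖ ∂μ with hm
  have h2 : Integrable (fun a => 2 * m * ‖g a‖) μ := hg.norm.const_mul _
  have h0 : 0 ≤ ∫ a, (‖g a‖ ^ 2 - 2 * m * ‖g a‖ + m ^ 2) ∂μ :=
    integral_nonneg fun a => by
      simp only [Pi.zero_apply]
      nlinarith [sq_nonneg (‖g a‖ - m)]
  have e1 : ∫ a, (‖g a‖ ^ 2 - 2 * m * ‖g a‖ + m ^ 2) ∂μ =
      (∫ a, ‖g a‖ ^ 2 ∂μ) - 2 * m * m + m ^ 2 := by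
    have i1 := hg2.sub h2
    simp only [Pi.sub_def] at i1
    rw [integral_add i1 (integrable_const _), integral_sub hg2 h2, integral_const_mul,
      integral_const, probReal_univ, one_smul, ← hm]
  have h1 : ‖∫ a, g a ∂μ‖ ≤ m := norm_integral_le_integral_norm g
  calc ‖∫ a, g a ∂μ‖ ^ 2 ≤ m ^ 2 := pow_le_pow_left₀ (norm_nonneg _) h1 2
    _ ≤ _ := by nlinarith

section Contraction

variable {F : Type*} [NormedAddCommGroup F] [NormedSpace ℝ F]

omit [NormedSpace ℝ F] in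
theorem integrable_sq_of_memLp {α : Type*} [MeasurableSpace α] {μ : Measure α}
    {f : α → F} (hf : MemLp f 2 μ) : Integrable (fun x => ‖f x‖ ^ 2) μ :=
  (memLp_two_iff_integrable_sq_norm hf.1).1 hf

theorem ou_contract {ρ : ℝ} (h : ρ ^ 2 ≤ 1) {f : EuclideanSpace ℝ ι → F}
    (hf : MemLp f 2 (gau ι)) :
    MemLp (ou ρ f) 2 (gau ι) ∧
      ∫ x, ‖ou ρ f x‖ ^ 2 ∂gau ι ≤ ∫ x, ‖f x‖ ^ 2 ∂gau ι := by
  have hf1 : Integrable f (gau ι) := hf.integrable one_le_two
  have hsq := integrable_sq_of_memLp hf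
  have hH := integrable_comp_mix h hsq
  have hm : AEStronglyMeasurable (ou ρ f) (gau ι) :=
    (aesm_comp_mix h hf.1).integral_prod_right'
  have hbd : ∀ᵐ x ∂gau ι,
      ‖ou ρ f x‖ ^ 2 ≤ ∫ w, ‖f (mix ρ (x, w))‖ ^ 2 ∂gau ι := by
    filter_upwards [ae_integrable_slice h hf1, ae_integrable_slice h hsq] with x h1 h2
    exact norm_sq_integral_le h1 h2
  have hint : Integrable (fun x => ‖ou ρ f x‖ ^ 2) (gau ι) := by
    refine hH.integral_prod_left.mono' (hm.norm.pow 2) ?_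
    filter_upwards [hbd] with x hx
    rw [Real.norm_of_nonneg (sq_nonneg _)]
    exact hx
  refine ⟨(memLp_two_iff_integrable_sq_norm hm).2 hint, ?_⟩
  refine (integral_mono_ae hint hH.integral_prod_left hbd).trans_eq ?_
  rw [← integral_prod _ hH]
  conv_rhs => rw [← map_mix (ι := ι) h]
  rw [integral_map (continuous_mix (ι := ι) ρ).measurable.aemeasurable]
  rw [map_mix h]
  exact hsq.1

/-- A combination of the operators. -/
def combo {κ : Type*} [Fintype κ] (c ρ : κ → ℝ) (f : EuclideanSpace ℝ ι → F)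
    (x : EuclideanSpace ℝ ι) : F :=
  ∑ k, c k • ou (ρ k) f x

theorem combo_contract {κ : Type*} [Fintype κ] (c : κ → ℝ) {ρ : κ → ℝ}
    (h : ∀ k, ρ k ^ 2 ≤ 1) {f : EuclideanSpace ℝ ι → F} (hf : MemLp f 2 (gau ι)) :
    MemLp (combo c ρ f) 2 (gau ι) ∧
      ∫ x, ‖combo c ρ f x‖ ^ 2 ∂gau ι ≤
        (∑ k, c k ^ 2) * Fintype.card κ * ∫ x, ‖f x‖ ^ 2 ∂gau ι := by
  have hm : MemLp (combo c ρ f) 2 (gau ι) :=
    memLp_finsetSum _ fun k _ => (ou_contract (h k) hf).1.const_smul (c k)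
  refine ⟨hm, ?_⟩
  have hk : ∀ k, Integrable (fun x => ‖ou (ρ k) f x‖ ^ 2) (gau ι) := fun k =>
    integrable_sq_of_memLp (ou_contract (h k) hf).1
  have hpt : ∀ x, ‖combo c ρ f x‖ ^ 2 ≤ (∑ k, c k ^ 2) * ∑ k, ‖ou (ρ k) f x‖ ^ 2 := by
    intro x
    have h1 : ‖combo c ρ f x‖ ≤ ∑ k, |c k| * ‖ou (ρ k) f x‖ :=
      (norm_sum_le _ _).trans_eq
        (Finset.sum_congr rfl fun k _ => by rw [norm_smul, Real.norm_eq_abs])
    refine (pow_le_pow_left₀ (norm_nonneg _) h1 2).trans ?_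
    refine (Finset.sum_mul_sq_le_sq_mul_sq _ _ _).trans_eq ?_
    simp [sq_abs]
  refine (integral_mono (integrable_sq_of_memLp hm)
    ((integrable_finsetSum _ fun k _ => hk k).const_mul _) hpt).trans ?_
  rw [integral_const_mul, integral_finsetSum _ fun k _ => hk k, mul_assoc]
  refine mul_le_mul_of_nonneg_left ?_ (Finset.sum_nonneg fun k _ => sq_nonneg _)
  refine (Finset.sum_le_sum fun k _ => (ou_contract (h k) hf).2).trans_eq ?_
  simp

theorem combo_sub {κ : Type*} [Fintype κ] (c : κ → ℝ) {ρ : κ → ℝ}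
    (h : ∀ k, ρ k ^ 2 ≤ 1) {f g : EuclideanSpace ℝ ι → F} (hf : Integrable f (gau ι))
    (hg : Integrable g (gau ι)) :
    combo c ρ (f - g) =ᵐ[gau ι] combo c ρ f - combo c ρ g := by
  filter_upwards [ae_all_iff.2 fun k => ae_integrable_slice (h k) hf,
    ae_all_iff.2 fun k => ae_integrable_slice (h k) hg] with x h1 h2
  simp only [combo, Pi.sub_apply, ← Finset.sum_sub_distrib, ← smul_sub, ou_eq]
  exact Finset.sum_congr rfl fun k _ => by rw [integral_sub (h1 k) (h2 k)]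

end Contraction

section Characters

/-- A normalised character. -/
def ec (a x : EuclideanSpace ℝ ι) : ℂ :=
  Complex.exp (((‖a‖ ^ 2 / 2 : ℝ) : ℂ) + ((⟪x, a⟫ : ℝ) : ℂ) * Complex.I)

theorem norm_ec (a x : EuclideanSpace ℝ ι) : ‖ec a x‖ = Real.exp (‖a‖ ^ 2 / 2) := by
  rw [ec, Complex.norm_exp]
  simp [-Complex.ofReal_pow]

theorem continuous_ec (a : EuclideanSpace ℝ ι) : Continuous (ec a) := by
  unfold ec; fun_prop

theorem memLp_ec (a : EuclideanSpace ℝ ι) : MemLp (ec a) 2 (gau ι) :=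
  MemLp.of_bound (continuous_ec a).aestronglyMeasurable _
    (ae_of_all _ fun x => (norm_ec a x).le)

theorem integral_exp_inner (a : EuclideanSpace ℝ ι) :
    ∫ x, Complex.exp (((⟪x, a⟫ : ℝ) : ℂ) * Complex.I) ∂gau ι =
      Complex.exp (((-(‖a‖ ^ 2 / 2) : ℝ) : ℂ)) := by
  rw [← charFun_apply, charFun_stdGaussian]
  push_cast
  ring_nf

theorem integral_ec_conj (a b : EuclideanSpace ℝ ι) :
    ∫ x, ec a x * conj (ec b x) ∂gau ι = Complex.exp ((⟪a, b⟫ : ℝ) : ℂ) := by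
  have e : ∀ x, ec a x * conj (ec b x) =
      Complex.exp ((((‖a‖ ^ 2 + ‖b‖ ^ 2) / 2 : ℝ) : ℂ)) *
        Complex.exp (((⟪x, a - b⟫ : ℝ) : ℂ) * Complex.I) := by
    intro x
    simp only [ec, ← Complex.exp_conj, ← Complex.exp_add, map_add, map_mul, Complex.conj_ofReal,
      Complex.conj_I, inner_sub_right]
    congr 1
    push_cast
    ring
  simp only [e]
  rw [integral_const_mul, integral_exp_inner, ← Complex.exp_add, norm_sub_sq_real]
  congr 1
  push_cast
  ring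

theorem ou_ec {ρ : ℝ} (h : ρ ^ 2 ≤ 1) (a x : EuclideanSpace ℝ ι) :
    ou ρ (ec a) x = ec (ρ • a) x := by
  have e : ∀ w, ec a (mix ρ (x, w)) =
      Complex.exp (((‖a‖ ^ 2 / 2 : ℝ) : ℂ) + ((⟪x, ρ • a⟫ : ℝ) : ℂ) * Complex.I) *
        Complex.exp (((⟪w, √(1 - ρ ^ 2) • a⟫ : ℝ) : ℂ) * Complex.I) := by
    intro w
    simp only [ec, mix, ← Complex.exp_add, inner_add_left, real_inner_smul_left,
      real_inner_smul_right]
    congr 1
    push_cast
    ring
  rw [ou_eq]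
  simp only [e]
  rw [integral_const_mul, integral_exp_inner, ← Complex.exp_add, ec]
  congr 1
  simp only [norm_smul, mul_pow, Real.norm_eq_abs, sq_abs, Real.sq_sqrt (sub_nonneg.2 h)]
  push_cast
  ring

variable {J : Type*} [Fintype J]

/-- A trigonometric polynomial. -/
def trig (a : J → EuclideanSpace ℝ ι) (z : J → ℂ) (x : EuclideanSpace ℝ ι) : ℂ :=
  ∑ j, z j * ec (a j) x

theorem memLp_trig (a : J → EuclideanSpace ℝ ι) (z : J → ℂ) :
    MemLp (trig a z) 2 (gau ι) :=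
  memLp_finsetSum _ fun j _ => (memLp_ec (a j)).const_mul (z j)

/-- The Gram forms. -/
def gram (n : ℕ) (a : J → EuclideanSpace ℝ ι) (z : J → ℂ) : ℝ :=
  ∑ i : Fin n → ι, ‖∑ j, z j * ((∏ m, a j (i m) : ℝ) : ℂ)‖ ^ 2

theorem gram_eq (n : ℕ) (a : J → EuclideanSpace ℝ ι) (z : J → ℂ) :
    ∑ j, ∑ l, z j * conj (z l) * ((⟪a j, a l⟫ : ℝ) : ℂ) ^ n = (gram n a z : ℂ) := by
  have e : ∀ j l, ((⟪a j, a l⟫ : ℝ) : ℂ) ^ n =
      ∑ i : Fin n → ι, ((∏ m, a j (i m) : ℝ) : ℂ) * ((∏ m, a l (i m) : ℝ) : ℂ) := by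
    intro j l
    have hp : (⟪a j, a l⟫ : ℝ) ^ n = ∑ i : Fin n → ι, (∏ m, a j (i m)) * ∏ m, a l (i m) := by
      rw [show (⟪a j, a l⟫ : ℝ) = ∑ k, a j k * a l k by simp [PiLp.inner_apply, mul_comm],
        Fintype.sum_pow (fun k => a j k * a l k) n]
      simp only [Finset.prod_mul_distrib]
    rw [← Complex.ofReal_pow, hp]
    push_cast
    rfl
  have q : ∀ S : ℂ, (((‖S‖ ^ 2 : ℝ)) : ℂ) = S * conj S := fun S => by
    rw [Complex.mul_conj, Complex.normSq_eq_norm_sq]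
  rw [gram, Complex.ofReal_sum]
  simp only [q, map_sum, Finset.sum_mul_sum]
  conv_rhs => rw [Finset.sum_comm]
  refine Finset.sum_congr rfl fun j _ => ?_
  conv_rhs => rw [Finset.sum_comm]
  refine Finset.sum_congr rfl fun l _ => ?_
  rw [e, Finset.mul_sum]
  refine Finset.sum_congr rfl fun i _ => ?_
  rw [map_mul, Complex.conj_ofReal]
  ring

theorem hasSum_trig (a : J → EuclideanSpace ℝ ι) (z : J → ℂ) :
    HasSum (fun n => gram n a z / (n.factorial : ℝ)) (∫ x, ‖trig a z x‖ ^ 2 ∂gau ι) := by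
  have hi : ∀ j l, Integrable (fun x => z j * conj (z l) * (ec (a j) x * conj (ec (a l) x)))
      (gau ι) := fun j l =>
    Integrable.of_bound (Continuous.aestronglyMeasurable (by
      have := continuous_ec (a j)
      have := continuous_ec (a l)
      fun_prop))
      (‖z j * conj (z l)‖ * (Real.exp (‖a j‖ ^ 2 / 2) * Real.exp (‖a l‖ ^ 2 / 2)))
      (ae_of_all _ fun x => by simp [norm_ec])
  have A : ((∫ x, ‖trig a z x‖ ^ 2 ∂gau ι : ℝ) : ℂ) =
      ∑ j, ∑ l, z j * conj (z l) * Complex.exp ((⟪a j, a l⟫ : ℝ) : ℂ) := by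
    rw [← integral_complex_ofReal]
    have e : ∀ x, (((‖trig a z x‖ ^ 2 : ℝ)) : ℂ) =
        ∑ j, ∑ l, z j * conj (z l) * (ec (a j) x * conj (ec (a l) x)) := by
      intro x
      rw [← Complex.normSq_eq_norm_sq, ← Complex.mul_conj]
      simp only [trig, map_sum, map_mul, Finset.sum_mul_sum]
      exact Finset.sum_congr rfl fun j _ => Finset.sum_congr rfl fun l _ => by ring
    calc _ = ∫ x, ∑ j, ∑ l, z j * conj (z l) * (ec (a j) x * conj (ec (a l) x)) ∂gau ι :=
          integral_congr_ae (ae_of_all _ e)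
      _ = _ := by
          rw [integral_finsetSum _ fun j _ => integrable_finsetSum _ fun l _ => hi j l]
          refine Finset.sum_congr rfl fun j _ => ?_
          rw [integral_finsetSum _ fun l _ => hi j l]
          exact Finset.sum_congr rfl fun l _ => by rw [integral_const_mul, integral_ec_conj]
  rw [← Complex.hasSum_ofReal, A]
  have hexp : ∀ w : ℂ, HasSum (fun n => w ^ n / (n.factorial : ℂ)) (Complex.exp w) := fun w => by
    rw [Complex.exp_eq_exp_ℂ]
    exact NormedSpace.expSeries_div_hasSum_exp w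
  have hs := hasSum_sum (s := Finset.univ) fun j _ => hasSum_sum (s := Finset.univ) fun l _ =>
    (hexp ((⟪a j, a l⟫ : ℝ) : ℂ)).mul_left (z j * conj (z l))
  refine hs.congr_fun fun n => ?_
  rw [Complex.ofReal_div, ← gram_eq, Complex.ofReal_natCast, Finset.sum_div]
  refine Finset.sum_congr rfl fun j _ => ?_
  rw [Finset.sum_div]
  exact Finset.sum_congr rfl fun l _ => by ring

variable {κ : Type*} [Fintype κ]

theorem combo_trig (c : κ → ℝ) {ρ : κ → ℝ} (h : ∀ k, ρ k ^ 2 ≤ 1)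
    (a : J → EuclideanSpace ℝ ι) (z : J → ℂ) :
    combo c ρ (trig a z) =
      trig (fun p : κ × J => ρ p.1 • a p.2) (fun p => (c p.1 : ℂ) * z p.2) := by
  funext x
  rw [combo, trig, Fintype.sum_prod_type]
  refine Finset.sum_congr rfl fun k _ => ?_
  have hi : ∀ j, Integrable (fun w => z j * ec (a j) (mix (ρ k) (x, w))) (gau ι) := fun j =>
    Integrable.of_bound (Continuous.aestronglyMeasurable (by
      have := continuous_ec (a j)
      have := continuous_mix (ι := ι) (ρ k)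
      fun_prop))
      (‖z j‖ * Real.exp (‖a j‖ ^ 2 / 2)) (ae_of_all _ fun w => by simp [norm_ec])
  have e : ou (ρ k) (trig a z) x = ∑ j, z j * ec (ρ k • a j) x := by
    rw [ou_eq]
    unfold trig
    rw [integral_finsetSum _ fun j _ => hi j]
    exact Finset.sum_congr rfl fun j _ => by rw [integral_const_mul, ← ou_eq, ou_ec (h k)]
  rw [e, Complex.real_smul, Finset.mul_sum]
  exact Finset.sum_congr rfl fun j _ => by ring

theorem gram_combo (n : ℕ) (c ρ : κ → ℝ) (a : J → EuclideanSpace ℝ ι) (z : J → ℂ) :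
    gram n (fun p : κ × J => ρ p.1 • a p.2) (fun p => (c p.1 : ℂ) * z p.2) =
      (∑ k, c k * ρ k ^ n) ^ 2 * gram n a z := by
  unfold gram
  rw [Finset.mul_sum]
  refine Finset.sum_congr rfl fun i _ => ?_
  have e : ∑ p : κ × J, (c p.1 : ℂ) * z p.2 * ((∏ m, (ρ p.1 • a p.2) (i m) : ℝ) : ℂ) =
      ((∑ k, c k * ρ k ^ n : ℝ) : ℂ) * ∑ j, z j * ((∏ m, a j (i m) : ℝ) : ℂ) := by
    rw [Fintype.sum_prod_type, Complex.ofReal_sum, Finset.sum_mul_sum]
    refine Finset.sum_congr rfl fun k _ => Finset.sum_congr rfl fun j _ => ?_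
    simp only [PiLp.smul_apply, smul_eq_mul, Finset.prod_mul_distrib, Finset.prod_const,
      Finset.card_univ, Fintype.card_fin]
    push_cast
    ring
  rw [e, norm_mul, mul_pow, Complex.norm_real, Real.norm_eq_abs, sq_abs]

theorem combo_trig_le {c ρ : κ → ℝ} {ε : ℝ} (h : ∀ k, ρ k ^ 2 ≤ 1)
    (hb : ∀ n : ℕ, |∑ k, c k * ρ k ^ n| ≤ ε) (a : J → EuclideanSpace ℝ ι) (z : J → ℂ) :
    ∫ x, ‖combo c ρ (trig a z) x‖ ^ 2 ∂gau ι ≤
      ε ^ 2 * ∫ x, ‖trig a z x‖ ^ 2 ∂gau ι := by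
  rw [combo_trig c h]
  refine hasSum_le (fun n => ?_) (hasSum_trig _ _) ((hasSum_trig a z).mul_left (ε ^ 2))
  rw [gram_combo, ← mul_div_assoc]
  refine div_le_div_of_nonneg_right (mul_le_mul_of_nonneg_right ?_ ?_) (Nat.cast_nonneg _)
  · rw [← sq_abs]
    exact pow_le_pow_left₀ (abs_nonneg _) (hb n) 2
  · exact Finset.sum_nonneg fun i _ => sq_nonneg _

end Characters

section Density

theorem eq_zero_of_fourier {f : EuclideanSpace ℝ ι → ℝ} (hf : Integrable f (gau ι))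
    (h : ∀ t, ∫ x, Complex.exp (((⟪x, t⟫ : ℝ) : ℂ) * Complex.I) * (f x : ℂ) ∂gau ι = 0) :
    f =ᵐ[gau ι] 0 := by
  let μp := (gau ι).withDensity fun x => ENNReal.ofReal (f x)
  let μm := (gau ι).withDensity fun x => ENNReal.ofReal (-f x)
  have : IsFiniteMeasure μp := isFiniteMeasure_withDensity_ofReal hf.2
  have : IsFiniteMeasure μm := isFiniteMeasure_withDensity_ofReal hf.neg.2
  have hc : ∀ (g : EuclideanSpace ℝ ι → ℝ), Integrable g (gau ι) → ∀ t,
      charFun ((gau ι).withDensity fun x => ENNReal.ofReal (g x)) t =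
        ∫ x, ((max (g x) 0 : ℝ) : ℂ) * Complex.exp (((⟪x, t⟫ : ℝ) : ℂ) * Complex.I) ∂gau ι := by
    intro g hg t
    rw [charFun_apply, integral_withDensity_eq_integral_toReal_smul₀
      (hg.1.aemeasurable.ennreal_ofReal) (ae_of_all _ fun _ => ENNReal.ofReal_lt_top)]
    simp [ENNReal.toReal_ofReal', Complex.real_smul]
  have hint : ∀ (g : EuclideanSpace ℝ ι → ℝ), Integrable g (gau ι) → ∀ t, Integrable (fun x =>
      ((max (g x) 0 : ℝ) : ℂ) * Complex.exp (((⟪x, t⟫ : ℝ) : ℂ) * Complex.I)) (gau ι) :=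
    fun g hg t => (hg.pos_part.ofReal).mul_bdd (c := 1) (Continuous.aestronglyMeasurable
      (by fun_prop)) (ae_of_all _ fun x => (Complex.norm_exp_ofReal_mul_I _).le)
  have heq : μp = μm := by
    apply Measure.ext_of_charFun
    ext t
    rw [hc f hf, hc (fun x => -f x) hf.neg, ← sub_eq_zero,
      ← integral_sub (hint f hf t) (hint (fun x => -f x) hf.neg t)]
    refine Eq.trans (integral_congr_ae (ae_of_all _ fun x => ?_)) (h t)
    simp only [← sub_mul, ← Complex.ofReal_sub]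
    rw [mul_comm]
    congr 2
    rcases le_total 0 (f x) with h0 | h0
    · rw [max_eq_left h0, max_eq_right (neg_nonpos.2 h0), sub_zero]
    · rw [max_eq_right h0, max_eq_left (neg_nonneg.2 h0), zero_sub, neg_neg]
  have hae := (withDensity_eq_iff hf.1.aemeasurable.ennreal_ofReal
    hf.neg.1.aemeasurable.ennreal_ofReal hf.lintegral_lt_top.ne).1 heq
  filter_upwards [hae] with x hx
  simp only [Pi.neg_apply] at hx
  rcases lt_trichotomy (f x) 0 with h0 | h0 | h0
  · rw [ENNReal.ofReal_of_nonpos h0.le, eq_comm, ENNReal.ofReal_eq_zero] at hx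
    exact absurd hx (not_le.2 (neg_pos.2 h0))
  · exact h0
  · rw [ENNReal.ofReal_of_nonpos (neg_nonpos.2 h0.le), ENNReal.ofReal_eq_zero] at hx
    exact absurd hx (not_le.2 h0)

theorem exists_trig_close {f : EuclideanSpace ℝ ι → ℂ} (hf : MemLp f 2 (gau ι)) {δ : ℝ}
    (hδ : 0 < δ) :
    ∃ (s : Finset (EuclideanSpace ℝ ι)) (z : s → ℂ),
      ∫ x, ‖f x - trig (fun j : s => (j : EuclideanSpace ℝ ι)) z x‖ ^ 2 ∂gau ι ≤ δ := by
  let ψ : EuclideanSpace ℝ ι → Lp ℂ 2 (gau ι) := fun a => (memLp_ec a).toLp (ec a)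
  let S := Submodule.span ℂ (Set.range ψ)
  have hbot : Sᗮ = ⊥ := by
    rw [Submodule.eq_bot_iff]
    intro u hu
    have hu' : Integrable (fun x => (u : EuclideanSpace ℝ ι → ℂ) x) (gau ι) :=
      (Lp.memLp u).integrable one_le_two
    have hz : ∀ t, ∫ x, Complex.exp (((⟪x, t⟫ : ℝ) : ℂ) * Complex.I) * u x ∂gau ι = 0 := by
      intro t
      have h0 : inner ℂ (ψ (-t)) u = 0 :=
        Submodule.inner_right_of_mem_orthogonal (K := S)
          (Submodule.subset_span (Set.mem_range_self (-t))) hu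
      rw [L2.inner_def] at h0
      have h1 : ∫ x, inner ℂ (ψ (-t) x) (u x) ∂gau ι =
          Complex.exp ((‖t‖ ^ 2 / 2 : ℝ) : ℂ) *
            ∫ x, Complex.exp (((⟪x, t⟫ : ℝ) : ℂ) * Complex.I) * u x ∂gau ι := by
        rw [← integral_const_mul]
        refine integral_congr_ae ?_
        filter_upwards [(memLp_ec (-t)).coeFn_toLp] with x hx
        rw [RCLike.inner_apply, show ψ (-t) x = ec (-t) x from hx]
        simp only [ec, ← Complex.exp_conj, map_add, map_mul, Complex.conj_ofReal, Complex.conj_I,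
          inner_neg_right, norm_neg]
        rw [mul_comm (u x), ← mul_assoc, ← Complex.exp_add]
        congr 2
        push_cast
        ring
      rw [h1] at h0
      exact (mul_eq_zero.1 h0).resolve_left (Complex.exp_ne_zero _)
    have hz' : ∀ t, ∫ x, Complex.exp (((⟪x, t⟫ : ℝ) : ℂ) * Complex.I) * conj (u x) ∂gau ι = 0 := by
      intro t
      have h2 := congrArg conj (hz (-t))
      rw [← integral_conj, map_zero] at h2
      refine Eq.trans (integral_congr_ae (ae_of_all _ fun x => ?_)) h2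
      simp [← Complex.exp_conj, inner_neg_right]
    have hb : ∀ (t : EuclideanSpace ℝ ι) (v : EuclideanSpace ℝ ι → ℂ), Integrable v (gau ι) →
        Integrable (fun x => Complex.exp (((⟪x, t⟫ : ℝ) : ℂ) * Complex.I) * v x) (gau ι) :=
      fun t v hv => hv.bdd_mul (c := 1) (Continuous.aestronglyMeasurable (by fun_prop))
        (ae_of_all _ fun x => (Complex.norm_exp_ofReal_mul_I _).le)
    have hc : Integrable (fun x => conj (u x)) (gau ι) :=
      hu'.congr' (Complex.continuous_conj.comp_aestronglyMeasurable hu'.1)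
        (ae_of_all _ fun x => (Complex.norm_conj _).symm)
    have hre : (fun x => (u x).re) =ᵐ[gau ι] 0 := by
      refine eq_zero_of_fourier hu'.re fun t => ?_
      have e : ∀ x, Complex.exp (((⟪x, t⟫ : ℝ) : ℂ) * Complex.I) * ((u x).re : ℂ) =
          (1 / 2 : ℂ) * (Complex.exp (((⟪x, t⟫ : ℝ) : ℂ) * Complex.I) * u x +
            Complex.exp (((⟪x, t⟫ : ℝ) : ℂ) * Complex.I) * conj (u x)) := fun x => by
        rw [Complex.re_eq_add_conj]; ring
      simp only [e]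
      rw [integral_const_mul, integral_add (hb t _ hu') (hb t _ hc), hz t, hz' t, add_zero,
        mul_zero]
    have him : (fun x => (u x).im) =ᵐ[gau ι] 0 := by
      refine eq_zero_of_fourier hu'.im fun t => ?_
      have e : ∀ x, Complex.exp (((⟪x, t⟫ : ℝ) : ℂ) * Complex.I) * ((u x).im : ℂ) =
          (1 / (2 * Complex.I) : ℂ) * (Complex.exp (((⟪x, t⟫ : ℝ) : ℂ) * Complex.I) * u x -
            Complex.exp (((⟪x, t⟫ : ℝ) : ℂ) * Complex.I) * conj (u x)) := fun x => by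
        rw [Complex.im_eq_sub_conj]; ring
      simp only [e]
      rw [integral_const_mul, integral_sub (hb t _ hu') (hb t _ hc), hz t, hz' t, sub_zero,
        mul_zero]
    refine Lp.ext ?_
    filter_upwards [hre, him, Lp.coeFn_zero ℂ 2 (gau ι)] with x h1 h2 h3
    rw [h3]
    exact Complex.ext h1 h2
  have hdense := (Submodule.topologicalClosure_eq_top_iff (K := S)).2 hbot
  have hmem : hf.toLp f ∈ closure (S : Set (Lp ℂ 2 (gau ι))) := by
    rw [← Submodule.topologicalClosure_coe, hdense]; trivial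
  obtain ⟨u, hu, hdist⟩ := Metric.mem_closure_iff.1 hmem (√δ) (Real.sqrt_pos.2 hδ)
  have hrep : ∀ u ∈ S, ∃ h ∈ Submodule.span ℂ (Set.range (ec (ι := ι))),
      ⇑u =ᵐ[gau ι] h := by
    intro u hu
    induction hu using Submodule.span_induction with
    | mem v hv =>
      obtain ⟨a, rfl⟩ := hv
      exact ⟨ec a, Submodule.subset_span ⟨a, rfl⟩, (memLp_ec a).coeFn_toLp⟩
    | zero => exact ⟨0, Submodule.zero_mem _, Lp.coeFn_zero ℂ 2 (gau ι)⟩
    | add v w _ _ hv hw =>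
      obtain ⟨p, hp, hp'⟩ := hv
      obtain ⟨q, hq, hq'⟩ := hw
      exact ⟨p + q, Submodule.add_mem _ hp hq, (Lp.coeFn_add v w).trans (hp'.add hq')⟩
    | smul r v _ hv =>
      obtain ⟨p, hp, hp'⟩ := hv
      exact ⟨r • p, Submodule.smul_mem _ r hp,
        (Lp.coeFn_smul r v).trans (hp'.const_smul r)⟩
  obtain ⟨h, hh, hae⟩ := hrep u hu
  obtain ⟨c, rfl⟩ := Finsupp.mem_span_range_iff_exists_finsupp.1 hh
  refine ⟨c.support, fun j => c j, ?_⟩
  have htr : ∀ x, trig (fun j : c.support => (j : EuclideanSpace ℝ ι)) (fun j => c j) x =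
      (c.sum fun i r => r • ec i) x := by
    intro x
    simp only [trig, Finsupp.sum, Finset.sum_apply, Pi.smul_apply, smul_eq_mul]
    exact Finset.sum_coe_sort c.support fun i => c i * ec i x
  have hn : ‖hf.toLp f - u‖ ^ 2 ≤ δ := by
    rw [← dist_eq_norm]
    calc dist (hf.toLp f) u ^ 2 ≤ √δ ^ 2 := pow_le_pow_left₀ dist_nonneg hdist.le 2
      _ = δ := Real.sq_sqrt hδ.le
  refine le_trans (le_of_eq ?_) hn
  rw [← inner_self_eq_norm_sq (𝕜 := ℂ), L2.inner_def, ← integral_re]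
  · refine integral_congr_ae ?_
    filter_upwards [Lp.coeFn_sub (hf.toLp f) u, hf.coeFn_toLp, hae] with x h1 h2 h3
    rw [inner_self_eq_norm_sq, h1, Pi.sub_apply, h2, h3, htr]
  · exact L2.integrable_inner _ _

end Density

section Main

variable {κ : Type*} [Fintype κ]

theorem combo_le_complex {c ρ : κ → ℝ} {ε : ℝ} (h : ∀ k, ρ k ^ 2 ≤ 1)
    (hb : ∀ n : ℕ, |∑ k, c k * ρ k ^ n| ≤ ε) {f : EuclideanSpace ℝ ι → ℂ}
    (hf : MemLp f 2 (gau ι)) :
    ∫ x, ‖combo c ρ f x‖ ^ 2 ∂gau ι ≤ ε ^ 2 * ∫ x, ‖f x‖ ^ 2 ∂gau ι := by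
  set M := (∑ k, c k ^ 2) * (Fintype.card κ : ℝ)
  have hM : 0 ≤ M := mul_nonneg (Finset.sum_nonneg fun k _ => sq_nonneg _) (Nat.cast_nonneg _)
  set A := ∫ x, ‖combo c ρ f x‖ ^ 2 ∂gau ι
  set B := ∫ x, ‖f x‖ ^ 2 ∂gau ι
  have hB : 0 ≤ B := integral_nonneg fun x => sq_nonneg _
  have split : ∀ {u v : EuclideanSpace ℝ ι → ℂ} {η : ℝ}, 0 < η → MemLp u 2 (gau ι) →
      MemLp v 2 (gau ι) → ∫ x, ‖u x + v x‖ ^ 2 ∂gau ι ≤
        (1 + η) * ∫ x, ‖u x‖ ^ 2 ∂gau ι + (1 + 1 / η) * ∫ x, ‖v x‖ ^ 2 ∂gau ι := by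
    intro u v η hη hu hv
    rw [← integral_const_mul, ← integral_const_mul,
      ← integral_add ((integrable_sq_of_memLp hu).const_mul _)
        ((integrable_sq_of_memLp hv).const_mul _)]
    refine integral_mono (integrable_sq_of_memLp (hu.add hv))
      (((integrable_sq_of_memLp hu).const_mul _).add
        ((integrable_sq_of_memLp hv).const_mul _)) fun x => ?_
    have h1 := pow_le_pow_left₀ (norm_nonneg _) (norm_add_le (u x) (v x)) 2
    have h3 : 0 ≤ η * ‖u x‖ ^ 2 + 1 / η * ‖v x‖ ^ 2 - 2 * ‖u x‖ * ‖v x‖ := by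
      have e : η * ‖u x‖ ^ 2 + 1 / η * ‖v x‖ ^ 2 - 2 * ‖u x‖ * ‖v x‖ =
          (η * ‖u x‖ - ‖v x‖) ^ 2 / η := by
        field_simp; ring
      rw [e]; positivity
    nlinarith
  have key : ∀ η : ℝ, 0 < η → A ≤ (1 + η) ^ 2 * ε ^ 2 * B + η := by
    intro η hη
    set C := (1 + η) * (1 + 1 / η) * ε ^ 2 + (1 + 1 / η) * M
    have hC : 0 ≤ C := by positivity
    obtain ⟨s, z, hsz⟩ := exists_trig_close hf (show 0 < η / (C + 1) by positivity)
    set h' := trig (fun j : s => (j : EuclideanSpace ℝ ι)) z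
    have hh' : MemLp h' 2 (gau ι) := memLp_trig _ _
    set D := ∫ x, ‖f x - h' x‖ ^ 2 ∂gau ι
    have e1 : A ≤ (1 + η) * ∫ x, ‖combo c ρ h' x‖ ^ 2 ∂gau ι +
        (1 + 1 / η) * ∫ x, ‖combo c ρ (f - h') x‖ ^ 2 ∂gau ι := by
      refine le_of_eq_of_le ?_ (split hη (combo_contract c h hh').1
        (combo_contract c h (hf.sub hh')).1)
      refine integral_congr_ae ?_
      filter_upwards [combo_sub c h (hf.integrable one_le_two) (hh'.integrable one_le_two)]
        with x hx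
      rw [hx, Pi.sub_apply, add_sub_cancel]
    have e2 : ∫ x, ‖combo c ρ (f - h') x‖ ^ 2 ∂gau ι ≤ M * D :=
      (combo_contract c h (hf.sub hh')).2
    have e3 : ∫ x, ‖h' x‖ ^ 2 ∂gau ι ≤ (1 + η) * B + (1 + 1 / η) * D := by
      refine le_of_eq_of_le ?_ ((split hη hf (hh'.sub hf)).trans_eq ?_)
      · simp
      · simp only [Pi.sub_apply, D, B]
        congr 2
        exact integral_congr_ae (ae_of_all _ fun x => by simp [norm_sub_rev])
    have e4 := combo_trig_le h hb (fun j : s => (j : EuclideanSpace ℝ ι)) z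
    have hD : 0 ≤ D := integral_nonneg fun x => sq_nonneg _
    have e6 : (C + 1) * D ≤ η := by
      have := (le_div_iff₀ (by positivity)).1 hsz
      linarith
    have e5 : A ≤ (1 + η) ^ 2 * ε ^ 2 * B + C * D := by
      calc A ≤ _ := e1
        _ ≤ (1 + η) * (ε ^ 2 * ((1 + η) * B + (1 + 1 / η) * D)) + (1 + 1 / η) * (M * D) := by
            gcongr
            exact e4.trans (mul_le_mul_of_nonneg_left e3 (sq_nonneg _))
        _ = _ := by simp only [C]; ring
    linarith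
  have hlim : Tendsto (fun η : ℝ => (1 + η) ^ 2 * ε ^ 2 * B + η) (𝓝[>] 0) (𝓝 (ε ^ 2 * B)) := by
    refine Tendsto.mono_left ?_ nhdsWithin_le_nhds
    have hcont : Continuous fun η : ℝ => (1 + η) ^ 2 * ε ^ 2 * B + η := by fun_prop
    simpa using hcont.tendsto 0
  exact ge_of_tendsto hlim (eventually_nhdsWithin_of_forall fun η hη => key η hη)

theorem combo_le_real {c ρ : κ → ℝ} {ε : ℝ} (h : ∀ k, ρ k ^ 2 ≤ 1)
    (hb : ∀ n : ℕ, |∑ k, c k * ρ k ^ n| ≤ ε) {f : EuclideanSpace ℝ ι → ℝ}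
    (hf : MemLp f 2 (gau ι)) :
    ∫ x, combo c ρ f x ^ 2 ∂gau ι ≤ ε ^ 2 * ∫ x, f x ^ 2 ∂gau ι := by
  have key := combo_le_complex h hb (f := fun x => (f x : ℂ)) hf.ofReal
  have e : ∀ x, combo c ρ (fun y => (f y : ℂ)) x = ((combo c ρ f x : ℝ) : ℂ) :=
    fun x => by
    simp [combo, ou_eq, integral_complex_ofReal, Complex.real_smul]
  simpa [e, Complex.norm_real, sq_abs] using key

end Main

section Riemann

variable {F : Type*} [NormedAddCommGroup F] [NormedSpace ℝ F] [CompleteSpace F]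

/-- Right Riemann sums on the unit interval. -/
def riemann (m : ℕ) (φ : ℝ → F) : F :=
  ∑ i : Fin m, (1 / m : ℝ) • φ (((i : ℕ) + 1) / m)

theorem node_mem_Icc {m : ℕ} (hm : 0 < m) (i : ℕ) (hi : i < m) :
    Set.Icc ((i : ℝ) / m) (((i : ℝ) + 1) / m) ⊆ Set.Icc (0 : ℝ) 1 := by
  have hm' : (0 : ℝ) < m := Nat.cast_pos.2 hm
  refine Set.Icc_subset_Icc (by positivity) ?_
  rw [div_le_one hm']
  exact_mod_cast hi

theorem riemann_err {m : ℕ} (hm : 0 < m) {φ : ℝ → F}
    (hφ : ContinuousOn φ (Set.Icc (0 : ℝ) 1)) (b : ℕ → ℝ)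
    (hb : ∀ i < m, ∀ u ∈ Set.Icc ((i : ℝ) / m) (((i : ℝ) + 1) / m),
      ‖φ (((i : ℝ) + 1) / m) - φ u‖ ≤ b i) :
    ‖riemann m φ - ∫ u in (0 : ℝ)..1, φ u‖ ≤ (∑ i ∈ Finset.range m, b i) / m := by
  have hm' : (0 : ℝ) < m := Nat.cast_pos.2 hm
  let a : ℕ → ℝ := fun i => (i : ℝ) / m
  have ha : ∀ i, a i ≤ a (i + 1) := fun i => by
    simp only [a]; gcongr; linarith [Nat.cast_succ (R := ℝ) i]
  have hs : ∀ i, a (i + 1) = ((i : ℝ) + 1) / m := fun i => by simp [a]
  have hint : ∀ i < m, IntervalIntegrable φ volume (a i) (a (i + 1)) := fun i hi =>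
    (hφ.mono (by rw [hs]; exact node_mem_Icc hm i hi)).intervalIntegrable_of_Icc (ha i)
  have hsum := intervalIntegral.sum_integral_adjacent_intervals (n := m) hint
  have h0 : a 0 = 0 := by simp [a]
  have hm1 : a m = 1 := div_self hm'.ne'
  rw [h0, hm1] at hsum
  rw [← hsum, riemann, Fin.sum_univ_eq_sum_range fun i => (1 / m : ℝ) • φ (((i : ℝ) + 1) / m),
    ← Finset.sum_sub_distrib, Finset.sum_div]
  refine (norm_sum_le _ _).trans (Finset.sum_le_sum fun i hi => ?_)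
  have hi' := Finset.mem_range.1 hi
  have hlen : a (i + 1) - a i = 1 / m := by rw [hs]; simp only [a]; ring
  have e : (1 / m : ℝ) • φ (((i : ℝ) + 1) / m) - ∫ u in a i..a (i + 1), φ u =
      ∫ u in a i..a (i + 1), (φ (((i : ℝ) + 1) / m) - φ u) := by
    rw [intervalIntegral.integral_sub intervalIntegrable_const (hint i hi'),
      intervalIntegral.integral_const, hlen]
  rw [e]
  refine (intervalIntegral.norm_integral_le_of_norm_le_const (C := b i) fun u hu => ?_).trans_eq ?_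
  · rw [Set.uIoc_of_le (ha i)] at hu
    exact hb i hi' u (by rw [← hs]; exact Set.Ioc_subset_Icc_self hu)
  · rw [hlen, abs_of_pos (by positivity)]; ring

theorem riemann_tendsto {φ : ℝ → F} (hφ : ContinuousOn φ (Set.Icc (0 : ℝ) 1)) :
    Tendsto (fun m => riemann (m + 1) φ) atTop (𝓝 (∫ u in (0 : ℝ)..1, φ u)) := by
  rw [Metric.tendsto_atTop]
  intro δ hδ
  obtain ⟨η, hη, hu⟩ := Metric.uniformContinuousOn_iff.1
    (isCompact_Icc.uniformContinuousOn_of_continuous hφ) (δ / 2) (by positivity)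
  obtain ⟨M, hM⟩ := exists_nat_gt (1 / η)
  refine ⟨M, fun m hm => ?_⟩
  have hm1 : (0 : ℝ) < ((m + 1 : ℕ) : ℝ) := by positivity
  have hlt : 1 / ((m + 1 : ℕ) : ℝ) < η := by
    rw [div_lt_iff₀ hm1, mul_comm, ← div_lt_iff₀ hη]
    refine hM.trans_le ?_
    exact_mod_cast hm.trans (Nat.le_succ m)
  rw [dist_eq_norm]
  refine (riemann_err (Nat.succ_pos m) hφ (fun _ => δ / 2) fun i hi u hu' => ?_).trans_lt ?_
  · rw [← dist_eq_norm]
    refine (hu _ (node_mem_Icc (Nat.succ_pos m) i hi ⟨by gcongr; linarith, le_rfl⟩) u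
      (node_mem_Icc (Nat.succ_pos m) i hi hu') ?_).le
    rw [Real.dist_eq, abs_of_nonneg (by linarith [hu'.2])]
    refine lt_of_le_of_lt ?_ hlt
    rw [sub_le_iff_le_add]
    refine le_trans (le_of_eq ?_) (add_le_add le_rfl hu'.1)
    ring
  · rw [Finset.sum_const, Finset.card_range, nsmul_eq_mul, mul_div_cancel_left₀ _ hm1.ne']
    linarith

theorem riemann_pow {m : ℕ} (hm : 0 < m) (n : ℕ) :
    |riemann m (fun u : ℝ => u ^ n) - 1 / ((n : ℝ) + 1)| ≤ 1 / m := by
  have h := riemann_err hm (φ := fun u : ℝ => u ^ n) (continuousOn_pow n)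
    (fun i => (((i : ℝ) + 1) / m) ^ n - ((i : ℝ) / m) ^ n) fun i hi u hu => by
      have h0 : 0 ≤ u := (node_mem_Icc hm i hi hu).1
      rw [Real.norm_eq_abs, abs_of_nonneg (sub_nonneg.2 (pow_le_pow_left₀ h0 hu.2 n))]
      exact sub_le_sub_left (pow_le_pow_left₀ (by positivity) hu.1 n) _
  rw [integral_pow] at h
  simp only [one_pow, ne_eq, Nat.add_eq_zero_iff, one_ne_zero, and_false, not_false_eq_true,
    zero_pow, sub_zero, Real.norm_eq_abs] at h
  refine h.trans (div_le_div_of_nonneg_right ?_ (Nat.cast_nonneg _))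
  have := Finset.sum_range_sub (fun i => ((i : ℝ) / m) ^ n) m
  simp only [Nat.cast_add, Nat.cast_one] at this
  rw [this, div_self (Nat.cast_ne_zero.2 hm.ne'), one_pow]
  simp only [Nat.cast_zero, zero_div]
  linarith [pow_nonneg (le_refl (0 : ℝ)) n]

end Riemann

section Lipschitz

variable {F : Type*} [NormedAddCommGroup F] [NormedSpace ℝ F] {K : ℝ≥0}
  {g : EuclideanSpace ℝ ι → F}

end Lipschitz

end Quad

open Quad

end Vale.Agent.P347
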