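import Vale.Agent.P347.Gauss

/-!
P347 module A, part 2: Gaussian smoothing of bounded functions.
-/

open MeasureTheory ProbabilityTheory WithLp Real
open scoped RealInnerProductSpace

namespace Vale.Agent.P347

variable {ι : Type*} [Fintype ι]

section kernel

lemma hasFDerivAt_cmd (g h : EuclideanSpace ℝ ι) :
    HasFDerivAt (fun h : EuclideanSpace ℝ ι => cmd h g) (cmd h g • innerSL ℝ (g - h)) h := by
  have h1 : HasFDerivAt (fun h : EuclideanSpace ℝ ι => ⟪g, h⟫ - (2 : ℝ)⁻¹ * ‖h‖ ^ 2)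
      (innerSL ℝ g - (2 : ℝ)⁻¹ • (2 • innerSL ℝ h)) h :=
    (innerSL ℝ g).hasFDerivAt.sub ((hasStrictFDerivAt_norm_sq h).hasFDerivAt.const_mul _)
  have he : (fun h : EuclideanSpace ℝ ι => cmd h g) =
      fun h => Real.exp (⟪g, h⟫ - (2 : ℝ)⁻¹ * ‖h‖ ^ 2) := by
    funext h
    rw [cmd, real_inner_comm]
    ring_nf
  rw [he]
  refine h1.exp.congr_fderiv ?_
  ext v
  simp [cmd, inner_sub_left, real_inner_comm g h]
  ring_nf
  simp

lemma integral_gau_inner_mul (a b : EuclideanSpace ℝ ι) :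
    ∫ g, ⟪g, a⟫ * ⟪g, b⟫ ∂gau ι = ⟪a, b⟫ := by
  have hd : ∀ x, fderiv ℝ (fun g : EuclideanSpace ℝ ι => ⟪g, b⟫) x = innerSL ℝ b := fun x => by
    have e : (fun g : EuclideanSpace ℝ ι => ⟪g, b⟫) = innerSL ℝ b := by
      funext g
      simp [real_inner_comm]
    rw [e, ContinuousLinearMap.fderiv]
  have h := gau_ibp_smul (f := fun g : EuclideanSpace ℝ ι => ⟪g, b⟫)
    (contDiff_id.inner ℝ contDiff_const) (K := ‖b‖) (a := 0) (b := 1) (by norm_num)
    (fun x => by
      rw [zero_mul, zero_add, one_mul, Real.norm_eq_abs, mul_comm]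
      exact (abs_real_inner_le_norm _ _).trans (mul_le_mul_of_nonneg_right
        (by linarith [Real.add_one_le_exp ‖x‖]) (norm_nonneg b)))
    (fun x => by
      rw [hd, innerSL_apply_norm, zero_mul, zero_add, one_mul]
      exact le_mul_of_one_le_right (norm_nonneg b) (Real.one_le_exp (norm_nonneg x))) a
  simp only [hd, innerSL_apply_apply, smul_eq_mul] at h
  rw [h]
  simp [real_inner_comm]

lemma integral_gau_inner (a : EuclideanSpace ℝ ι) : ∫ g, ⟪g, a⟫ ∂gau ι = 0 := by
  have h := integral_strongDual_stdGaussian (E := EuclideanSpace ℝ ι) (innerSL ℝ a)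
  simp only [innerSL_apply_apply] at h
  simp_rw [real_inner_comm a]
  exact h

lemma integral_gau_abs_inner (a : EuclideanSpace ℝ ι) : ∫ g, |⟪g, a⟫| ∂gau ι ≤ ‖a‖ := by
  rcases eq_or_ne a 0 with rfl | ha
  · simp
  have hn : 0 < ‖a‖ := norm_pos_iff.2 ha
  have hi : Integrable (fun g : EuclideanSpace ℝ ι => ⟪g, a⟫ * ⟪g, a⟫) (gau ι) :=
    integrable_of_poly (K := ‖a‖ ^ 2) (k := 2) (by fun_prop) fun g => by
      rw [norm_mul, Real.norm_eq_abs]
      have := abs_real_inner_le_norm g a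
      calc |⟪g, a⟫| * |⟪g, a⟫| ≤ (‖g‖ * ‖a‖) * (‖g‖ * ‖a‖) := by gcongr
        _ = ‖a‖ ^ 2 * ‖g‖ ^ 2 := by ring
        _ ≤ _ := by gcongr; linarith [norm_nonneg g]
  refine (integral_mono_of_nonneg (ae_of_all _ fun g => abs_nonneg _)
    (((hi.add (integrable_const (‖a‖ ^ 2))).const_mul (2 * ‖a‖)⁻¹))
    (ae_of_all _ fun g => ?_)).trans (le_of_eq ?_)
  · simp only [Pi.add_apply]
    rw [le_inv_mul_iff₀ (by positivity)]
    nlinarith [sq_nonneg (|⟪g, a⟫| - ‖a‖), sq_abs ⟪g, a⟫]
  · rw [integral_const_mul]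
    simp only [Pi.add_apply]
    rw [integral_add hi (integrable_const _), integral_gau_inner_mul, integral_const]
    simp only [probReal_univ, one_smul, real_inner_self_eq_norm_sq]
    field_simp
    ring

end kernel

section smoothing

variable {F : Type*} [NormedAddCommGroup F] [NormedSpace ℝ F] [FiniteDimensional ℝ F]
  [MeasurableSpace F] [BorelSpace F] {u : EuclideanSpace ℝ ι → F} {K t : ℝ}

lemma aesm_slice (hu : Measurable u) (x : EuclideanSpace ℝ ι) (s : ℝ) :
    AEStronglyMeasurable (fun g => u (x + s • g)) (gau ι) :=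
  (hu.comp (by fun_prop)).stronglyMeasurable.aestronglyMeasurable

lemma norm_Psm_le {F : Type*} [NormedAddCommGroup F] [NormedSpace ℝ F]
    {u : EuclideanSpace ℝ ι → F} (hK : ∀ x, ‖u x‖ ≤ K) (x : EuclideanSpace ℝ ι) :
    ‖Psm t u x‖ ≤ K := by
  refine (norm_integral_le_integral_norm _).trans ?_
  refine (integral_mono_of_nonneg (ae_of_all _ fun g => norm_nonneg _) (integrable_const K)
    (ae_of_all _ fun g => hK _)).trans (le_of_eq ?_)
  simp

lemma integrable_slice (hu : Measurable u) (hK : ∀ x, ‖u x‖ ≤ K) (x : EuclideanSpace ℝ ι)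
    (s : ℝ) : Integrable (fun g => u (x + s • g)) (gau ι) :=
  Integrable.of_bound (aesm_slice hu x s) K (ae_of_all _ fun g => hK _)

/-- The kernel of the derivative of the smoothing. -/
noncomputable def psmKer (t : ℝ) (u : EuclideanSpace ℝ ι → F) (x g : EuclideanSpace ℝ ι) :
    EuclideanSpace ℝ ι →L[ℝ] F :=
  (1 / √t) • (innerSL ℝ g).smulRight (u (x + √t • g))

lemma aesm_psmKer (hu : Measurable u) (t : ℝ) (x : EuclideanSpace ℝ ι) :
    AEStronglyMeasurable (psmKer t u x) (gau ι) := by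
  have hc : Continuous fun p : EuclideanSpace ℝ ι × F => (innerSL ℝ p.1).smulRight p.2 := by
    fun_prop
  exact (hc.comp_aestronglyMeasurable
    (aestronglyMeasurable_id.prodMk (aesm_slice hu x √t))).const_smul (1 / √t)

lemma norm_psmKer_le (hK : ∀ x, ‖u x‖ ≤ K) (t : ℝ) (x g : EuclideanSpace ℝ ι) :
    ‖psmKer t u x g‖ ≤ 1 / √t * (‖g‖ * K) := by
  rw [psmKer, norm_smul, Real.norm_eq_abs, abs_of_nonneg (by positivity),
    ContinuousLinearMap.norm_smulRight_apply, innerSL_apply_norm]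
  gcongr
  exact hK _

lemma integrable_psmKer (hu : Measurable u) (hK : ∀ x, ‖u x‖ ≤ K) (t : ℝ)
    (x : EuclideanSpace ℝ ι) : Integrable (psmKer t u x) (gau ι) :=
  (((integrable_gau_nrm.mul_const K).const_mul (1 / √t))).mono' (aesm_psmKer hu t x)
    (ae_of_all _ fun g => norm_psmKer_le hK t x g)

/-- The derivative of a shifted Cameron–Martin kernel. -/
lemma hasFDerivAt_cmd_affine (c : F) (g x y : EuclideanSpace ℝ ι) (s : ℝ) :
    HasFDerivAt (fun y => cmd (s • (y - x)) g • c)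
      ((cmd (s • (y - x)) g • s • innerSL ℝ (g - s • (y - x))).smulRight c) y := by
  have h1 : HasFDerivAt (fun y : EuclideanSpace ℝ ι => s • (y - x))
      (s • ContinuousLinearMap.id ℝ (EuclideanSpace ℝ ι)) y :=
    ((hasFDerivAt_id y).sub_const x).const_smul s
  refine (((hasFDerivAt_cmd g _).comp y h1).smul_const c).congr_fderiv ?_
  ext v
  simp only [ContinuousLinearMap.smulRight_apply, ContinuousLinearMap.comp_apply, smul_apply,
    ContinuousLinearMap.id_apply, innerSL_apply_apply, smul_eq_mul, real_inner_smul_right]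

omit [FiniteDimensional ℝ F] [MeasurableSpace F] [BorelSpace F] in
lemma norm_cmd_affine_le {c : F} (hc : ‖c‖ ≤ K) {g h : EuclideanSpace ℝ ι} {s : ℝ} (hs0 : 0 ≤ s)
    (hh : ‖h‖ ≤ s) :
    ‖(cmd h g • s • innerSL ℝ (g - h)).smulRight c‖ ≤
      K * s * (1 + s) * Real.exp (0 * ‖g‖ ^ 2 + (1 + s) * ‖g‖) := by
  have hcm : cmd h g ≤ Real.exp (s * ‖g‖) := by
    refine Real.exp_le_exp.2 ?_
    have := real_inner_le_norm h g
    have : ‖h‖ * ‖g‖ ≤ s * ‖g‖ := mul_le_mul_of_nonneg_right hh (norm_nonneg g)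
    nlinarith [sq_nonneg ‖h‖]
  have hl : ‖g - h‖ ≤ (1 + s) * Real.exp ‖g‖ := by
    refine (norm_sub_le _ _).trans ?_
    have h1 := Real.add_one_le_exp ‖g‖
    have h2 := Real.one_le_exp (norm_nonneg g)
    nlinarith
  rw [ContinuousLinearMap.norm_smulRight_apply, norm_smul, norm_smul, innerSL_apply_norm,
    Real.norm_eq_abs, Real.norm_eq_abs, abs_of_nonneg hs0,
    abs_of_nonneg (show 0 ≤ cmd h g from (Real.exp_pos _).le)]
  calc cmd h g * (s * ‖g - h‖) * ‖c‖
      ≤ Real.exp (s * ‖g‖) * (s * ((1 + s) * Real.exp ‖g‖)) * K := by gcongr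
    _ = K * s * (1 + s) * (Real.exp (s * ‖g‖) * Real.exp ‖g‖) := by ring
    _ = _ := by rw [← Real.exp_add]; ring_nf

lemma aesm_cmd_slice (hu : Measurable u) (x h : EuclideanSpace ℝ ι) (r s : ℝ) :
    AEStronglyMeasurable (fun g => (cmd h g • s • innerSL ℝ (g - h)).smulRight (u (x + r • g)))
      (gau ι) := by
  have h1 : Continuous fun g : EuclideanSpace ℝ ι => cmd h g := by
    unfold cmd; fun_prop
  have hA : AEStronglyMeasurable
      (fun g : EuclideanSpace ℝ ι => cmd h g • s • innerSL ℝ (g - h)) (gau ι) :=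
    (h1.smul (((innerSL ℝ).continuous.comp
      (continuous_id.sub continuous_const)).const_smul s)).aestronglyMeasurable
  have hB := (ContinuousLinearMap.smulRightL ℝ (EuclideanSpace ℝ ι) F).continuous₂
  have h2 := hB.comp_aestronglyMeasurable (hA.prodMk (aesm_slice hu x r))
  refine h2.congr (ae_of_all _ fun g => ?_)
  exact ContinuousLinearMap.smulRightL_apply_apply ℝ (EuclideanSpace ℝ ι) F _ _

lemma Psm_eq_cmd (ht : 0 < t) (x y : EuclideanSpace ℝ ι) :
    Psm t u y = ∫ g, cmd ((1 / √t) • (y - x)) g • u (x + √t • g) ∂gau ι := by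
  have hst : √t ≠ 0 := (Real.sqrt_pos.2 ht).ne'
  rw [← gau_shift ((1 / √t) • (y - x)) fun g => u (x + √t • g), Psm]
  refine integral_congr_ae (ae_of_all _ fun g => ?_)
  simp only
  rw [smul_add, smul_smul, mul_one_div_cancel hst, one_smul]
  congr 1
  abel

/-- The smoothing of a bounded measurable function is differentiable. -/
theorem hasFDerivAt_Psm (ht : 0 < t) (hu : Measurable u) (hK : ∀ x, ‖u x‖ ≤ K)
    (x : EuclideanSpace ℝ ι) :
    HasFDerivAt (Psm t u)
      (∫ g, (1 / √t) • (innerSL ℝ g).smulRight (u (x + √t • g)) ∂gau ι) x := by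
  rw [funext (Psm_eq_cmd (u := u) ht x)]
  set s := 1 / √t with hs
  have hs0 : 0 ≤ s := by positivity
  have hm : ∀ y, AEStronglyMeasurable (fun g => cmd (s • (y - x)) g • u (x + √t • g)) (gau ι) :=
    fun y => ((by unfold cmd; fun_prop : Continuous fun g =>
      cmd (s • (y - x)) g).aestronglyMeasurable).smul (aesm_slice hu x √t)
  have hi : Integrable (fun g => cmd (s • (x - x)) g • u (x + √t • g)) (gau ι) := by
    simpa [cmd] using integrable_slice hu hK x √t
  have hb : ∀ g : EuclideanSpace ℝ ι, ∀ y ∈ Metric.ball x 1,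
      ‖(cmd (s • (y - x)) g • s • innerSL ℝ (g - s • (y - x))).smulRight (u (x + √t • g))‖ ≤
        K * s * (1 + s) * Real.exp (0 * ‖g‖ ^ 2 + (1 + s) * ‖g‖) := fun g y hy => by
    rw [Metric.mem_ball, dist_eq_norm] at hy
    refine norm_cmd_affine_le (hK _) hs0 ?_
    rw [norm_smul, Real.norm_eq_abs, abs_of_nonneg hs0]
    exact mul_le_of_le_one_right hs0 hy.le
  refine (hasFDerivAt_integral_of_dominated_of_fderiv_le
    (F' := fun y g =>
      (cmd (s • (y - x)) g • s • innerSL ℝ (g - s • (y - x))).smulRight (u (x + √t • g)))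
    (Metric.ball_mem_nhds x zero_lt_one) (.of_forall hm) hi (aesm_cmd_slice hu x _ _ s)
    (ae_of_all _ hb) ((integrable_gau_exp_sq (by norm_num) _).const_mul _)
    (ae_of_all _ fun g y _ => hasFDerivAt_cmd_affine _ g x y s)).congr_fderiv
      (integral_congr_ae (ae_of_all _ fun g => ?_))
  ext v
  simp only [ContinuousLinearMap.smulRight_apply, smul_apply, innerSL_apply_apply, smul_eq_mul,
    sub_self, smul_zero, sub_zero, cmd, inner_zero_left, norm_zero]
  rw [← mul_smul]
  norm_num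

lemma fderiv_Psm_eq (ht : 0 < t) (hu : Measurable u) (hK : ∀ x, ‖u x‖ ≤ K)
    (x : EuclideanSpace ℝ ι) :
    fderiv ℝ (Psm t u) x = ∫ g, psmKer t u x g ∂gau ι :=
  (hasFDerivAt_Psm ht hu hK x).fderiv

lemma fderiv_Psm_apply (ht : 0 < t) (hu : Measurable u) (hK : ∀ x, ‖u x‖ ≤ K)
    (x h : EuclideanSpace ℝ ι) :
    fderiv ℝ (Psm t u) x h = (1 / √t) • ∫ g, ⟪g, h⟫ • u (x + √t • g) ∂gau ι := by
  rw [fderiv_Psm_eq ht hu hK, ContinuousLinearMap.integral_apply (integrable_psmKer hu hK t x),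
    ← integral_smul]
  simp [psmKer]

lemma differentiable_Psm (ht : 0 < t) (hu : Measurable u) (hK : ∀ x, ‖u x‖ ≤ K) :
    Differentiable ℝ (Psm t u) :=
  fun x => (hasFDerivAt_Psm ht hu hK x).differentiableAt

/-- The derivative of the smoothing of a bounded function is bounded by `K / √t`. -/
theorem norm_fderiv_Psm_le (ht : 0 < t) (hu : Measurable u) (hK : ∀ x, ‖u x‖ ≤ K)
    (x : EuclideanSpace ℝ ι) : ‖fderiv ℝ (Psm t u) x‖ ≤ K / √t := by
  have hK0 : 0 ≤ K := (norm_nonneg _).trans (hK 0)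
  refine ContinuousLinearMap.opNorm_le_bound _ (by positivity) fun h => ?_
  rw [fderiv_Psm_apply ht hu hK, norm_smul, Real.norm_eq_abs, abs_of_nonneg (by positivity)]
  calc 1 / √t * ‖∫ g, ⟪g, h⟫ • u (x + √t • g) ∂gau ι‖
      ≤ 1 / √t * ∫ g, |⟪g, h⟫| * K ∂gau ι := by
        gcongr
        refine norm_integral_le_of_norm_le ?_ (ae_of_all _ fun g => ?_)
        · refine (integrable_of_poly (K := ‖h‖) (k := 1) (by fun_prop) fun g => ?_).mul_const K
          rw [Real.norm_eq_abs, abs_abs, pow_one, mul_comm]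
          exact (abs_real_inner_le_norm g h).trans (by nlinarith [norm_nonneg h])
        · rw [norm_smul, Real.norm_eq_abs]
          exact mul_le_mul_of_nonneg_left (hK _) (abs_nonneg _)
    _ ≤ 1 / √t * (‖h‖ * K) := by
        rw [integral_mul_const]
        gcongr
        exact integral_gau_abs_inner h
    _ = _ := by ring

/-- The smoothings form a semigroup. -/
theorem Psm_add {a b : ℝ} (ha : 0 ≤ a) (hb : 0 ≤ b) (hu : Measurable u) (hK : ∀ x, ‖u x‖ ≤ K) :
    Psm a (Psm b u) = Psm (a + b) u := by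
  funext x
  obtain ⟨c, s, hcs, hc, hs⟩ : ∃ c s : ℝ, c ^ 2 + s ^ 2 = 1 ∧ √(a + b) * c = √a ∧
      √(a + b) * s = √b := by
    rcases eq_or_lt_of_le (add_nonneg ha hb) with h | h
    · obtain rfl : a = 0 := by linarith
      obtain rfl : b = 0 := by linarith
      exact ⟨1, 0, by norm_num, by simp, by simp⟩
    · have hne : √(a + b) ≠ 0 := (Real.sqrt_pos.2 h).ne'
      refine ⟨√a / √(a + b), √b / √(a + b), ?_, ?_, ?_⟩
      · rw [div_pow, div_pow, Real.sq_sqrt ha, Real.sq_sqrt hb, Real.sq_sqrt h.le, ← add_div,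
          div_self h.ne']
      · field_simp
      · field_simp
  have hf : Measurable fun g : EuclideanSpace ℝ ι => u (x + √(a + b) • g) :=
    hu.comp (by fun_prop)
  have e : ∀ p : EuclideanSpace ℝ ι × EuclideanSpace ℝ ι,
      x + √a • p.1 + √b • p.2 = x + √(a + b) • (c • p.1 + s • p.2) := fun p => by
    rw [smul_add, smul_smul, smul_smul, hc, hs]
    abel
  have hi : Integrable (fun p : EuclideanSpace ℝ ι × EuclideanSpace ℝ ι =>
      u (x + √a • p.1 + √b • p.2)) ((gau ι).prod (gau ι)) :=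
    Integrable.of_bound (hu.comp (by fun_prop)).stronglyMeasurable.aestronglyMeasurable K
      (ae_of_all _ fun p => hK _)
  simp only [Psm]
  rw [← integral_prod _ hi]
  conv_rhs => rw [← gau_rotate_fst (ι := ι) hcs]
  rw [integral_map (by fun_prop) hf.stronglyMeasurable.aestronglyMeasurable]
  simp only [e]

/-- The derivative commutes with smoothing. -/
theorem hasFDerivAt_Psm_comm (hu : Differentiable ℝ u) {L : ℝ} (hL : ∀ x, ‖fderiv ℝ u x‖ ≤ L)
    (x : EuclideanSpace ℝ ι) : HasFDerivAt (Psm t u) (Psm t (fderiv ℝ u) x) x := by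
  have hum : Measurable u := hu.continuous.measurable
  refine hasFDerivAt_integral_of_dominated_of_fderiv_le (μ := gau ι)
    (F := fun y g => u (y + √t • g)) (F' := fun y g => fderiv ℝ u (y + √t • g))
    (bound := fun _ => L) (Metric.ball_mem_nhds x zero_lt_one)
    (.of_forall fun y => aesm_slice hum y √t) ?_
    (((measurable_fderiv ℝ u).comp (by fun_prop)).stronglyMeasurable.aestronglyMeasurable)
    (ae_of_all _ fun g y _ => hL _) (integrable_const L)
    (ae_of_all _ fun g y _ => (hasFDerivAt_comp_add_right _).2 (hu _).hasFDerivAt)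
  refine integrable_of_poly (K := ‖u x‖ + L * √t) (k := 1) (aesm_slice hum x √t) fun g => ?_
  have h := Convex.norm_image_sub_le_of_norm_fderiv_le (𝕜 := ℝ) (fun z _ => hu z)
    (fun z _ => hL z) convex_univ (Set.mem_univ x) (Set.mem_univ (x + √t • g))
  rw [add_sub_cancel_left, norm_smul, Real.norm_eq_abs, abs_of_nonneg (Real.sqrt_nonneg t)] at h
  have h' := norm_sub_norm_le (u (x + √t • g)) (u x)
  have hL0 : 0 ≤ L := (norm_nonneg _).trans (hL 0)
  rw [pow_one]
  nlinarith [norm_nonneg g, norm_nonneg (u x), Real.sqrt_nonneg t,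
    mul_nonneg hL0 (Real.sqrt_nonneg t)]

theorem fderiv_Psm_comm (hu : Differentiable ℝ u) {L : ℝ} (hL : ∀ x, ‖fderiv ℝ u x‖ ≤ L)
    (x : EuclideanSpace ℝ ι) : fderiv ℝ (Psm t u) x = Psm t (fderiv ℝ u) x :=
  (hasFDerivAt_Psm_comm hu hL x).fderiv

/-- The derivative of a smoothing is a smoothing of the derivative at half the time. -/
theorem fderiv_Psm_half (ht : 0 < t) (hu : Measurable u) (hK : ∀ x, ‖u x‖ ≤ K) :
    fderiv ℝ (Psm t u) = Psm (t / 2) (fderiv ℝ (Psm (t / 2) u)) := by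
  have h2 : 0 < t / 2 := by linarith
  funext x
  conv_lhs => rw [show t = t / 2 + t / 2 by ring, ← Psm_add h2.le h2.le hu hK]
  exact fderiv_Psm_comm (differentiable_Psm h2 hu hK)
    (norm_fderiv_Psm_le h2 hu hK) x

theorem contDiff_one_Psm (ht : 0 < t) (hu : Measurable u) (hK : ∀ x, ‖u x‖ ≤ K) :
    ContDiff ℝ 1 (Psm t u) := by
  have h2 : 0 < t / 2 := by linarith
  rw [contDiff_one_iff_fderiv]
  refine ⟨differentiable_Psm ht hu hK, ?_⟩
  rw [fderiv_Psm_half ht hu hK]
  exact (differentiable_Psm (F := EuclideanSpace ℝ ι →L[ℝ] F) (u := fderiv ℝ (Psm (t / 2) u))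
    (K := K / √(t / 2)) h2 (measurable_fderiv ℝ _) (norm_fderiv_Psm_le h2 hu hK)).continuous

/-- The smoothing of a bounded measurable function is twice continuously differentiable. -/
theorem contDiff_Psm (ht : 0 < t) (hu : Measurable u) (hK : ∀ x, ‖u x‖ ≤ K) :
    ContDiff ℝ 2 (Psm t u) := by
  have h2 : 0 < t / 2 := by linarith
  rw [show (2 : WithTop ℕ∞) = 1 + 1 from rfl, contDiff_succ_iff_fderiv]
  refine ⟨differentiable_Psm ht hu hK, by simp, ?_⟩
  rw [fderiv_Psm_half ht hu hK]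
  exact contDiff_one_Psm (F := EuclideanSpace ℝ ι →L[ℝ] F) (u := fderiv ℝ (Psm (t / 2) u))
    (K := K / √(t / 2)) h2 (measurable_fderiv ℝ _) (norm_fderiv_Psm_le h2 hu hK)

end smoothing

section poincare

variable {F : Type*} [NormedAddCommGroup F] [InnerProductSpace ℝ F] [FiniteDimensional ℝ F]
  [MeasurableSpace F] [BorelSpace F] {u : EuclideanSpace ℝ ι → F} {K t : ℝ}
  {J : Type*} [Fintype J]

end poincare

section hessian

variable {d : ℕ} {u : E d → ℝ} {K t : ℝ}

/-- The coordinates of a linear form. -/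
noncomputable def formVec (d : ℕ) : (E d →L[ℝ] ℝ) →L[ℝ] E d :=
  LinearMap.toContinuousLinearMap
    { toFun := fun B => toLp 2 fun j => B (EuclideanSpace.single j 1)
      map_add' := fun B B' => by ext j; simp
      map_smul' := fun c B => by ext j; simp }

lemma formVec_apply (B : E d →L[ℝ] ℝ) (j : Fin d) :
    formVec d B j = B (EuclideanSpace.single j 1) := rfl

lemma norm_formVec_le (B : E d →L[ℝ] ℝ) : ‖formVec d B‖ ≤ ‖B‖ := by
  have h : B (formVec d B) = ‖formVec d B‖ ^ 2 := by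
    conv_lhs => rw [← (EuclideanSpace.basisFun (Fin d) ℝ).sum_repr' (formVec d B)]
    rw [EuclideanSpace.real_norm_sq_eq]
    simp [map_sum, map_smul, formVec_apply, sq, EuclideanSpace.inner_single_left]
  have h2 : ‖formVec d B‖ ^ 2 ≤ ‖B‖ * ‖formVec d B‖ := by
    rw [← h]
    exact (le_abs_self _).trans ((Real.norm_eq_abs _).symm.trans_le (B.le_opNorm _))
  rcases eq_or_lt_of_le (norm_nonneg (formVec d B)) with h0 | h0
  · rw [← h0]; exact norm_nonneg _
  · nlinarith

end hessian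

end Vale.Agent.P347
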