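import Vale.Agent.P347.Defs

/-!
P347: the class of targets and the query complexity, stated with second derivatives along lines.
-/

open MeasureTheory Filter Real
open scoped Gradient

namespace Vale.Agent.P347

/-- The class `V_d`: twice continuously differentiable potentials vanishing to first order at the
origin, whose second derivative along `h` lies between `‖h‖²` and `2 ‖h‖²` everywhere, that is,
`I ≤ ∇²V ≤ 2 I`. -/
def Target (d : ℕ) (V : E d → ℝ) : Prop :=
  ContDiff ℝ 2 V ∧ V 0 = 0 ∧ ∇ V 0 = 0 ∧
    ∀ x h : E d, ‖h‖ ^ 2 ≤ iteratedDeriv 2 (fun t : ℝ => V (x + t • h)) 0 ∧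
      iteratedDeriv 2 (fun t : ℝ => V (x + t • h)) 0 ≤ 2 * ‖h‖ ^ 2

/-- The output is within total variation `1/10` of the Gibbs law on the whole class. -/
def Achieves {d q : ℕ} (A : Alg d q (E d)) : Prop :=
  ∀ V, Target d V → ∀ B : Set (E d), MeasurableSet B →
    |(A.outLaw V).real B - (gibbs V).real B| ≤ 1 / 10

/-- The least query budget sufficient for total variation accuracy `1/10`. -/
noncomputable def minQueries (d : ℕ) : ℕ :=
  sInf {q | ∃ A : Alg d q (E d), Achieves A}

/-- The second derivative along a line is the Hessian form. -/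
lemma iteratedDeriv_two_line {d : ℕ} {V : E d → ℝ} (hV : ContDiff ℝ 2 V) (x h : E d) :
    iteratedDeriv 2 (fun t : ℝ => V (x + t • h)) 0 = fderiv ℝ (fderiv ℝ V) x h h := by
  have hl : ∀ t : ℝ, HasDerivAt (fun t : ℝ => x + t • h) h t := fun t => by
    simpa using ((hasDerivAt_id t).smul_const h).const_add x
  have h1 : deriv (fun t : ℝ => V (x + t • h)) = fun t => fderiv ℝ V (x + t • h) h :=
    funext fun t =>
      ((hV.differentiable two_ne_zero _).hasFDerivAt.comp_hasDerivAt t (hl t)).deriv
  have h2 : HasDerivAt (fun t : ℝ => fderiv ℝ V (x + t • h))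
      (fderiv ℝ (fderiv ℝ V) x h) 0 := by
    have hd := ((hV.fderiv_right (m := 1) le_rfl).differentiable one_ne_zero x).hasFDerivAt
    exact hd.comp_hasDerivAt_of_eq 0 (hl 0) (by simp)
  rw [iteratedDeriv_succ, iteratedDeriv_one, h1]
  simpa using (h2.clm_apply (hasDerivAt_const (0 : ℝ) h)).deriv

lemma target_iff {d : ℕ} {V : E d → ℝ} : Target d V ↔ InClass d V := by
  unfold Target InClass
  refine and_congr_right fun hV => ?_
  simp only [iteratedDeriv_two_line hV]

lemma achieves_iff {d q : ℕ} {A : Alg d q (E d)} : Achieves A ↔ Solves A := by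
  simp only [Achieves, Solves, target_iff]

lemma minQueries_eq (d : ℕ) : minQueries d = Q d := by
  simp only [minQueries, Q, achieves_iff]

end Vale.Agent.P347
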