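import Vale.Agent.P347.Defs
import Vale.Agent.P347.Shortcuts

/-!
P347: randomly shifted trapezoidal rules in a doubly exponential variable.

Writing `ρ = exp (-exp y)` turns `∫_0^1 ρ^n dρ` into `∫ exp (y - a exp y) dy` with `a = n + 1`.
The shifted trapezoidal sum of this integrand is accurate to every polynomial order in the step,
uniformly in `a`, because all derivatives of the integrand are bounded uniformly in `a`.
-/

open MeasureTheory intervalIntegral Finset

namespace Vale.Agent.P347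

noncomputable section

namespace Trap

/-- The polynomial factors of the derivatives of the integrand. -/
def pol : ℕ → Polynomial ℝ
  | 0 => 1
  | j + 1 => pol j + Polynomial.X * (pol j).derivative - Polynomial.X * pol j

/-- The `j`-th derivative of `fun y => exp (y - a exp y)`. -/
def gd (a : ℝ) (j : ℕ) (y : ℝ) : ℝ :=
  Real.exp y * (pol j).eval (a * Real.exp y) * Real.exp (-(a * Real.exp y))

lemma gd_zero (a y : ℝ) : gd a 0 y = Real.exp (y - a * Real.exp y) := by
  simp [gd, pol, sub_eq_add_neg, Real.exp_add]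

lemma gd_hasDerivAt (a : ℝ) (j : ℕ) (y : ℝ) : HasDerivAt (gd a j) (gd a (j + 1) y) y := by
  have hs : HasDerivAt (fun y => a * Real.exp y) (a * Real.exp y) y :=
    (Real.hasDerivAt_exp y).const_mul a
  have hp := ((pol j).hasDerivAt (a * Real.exp y)).comp y hs
  have h := ((Real.hasDerivAt_exp y).mul hp).mul hs.neg.exp
  refine HasDerivAt.congr_deriv h ?_
  simp only [gd, pol, Function.comp_apply, Polynomial.eval_add, Polynomial.eval_sub,
    Polynomial.eval_mul, Polynomial.eval_X, Pi.mul_apply, Pi.neg_apply]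
  ring

lemma gd_continuous (a : ℝ) (j : ℕ) : Continuous (gd a j) :=
  continuous_iff_continuousAt.2 fun y => (gd_hasDerivAt a j y).continuousAt

lemma poly_bound (p : Polynomial ℝ) :
    ∃ C, 0 ≤ C ∧ ∀ s : ℝ, 0 ≤ s → |p.eval s| ≤ C * Real.exp (s / 2) := by
  induction p using Polynomial.induction_on' with
  | add p q hp hq =>
    obtain ⟨C, hC, h1⟩ := hp
    obtain ⟨D, hD, h2⟩ := hq
    refine ⟨C + D, add_nonneg hC hD, fun s hs => ?_⟩
    rw [Polynomial.eval_add, add_mul]
    exact (abs_add_le _ _).trans (add_le_add (h1 s hs) (h2 s hs))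
  | monomial k c =>
    refine ⟨|c| * (2 ^ k * k.factorial), by positivity, fun s hs => ?_⟩
    rw [Polynomial.eval_monomial, abs_mul, abs_of_nonneg (pow_nonneg hs k), mul_assoc]
    refine mul_le_mul_of_nonneg_left ?_ (abs_nonneg c)
    have h := Real.pow_div_factorial_le_exp (s / 2) (by linarith) k
    rw [div_le_iff₀ (by positivity), div_pow, div_le_iff₀ (by positivity)] at h
    linarith

lemma gd_bound (j : ℕ) : ∃ C, 0 ≤ C ∧ ∀ a y : ℝ, 1 ≤ a →
    |gd a j y| ≤ C * (Real.exp y * Real.exp (-(Real.exp y / 2))) := by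
  obtain ⟨C, hC, h⟩ := poly_bound (pol j)
  refine ⟨C, hC, fun a y ha => ?_⟩
  have hs : 0 ≤ a * Real.exp y := mul_nonneg (by linarith) (Real.exp_nonneg y)
  rw [gd, abs_mul, abs_mul, abs_of_pos (Real.exp_pos y), abs_of_pos (Real.exp_pos _)]
  calc Real.exp y * |(pol j).eval (a * Real.exp y)| * Real.exp (-(a * Real.exp y))
      ≤ Real.exp y * (C * Real.exp (a * Real.exp y / 2)) * Real.exp (-(a * Real.exp y)) := by
        gcongr
        exact h _ hs
    _ = C * (Real.exp y * Real.exp (-(a * Real.exp y / 2))) := by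
        rw [mul_assoc, mul_assoc, ← Real.exp_add]
        ring_nf
    _ ≤ C * (Real.exp y * Real.exp (-(Real.exp y / 2))) := by
        gcongr
        nlinarith [Real.exp_pos y]

lemma profile_le (y : ℝ) : Real.exp y * Real.exp (-(Real.exp y / 2)) ≤ 2 := by
  rw [Real.exp_neg, mul_inv_le_iff₀ (Real.exp_pos _)]
  nlinarith [Real.add_one_le_exp (Real.exp y / 2)]

lemma profile_le_exp (y : ℝ) :
    Real.exp y * Real.exp (-(Real.exp y / 2)) ≤ 8 * Real.exp (-y) := by
  have h := Real.pow_div_factorial_le_exp (Real.exp y / 2) (by positivity) 2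
  rw [Real.exp_neg, Real.exp_neg, mul_inv_le_iff₀ (Real.exp_pos _)]
  rw [div_le_iff₀ (by positivity)] at h
  norm_num at h
  rw [mul_assoc, ← div_eq_inv_mul, ← mul_div_assoc, le_div_iff₀ (Real.exp_pos y)]
  nlinarith [h]

lemma gd_bound_unif (j : ℕ) : ∃ C, 0 ≤ C ∧ ∀ a y : ℝ, 1 ≤ a →
    |gd a j y| ≤ C ∧ |gd a j y| ≤ C * Real.exp (-|y|) := by
  obtain ⟨C, hC, h⟩ := gd_bound j
  refine ⟨8 * C, by positivity, fun a y ha => ⟨?_, ?_⟩⟩
  · refine (h a y ha).trans ?_
    nlinarith [profile_le y]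
  · refine (h a y ha).trans ?_
    rw [mul_comm (8 : ℝ), mul_assoc]
    refine mul_le_mul_of_nonneg_left ?_ hC
    rcases le_total 0 y with hy | hy
    · rw [abs_of_nonneg hy]
      exact profile_le_exp y
    · rw [abs_of_nonpos hy, neg_neg]
      have h1 : Real.exp (-(Real.exp y / 2)) ≤ 1 :=
        Real.exp_le_one_iff.2 (by linarith [Real.exp_pos y])
      nlinarith [Real.exp_pos y]

/-- The left end of the `k`-th cell. -/
def cell (K : ℕ) (h : ℝ) (k : ℕ) : ℝ := ((k : ℝ) - K) * h

lemma cell_zero (K : ℕ) (h : ℝ) : cell K h 0 = -(K * h) := by simp [cell]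

lemma cell_end (K : ℕ) (h : ℝ) : cell K h (2 * K) = K * h := by
  simp only [cell, Nat.cast_mul, Nat.cast_ofNat]
  ring

lemma cell_succ (K : ℕ) (h : ℝ) (k : ℕ) : cell K h (k + 1) = h + cell K h k := by
  simp [cell]; ring

/-- The trapezoidal sum with shift `U`. -/
def psum (K : ℕ) (h : ℝ) (f : ℝ → ℝ) (U : ℝ) : ℝ :=
  ∑ k ∈ range (2 * K), h * f (U + cell K h k)

lemma psum_mean (K : ℕ) (h : ℝ) {f : ℝ → ℝ}
    (hf : ∀ k < 2 * K, IntervalIntegrable f volume (cell K h k) (cell K h (k + 1))) :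
    ∫ U in (0 : ℝ)..h, psum K h f U = h * ∫ y in (-(K * h))..(K * h), f y := by
  have hi : ∀ k ∈ range (2 * K),
      IntervalIntegrable (fun U => h * f (U + cell K h k)) volume 0 h := by
    intro k hk
    have := (hf k (mem_range.1 hk)).comp_add_right (cell K h k)
    rw [sub_self, cell_succ, add_sub_cancel_right] at this
    exact this.const_mul h
  unfold psum
  rw [intervalIntegral.integral_finsetSum hi, ← cell_zero, ← cell_end,
    ← sum_integral_adjacent_intervals hf, Finset.mul_sum]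
  refine Finset.sum_congr rfl fun k _ => ?_
  rw [intervalIntegral.integral_const_mul, intervalIntegral.integral_comp_add_right, zero_add,
    ← cell_succ]

lemma psum_hasDerivAt (K : ℕ) (h : ℝ) {f f' : ℝ → ℝ} (hf : ∀ y, HasDerivAt f (f' y) y) (U : ℝ) :
    HasDerivAt (psum K h f) (psum K h f' U) U := by
  refine HasDerivAt.fun_sum fun k _ => ?_
  exact ((hf _).comp_add_const U (cell K h k)).const_mul h

lemma psum_dev (K : ℕ) {h : ℝ} (hh : 0 < h) {f f' : ℝ → ℝ} (hf : ∀ y, HasDerivAt f (f' y) y)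
    {B : ℝ} (hB : ∀ V ∈ Set.Icc 0 h, |psum K h f' V| ≤ B) {U : ℝ} (hU : U ∈ Set.Icc 0 h) :
    |psum K h f U - ∫ y in (-(K * h))..(K * h), f y| ≤ B * h := by
  have hfc : Continuous f := continuous_iff_continuousAt.2 fun y => (hf y).continuousAt
  have hB0 : 0 ≤ B := (abs_nonneg _).trans (hB U hU)
  have hlip : ∀ V ∈ Set.Icc 0 h, |psum K h f U - psum K h f V| ≤ B * h := by
    intro V hV
    have := Convex.norm_image_sub_le_of_norm_hasDerivWithin_le
      (fun x _ => (psum_hasDerivAt K h hf x).hasDerivWithinAt)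
      (fun x hx => by rw [Real.norm_eq_abs]; exact hB x hx) (convex_Icc 0 h) hV hU
    rw [Real.norm_eq_abs, Real.norm_eq_abs] at this
    refine this.trans (mul_le_mul_of_nonneg_left ?_ hB0)
    rw [abs_le]
    constructor <;> linarith [hU.1, hU.2, hV.1, hV.2]
  have hpc : Continuous (psum K h f) :=
    continuous_iff_continuousAt.2 fun V => (psum_hasDerivAt K h hf V).continuousAt
  have h1 : ∫ V in (0 : ℝ)..h, (psum K h f U - psum K h f V) =
      h * (psum K h f U - ∫ y in (-(K * h))..(K * h), f y) := by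
    rw [intervalIntegral.integral_sub intervalIntegrable_const (hpc.intervalIntegrable _ _),
      intervalIntegral.integral_const, psum_mean K h fun k _ => hfc.intervalIntegrable _ _,
      smul_eq_mul]
    ring
  have h2 := intervalIntegral.norm_integral_le_of_norm_le_const (a := 0) (b := h) (C := B * h)
    (f := fun V => psum K h f U - psum K h f V) fun V hV => by
      rw [Set.uIoc_of_le hh.le] at hV
      exact hlip V ⟨hV.1.le, hV.2⟩
  rw [h1, Real.norm_eq_abs, abs_mul, sub_zero, abs_of_pos hh, mul_comm (B * h) h] at h2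
  exact le_of_mul_le_mul_left h2 hh

/-- The sum of a derivative of positive order is small to any order in `h`. -/
lemma psum_gd_small (i : ℕ) : ∀ j, ∃ D, 0 ≤ D ∧ ∀ (a : ℝ) (K : ℕ) (h U : ℝ), 1 ≤ a → 0 < h →
    h ≤ 1 → U ∈ Set.Icc 0 h →
      |psum K h (gd a (j + 1)) U| ≤ D * (Real.exp (-(K * h)) + h ^ i * (K * h)) := by
  induction i with
  | zero =>
    intro j
    obtain ⟨C, hC, hb⟩ := gd_bound_unif (j + 1)
    refine ⟨2 * C, by positivity, fun a K h U ha hh _ _ => ?_⟩
    calc |psum K h (gd a (j + 1)) U| ≤ ∑ k ∈ range (2 * K), |h * gd a (j + 1) (U + cell K h k)| :=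
          Finset.abs_sum_le_sum_abs _ _
      _ ≤ ∑ _k ∈ range (2 * K), h * C := by
          refine Finset.sum_le_sum fun k _ => ?_
          rw [abs_mul, abs_of_pos hh]
          exact mul_le_mul_of_nonneg_left (hb a _ ha).1 hh.le
      _ ≤ 2 * C * (Real.exp (-(K * h)) + h ^ 0 * (K * h)) := by
          rw [Finset.sum_const, card_range, nsmul_eq_mul]
          push_cast
          nlinarith [mul_nonneg hC (Real.exp_nonneg (-(K * h)))]
  | succ i ih =>
    intro j
    obtain ⟨C, hC, hb⟩ := gd_bound_unif j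
    obtain ⟨D, hD, hd⟩ := ih (j + 1)
    refine ⟨2 * C + D, by positivity, fun a K h U ha hh hh1 hU => ?_⟩
    have hY : 0 ≤ K * h := by positivity
    have hdev := psum_dev K hh (gd_hasDerivAt a (j + 1)) (fun V hV => hd a K h V ha hh hh1 hV) hU
    have hint : |∫ y in (-(K * h))..(K * h), gd a (j + 1) y| ≤ 2 * C * Real.exp (-(K * h)) := by
      rw [integral_eq_sub_of_hasDerivAt (fun y _ => gd_hasDerivAt a j y)
        ((gd_continuous a (j + 1)).intervalIntegrable _ _)]
      have e1 := (hb a (K * h) ha).2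
      have e2 := (hb a (-(K * h)) ha).2
      rw [abs_neg] at e2
      rw [abs_of_nonneg hY] at e1 e2
      linarith [abs_sub (gd a j (K * h)) (gd a j (-(K * h)))]
    have hexp : 0 ≤ Real.exp (-(K * h)) := Real.exp_nonneg _
    have hpow : 0 ≤ h ^ i * (K * h) := by positivity
    have htri : |psum K h (gd a (j + 1)) U| ≤
        |psum K h (gd a (j + 1)) U - ∫ y in (-(K * h))..(K * h), gd a (j + 1) y| +
          |∫ y in (-(K * h))..(K * h), gd a (j + 1) y| := by
      simpa using abs_add_le (psum K h (gd a (j + 1)) U - ∫ y in (-(K * h))..(K * h), gd a (j + 1) y)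
        (∫ y in (-(K * h))..(K * h), gd a (j + 1) y)
    have h3 : D * (Real.exp (-(K * h)) + h ^ i * (K * h)) * h ≤
        D * Real.exp (-(K * h)) + D * (h ^ (i + 1) * (K * h)) := by
      have : D * Real.exp (-(K * h)) * h ≤ D * Real.exp (-(K * h)) :=
        mul_le_of_le_one_right (mul_nonneg hD hexp) hh1
      rw [pow_succ]
      nlinarith [this]
    have h4 : 0 ≤ 2 * C * (h ^ (i + 1) * (K * h)) := by positivity
    nlinarith [htri, hdev, hint, h3, h4]

/-- The trapezoidal sum reproduces `1 / a` to any order in `h`, uniformly in `a ≥ 1`. -/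
lemma psum_main (m : ℕ) : ∃ D, 0 ≤ D ∧ ∀ (a : ℝ) (K : ℕ) (h U : ℝ), 1 ≤ a → 0 < h →
    h ≤ 1 → U ∈ Set.Icc 0 h →
      |psum K h (gd a 0) U - 1 / a| ≤ D * (Real.exp (-(K * h)) + h ^ m * (K * h)) := by
  obtain ⟨D, hD, hd⟩ := psum_gd_small m 0
  refine ⟨D + 2, by positivity, fun a K h U ha hh hh1 hU => ?_⟩
  have ha0 : 0 < a := by linarith
  have hdev := psum_dev K hh (gd_hasDerivAt a 0) (fun V hV => hd a K h V ha hh hh1 hV) hU
  have hF : ∀ y, HasDerivAt (fun y => -Real.exp (-(a * Real.exp y)) / a) (gd a 0 y) y := by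
    intro y
    refine ((((Real.hasDerivAt_exp y).const_mul a).neg.exp).neg.div_const a).congr_deriv ?_
    simp only [gd, pol, Polynomial.eval_one, mul_one, Pi.neg_apply]
    field_simp
  have hint : |(∫ y in (-(K * h))..(K * h), gd a 0 y) - 1 / a| ≤ 2 * Real.exp (-(K * h)) := by
    rw [integral_eq_sub_of_hasDerivAt (fun y _ => hF y)
      ((gd_continuous a 0).intervalIntegrable _ _)]
    have e1 : 1 - a * Real.exp (-(K * h)) ≤ Real.exp (-(a * Real.exp (-(K * h)))) := by
      linarith [Real.add_one_le_exp (-(a * Real.exp (-(K * h))))]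
    have e2 : Real.exp (-(a * Real.exp (-(K * h)))) ≤ 1 :=
      Real.exp_le_one_iff.2 (by nlinarith [Real.exp_pos (-(K * h))])
    have e3 : Real.exp (-(a * Real.exp (K * h))) ≤ Real.exp (-(K * h)) :=
      Real.exp_le_exp.2 (by nlinarith [Real.add_one_le_exp (K * h), Real.exp_pos (K * h)])
    have e4 := Real.exp_pos (-(a * Real.exp (K * h)))
    have e5 : Real.exp (-(K * h)) ≤ a * Real.exp (-(K * h)) :=
      le_mul_of_one_le_left (Real.exp_nonneg _) ha
    have hd' : -Real.exp (-(a * Real.exp (K * h))) / a -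
          -Real.exp (-(a * Real.exp (-(K * h)))) / a - 1 / a =
        -((1 - Real.exp (-(a * Real.exp (-(K * h)))) + Real.exp (-(a * Real.exp (K * h)))) / a) := by
      ring
    rw [hd', abs_neg, abs_of_nonneg (div_nonneg (by linarith) ha0.le), div_le_iff₀ ha0]
    nlinarith [e1, e3, e5]
  have hexp : 0 ≤ Real.exp (-(K * h)) := Real.exp_nonneg _
  have hpow : 0 ≤ h ^ m * (K * h) := by positivity
  have h3 : D * (Real.exp (-(K * h)) + h ^ m * (K * h)) * h ≤
      D * (Real.exp (-(K * h)) + h ^ m * (K * h)) :=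
    mul_le_of_le_one_right (mul_nonneg hD (add_nonneg hexp hpow)) hh1
  have htri := abs_sub_le (psum K h (gd a 0) U) (∫ y in (-(K * h))..(K * h), gd a 0 y) (1 / a)
  nlinarith [htri, hdev, hint, h3, hpow]

/-- The node map. -/
def rho (y : ℝ) : ℝ := Real.exp (-Real.exp y)

lemma rho_anti : Antitone rho := fun _ _ h =>
  Real.exp_le_exp.2 (neg_le_neg (Real.exp_le_exp.2 h))

lemma rho_continuous : Continuous rho := Real.continuous_exp.comp Real.continuous_exp.neg

lemma rho_hasDerivAt (y : ℝ) : HasDerivAt rho (-gd 1 0 y) y := by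
  refine ((Real.hasDerivAt_exp y).neg.exp).congr_deriv ?_
  simp only [gd, pol, Polynomial.eval_one, one_mul, mul_one, Pi.neg_apply]
  ring

lemma gd_mul_rho_pow (n : ℕ) (y : ℝ) : gd 1 0 y * rho y ^ n = gd ((n : ℝ) + 1) 0 y := by
  simp only [gd_zero, rho, ← Real.exp_nat_mul, ← Real.exp_add]
  congr 1
  ring

/-- The shift, clamped to the first cell. -/
def clamp (h U : ℝ) : ℝ := max 0 (min h U)

lemma clamp_mem {h : ℝ} (hh : 0 ≤ h) (U : ℝ) : clamp h U ∈ Set.Icc 0 h :=
  ⟨le_max_left _ _, max_le hh (min_le_left _ _)⟩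

lemma clamp_eq {h U : ℝ} (hU : U ∈ Set.Icc 0 h) : clamp h U = U := by
  simp [clamp, hU.1, hU.2]

lemma clamp_continuous (h : ℝ) : Continuous (clamp h) :=
  continuous_const.max (continuous_const.min continuous_id)

lemma node_range {K : ℕ} {h U : ℝ} (hh : 0 ≤ h) {k : ℕ} (hk : k < 2 * K) :
    clamp h U + cell K h k ∈ Set.Icc (-(K * h)) (K * h) := by
  have h1 := clamp_mem hh U
  have h2 : (k : ℝ) + 1 ≤ 2 * K := by exact_mod_cast hk
  simp only [cell]
  constructor <;> nlinarith [h1.1, h1.2, mul_nonneg (Nat.cast_nonneg k : (0 : ℝ) ≤ k) hh]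

lemma sum_fin_eq_psum (K : ℕ) (h U : ℝ) (F : ℝ → ℝ) :
    ∑ k : Fin (2 * K), h * gd 1 0 (clamp h U + cell K h k) * F (rho (clamp h U + cell K h k)) =
      psum K h (fun y => gd 1 0 y * F (rho y)) (clamp h U) := by
  rw [Fin.sum_univ_eq_sum_range
    (fun k => h * gd 1 0 (clamp h U + cell K h k) * F (rho (clamp h U + cell K h k))) (2 * K)]
  simp only [psum, mul_assoc]

lemma shift_isProb {h : ℝ} (hh : 0 < h) :
    IsProbabilityMeasure ((ENNReal.ofReal h)⁻¹ • volume.restrict (Set.Ioc 0 h)) := by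
  refine ⟨?_⟩
  rw [Measure.smul_apply, Measure.restrict_apply_univ, Real.volume_Ioc, sub_zero, smul_eq_mul]
  exact ENNReal.inv_mul_cancel (by simp [hh]) ENNReal.ofReal_ne_top

lemma rho_exact (K : ℕ) {h : ℝ} (hh : 0 < h) (F : ℝ → ℝ)
    (hF : ContinuousOn F (Set.Icc (rho (K * h)) (rho (-(K * h))))) :
    ∫ U, ∑ k : Fin (2 * K), h * gd 1 0 (clamp h U + cell K h k) *
        F (rho (clamp h U + cell K h k)) ∂((ENNReal.ofReal h)⁻¹ • volume.restrict (Set.Ioc 0 h)) =
      ∫ u in rho (K * h)..rho (-(K * h)), F u := by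
  have hY : -((K : ℝ) * h) ≤ K * h := by nlinarith [(Nat.cast_nonneg K : (0 : ℝ) ≤ K)]
  have hmaps : Set.MapsTo rho (Set.Icc (-(K * h)) (K * h))
      (Set.Icc (rho (K * h)) (rho (-(K * h)))) :=
    fun y hy => ⟨rho_anti hy.2, rho_anti hy.1⟩
  have hGc : ContinuousOn (fun y => gd 1 0 y * F (rho y)) (Set.Icc (-(K * h)) (K * h)) :=
    (gd_continuous 1 0).continuousOn.mul (hF.comp rho_continuous.continuousOn hmaps)
  rw [MeasureTheory.integral_smul_measure, ENNReal.toReal_inv, ENNReal.toReal_ofReal hh.le,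
    ← intervalIntegral.integral_of_le hh.le]
  simp only [sum_fin_eq_psum, smul_eq_mul]
  rw [intervalIntegral.integral_congr (g := psum K h fun y => gd 1 0 y * F (rho y))
    (fun U hU => by
      rw [Set.uIcc_of_le hh.le] at hU
      rw [clamp_eq hU]),
    psum_mean K h, ← mul_assoc, inv_mul_cancel₀ hh.ne', one_mul]
  · have h1 := intervalIntegral.integral_comp_mul_deriv' (a := -((K : ℝ) * h)) (b := K * h)
      (f := rho) (f' := fun y => -gd 1 0 y) (g := F) (fun y _ => rho_hasDerivAt y)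
      (gd_continuous 1 0).neg.continuousOn
      (hF.mono (by
        rw [Set.uIcc_of_le hY]
        exact Set.image_subset_iff.2 hmaps))
    rw [intervalIntegral.integral_symm (rho (-((K : ℝ) * h))), ← h1,
      ← intervalIntegral.integral_neg]
    refine intervalIntegral.integral_congr fun y _ => ?_
    simp only [Function.comp_apply]
    ring
  · intro k hk
    refine (hGc.mono ?_).intervalIntegrable
    have h2 : (k : ℝ) + 1 ≤ 2 * K := by exact_mod_cast hk
    have h3 : 0 ≤ (k : ℝ) * h := by positivity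
    refine Set.uIcc_subset_Icc ?_ ?_ <;> simp only [cell, Nat.cast_add, Nat.cast_one] <;>
      constructor <;> nlinarith

/-- The rule on `2 * K` nodes with step `h`, given a bound on its moment errors. -/
def rule (K : ℕ) {h : ℝ} (hh : 0 < h) {ε : ℝ}
    (hends : rho (K * h) + (1 - rho (-(K * h))) ≤ ε)
    (hmom : ∀ (n : ℕ) (U : ℝ), U ∈ Set.Icc 0 h →
      |psum K h (gd ((n : ℝ) + 1) 0) U - 1 / ((n : ℝ) + 1)| ≤ ε) : Rule (2 * K) ε where
  shift := (ENNReal.ofReal h)⁻¹ • volume.restrict (Set.Ioc 0 h)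
  shift_prob := shift_isProb hh
  node k U := rho (clamp h U + cell K h k)
  weight k U := h * gd 1 0 (clamp h U + cell K h k)
  lo := rho (K * h)
  hi := rho (-(K * h))
  node_continuous _ := rho_continuous.comp ((clamp_continuous h).add continuous_const)
  weight_continuous _ :=
    continuous_const.mul ((gd_continuous 1 0).comp ((clamp_continuous h).add continuous_const))
  lo_nonneg := (Real.exp_pos _).le
  lo_le_hi := rho_anti (by nlinarith [(Nat.cast_nonneg K : (0 : ℝ) ≤ K)])
  hi_lt_one := Real.exp_lt_one_iff.2 (neg_neg_of_pos (Real.exp_pos _))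
  ends_le := hends
  node_mem k _ := ⟨rho_anti (node_range hh.le k.isLt).2, rho_anti (node_range hh.le k.isLt).1⟩
  weight_nonneg _ _ := mul_nonneg hh.le (by rw [gd_zero]; exact Real.exp_nonneg _)
  moment n U := by
    rw [sum_fin_eq_psum K h U (fun u => u ^ n)]
    simp only [gd_mul_rho_pow]
    exact hmom n _ (clamp_mem hh.le U)
  exact F hF := rho_exact K hh F hF

end Trap

open Trap in
/-- For every order `M` and every `ε' > 0` there are rules with `O(x ^ ε')` nodes that are
accurate to `O(x ^ (-M))`. -/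
theorem exists_rule (M : ℕ) (ε' : ℝ) (hε : 0 < ε') :
    ∃ C : ℝ, ∀ x : ℝ, 2 ≤ x → ∃ N : ℕ, (N : ℝ) ≤ C * x ^ ε' ∧
      Nonempty (Rule N (C * x ^ (-(M : ℝ)))) := by
  obtain ⟨m, hm⟩ := exists_nat_ge (2 * (M : ℝ) / ε' + 1)
  obtain ⟨D, hD, hd⟩ := psum_main m
  set c : ℝ := (M : ℝ) / (ε' / 2) + 2 with hc
  have hc2 : 2 ≤ c := le_add_of_nonneg_left (by positivity)
  refine ⟨2 + 2 * c + D * (1 + c), fun x hx => ?_⟩
  have hx0 : 0 < x := by linarith
  have hx1 : 1 ≤ x := by linarith
  set h : ℝ := x ^ (-(ε' / 2)) with hh_def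
  have hh : 0 < h := Real.rpow_pos_of_pos hx0 _
  have hh1 : h ≤ 1 := Real.rpow_le_one_of_one_le_of_nonpos hx1 (by linarith)
  have hlog : 0 ≤ (M : ℝ) * Real.log x := mul_nonneg (Nat.cast_nonneg M) (Real.log_nonneg hx1)
  set K : ℕ := ⌈(M : ℝ) * Real.log x / h⌉₊ + 1 with hK
  have hK1 : (M : ℝ) * Real.log x ≤ K * h := by
    rw [← div_le_iff₀ hh, hK]
    push_cast
    linarith [Nat.le_ceil ((M : ℝ) * Real.log x / h)]
  have hlx := Real.log_le_rpow_div hx0.le (half_pos hε)
  have hxe : 1 ≤ x ^ (ε' / 2) := Real.one_le_rpow hx1 (by linarith)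
  have hK2 : (K : ℝ) * h ≤ c * x ^ (ε' / 2) := by
    have h1 : (K : ℝ) ≤ (M : ℝ) * Real.log x / h + 2 := by
      rw [hK]
      push_cast
      linarith [Nat.ceil_lt_add_one (div_nonneg hlog hh.le)]
    have h2 : (K : ℝ) * h ≤ (M : ℝ) * Real.log x + 2 := by
      have := mul_le_mul_of_nonneg_right h1 hh.le
      rw [add_mul, div_mul_cancel₀ _ hh.ne'] at this
      linarith
    have h3 : (M : ℝ) * Real.log x ≤ (M : ℝ) / (ε' / 2) * x ^ (ε' / 2) := by
      rw [div_mul_eq_mul_div, mul_div_assoc]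
      exact mul_le_mul_of_nonneg_left hlx (Nat.cast_nonneg M)
    rw [hc, add_mul]
    linarith
  have hinv : 1 / h = x ^ (ε' / 2) := by
    rw [hh_def, Real.rpow_neg hx0.le, one_div, inv_inv]
  have hKn : ((2 * K : ℕ) : ℝ) ≤ 2 * c * x ^ ε' := by
    have h5 : (K : ℝ) = K * h * x ^ (ε' / 2) := by
      rw [← hinv]; field_simp
    have h6 : x ^ ε' = x ^ (ε' / 2) * x ^ (ε' / 2) := by
      rw [← Real.rpow_add hx0]; ring_nf
    rw [Nat.cast_mul, h6]
    push_cast
    rw [h5]
    nlinarith [mul_le_mul_of_nonneg_right hK2 (zero_le_one.trans hxe)]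
  have hxM : 0 < x ^ (-(M : ℝ)) := Real.rpow_pos_of_pos hx0 _
  have hexpY : Real.exp (-(K * h)) ≤ x ^ (-(M : ℝ)) := by
    rw [Real.rpow_def_of_pos hx0]
    exact Real.exp_le_exp.2 (by linarith)
  have hpowY : h ^ m * (K * h) ≤ c * x ^ (-(M : ℝ)) := by
    have h7 : h ^ m * x ^ (ε' / 2) ≤ x ^ (-(M : ℝ)) := by
      rw [hh_def, ← Real.rpow_natCast, ← Real.rpow_mul hx0.le, ← Real.rpow_add hx0]
      refine Real.rpow_le_rpow_of_exponent_le hx1 ?_
      have := mul_le_mul_of_nonneg_left hm hε.le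
      rw [mul_add, mul_div_cancel₀ _ hε.ne'] at this
      linarith
    calc h ^ m * (K * h) ≤ h ^ m * (c * x ^ (ε' / 2)) :=
          mul_le_mul_of_nonneg_left hK2 (by positivity)
      _ = c * (h ^ m * x ^ (ε' / 2)) := by ring
      _ ≤ c * x ^ (-(M : ℝ)) := mul_le_mul_of_nonneg_left h7 (by linarith)
  have hxe' : 0 ≤ x ^ ε' := Real.rpow_nonneg hx0.le _
  refine ⟨2 * K, ?_, ⟨rule K hh ?_ ?_⟩⟩
  · have : 0 ≤ (2 + D * (1 + c)) * x ^ ε' := by positivity
    linarith
  · have h1 : rho (K * h) ≤ Real.exp (-(K * h)) :=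
      Real.exp_le_exp.2 (by linarith [Real.add_one_le_exp (K * h)])
    have h2 : 1 - rho (-(K * h)) ≤ Real.exp (-(K * h)) := by
      simp only [rho]
      linarith [Real.add_one_le_exp (-Real.exp (-(K * h)))]
    have h3 : 0 ≤ (2 * c + D * (1 + c)) * x ^ (-(M : ℝ)) :=
      mul_nonneg (add_nonneg (by linarith) (mul_nonneg hD (by linarith))) hxM.le
    linarith
  · intro n U hU
    refine (hd ((n : ℝ) + 1) K h U (by linarith [(Nat.cast_nonneg n : (0 : ℝ) ≤ n)])
      hh hh1 hU).trans ?_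
    have h8 := mul_le_mul_of_nonneg_left (add_le_add hexpY hpowY) hD
    have h9 : 0 ≤ (2 + 2 * c) * x ^ (-(M : ℝ)) := mul_nonneg (by linarith) hxM.le
    linarith

end

end Vale.Agent.P347
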